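import Vale.Agent.P237.Petty.Tail.Basic

/-!
# P237: the slope field of the tail

It lies between the circle abscissa and `1`, it is the edge field near the diagonal, and the
unbounded part of its derivative has the sign of the potential.
-/

namespace Vale.Agent.P237.Petty.Tail

open Centre

variable {m : ℕ} {M1 M2 η s S g q σ : ℝ}

theorem slopeField_eq_edge (h : S - s ≤ 7 / 20) :
    slopeField m M1 M2 η s S g = edgeField η s S ∧
      slopeField' m M1 M2 η s S g q σ = edgeField' η s S q := by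
  have hx : 5 / 2 * (S - s) ≤ 7 / 8 := by linarith
  obtain ⟨h1, h2⟩ := step_of_le hx
  simp [slopeField, slopeField', far, h1, h2]

theorem slopeField_eq_cliff (h : 2 / 5 ≤ S - s) :
    slopeField m M1 M2 η s S g = cliffField m M1 M2 s S g ∧
      slopeField' m M1 M2 η s S g q σ = cliffField' m M1 M2 s S g q σ := by
  have hx : 1 ≤ 5 / 2 * (S - s) := by linarith
  obtain ⟨h1, h2⟩ := step_of_one_le hx
  simp [slopeField, slopeField', far, h1, h2]

theorem edgeField_mem (hs : s ≤ 1) : s ≤ edgeField η s S ∧ edgeField η s S ≤ 1 := by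
  obtain ⟨h0, h1⟩ := step_mem ((1 - S) / ((1 - s) * η))
  have e : edgeField η s S = 1 - cut η s S * (1 - s) := by unfold edgeField; ring
  rw [e, cut]
  constructor
  · have := mul_le_mul_of_nonneg_right h1 (sub_nonneg.2 hs)
    linarith
  · have := mul_nonneg h0 (sub_nonneg.2 hs)
    linarith

theorem cliffField_mem (hs : s ≤ 1) :
    s ≤ cliffField m M1 M2 s S g ∧ cliffField m M1 M2 s S g ≤ 1 := by
  obtain ⟨h0, h1⟩ := step_mem (cliffArg m M1 M2 S g)
  unfold cliffField
  constructor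
  · have := mul_nonneg (sub_nonneg.2 hs) h0
    linarith
  · have := mul_le_mul_of_nonneg_left h1 (sub_nonneg.2 hs)
    linarith

theorem slopeField_mem (hs : s ≤ 1) :
    s ≤ slopeField m M1 M2 η s S g ∧ slopeField m M1 M2 η s S g ≤ 1 := by
  obtain ⟨h0, h1⟩ := step_mem (5 / 2 * (S - s))
  obtain ⟨a1, a2⟩ := edgeField_mem (η := η) (S := S) hs
  obtain ⟨b1, b2⟩ := cliffField_mem (m := m) (M1 := M1) (M2 := M2) (S := S) (g := g) hs
  unfold slopeField far
  constructor
  · have := mul_le_mul_of_nonneg_left b1 h0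
    have := mul_le_mul_of_nonneg_left a1 (sub_nonneg.2 h1)
    linarith
  · have := mul_le_mul_of_nonneg_left b2 h0
    have := mul_le_mul_of_nonneg_left a2 (sub_nonneg.2 h1)
    linarith

/-- Strictly above the surface of the switch the potential increases in the field. -/
theorem bracket_nonneg (hm : 3 ≤ m) (hM1 : 0 ≤ M1) (hM2 : 0 < M2) (hS : 0 ≤ S)
    (h : vSurf m M1 M2 * S ≤ g) :
    (m : ℝ) / ((m : ℝ) - 2) * M1 * S ^ 2 ≤ M2 * g ^ 2 := by
  have hm' : (3 : ℝ) ≤ m := by exact_mod_cast hm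
  have hv : 0 ≤ vSurf m M1 M2 := Real.sqrt_nonneg _
  have h2 := pow_le_pow_left₀ (mul_nonneg hv hS) h 2
  have he : 0 ≤ (m : ℝ) / ((m : ℝ) - 2) := div_nonneg (by linarith) (by linarith)
  rw [mul_pow, vSurf, Real.sq_sqrt (by positivity)] at h2
  have := mul_le_mul_of_nonneg_left h2 hM2.le
  rw [← mul_assoc, mul_div_cancel₀ _ hM2.ne'] at this
  exact this

/-- The potential times the derivative of the switch is nonnegative. -/
theorem potK_mul_step'_nonneg (hm : 3 ≤ m) (hM1 : 0 ≤ M1) (hM2 : 0 < M2) (hS : 0 ≤ S)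
    (hg : 0 ≤ g) {k : ℝ} (hk : k * S ≤ 1) :
    0 ≤ Ident.potK (m - 1) M1 M2 k S g * step' (cliffArg m M1 M2 S g) := by
  rcases le_total (cliffArg m M1 M2 S g) (7 / 8) with h | h
  · rw [(step_of_le h).2, mul_zero]
  rcases le_total 1 (cliffArg m M1 M2 S g) with h1 | h1
  · rw [(step_of_one_le h1).2, mul_zero]
  refine mul_nonneg ?_ (step'_bounds _).1
  have hsurf : vSurf m M1 M2 * S ≤ g := by
    have h2 : (m : ℝ) * (vSurf m M1 M2 * S - g) ≤ 0 := by
      have : cliffArg m M1 M2 S g = 1 + (m : ℝ) * (vSurf m M1 M2 * S - g) := rfl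
      linarith
    have hm0 : (0 : ℝ) < m := by exact_mod_cast (show 0 < m by omega)
    linarith [nonpos_of_mul_nonpos_right h2 hm0]
  have hb := bracket_nonneg hm hM1 hM2 hS hsurf
  obtain ⟨j, rfl⟩ : ∃ j, m = j + 3 := ⟨m - 3, by omega⟩
  have hj : (0 : ℝ) < (j : ℝ) + 1 := by positivity
  have hj3 : (0 : ℝ) < (j : ℝ) + 3 := by positivity
  have e : Ident.potK (j + 3 - 1) M1 M2 k S g = 2 * (1 - k * S) * g ^ (j + 1) /
      ((j : ℝ) + 3) * (M2 * g ^ 2 - ((j : ℝ) + 3) / ((j : ℝ) + 1) * M1 * S ^ 2) := by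
    simp only [Ident.potK, show j + 3 - 1 = j + 2 from rfl, show j + 2 - 1 = j + 1 from rfl,
      show j + 2 + 1 = j + 1 + 2 from rfl, pow_add]
    push_cast
    rw [show (j : ℝ) + 2 - 1 = (j : ℝ) + 1 by ring]
    field_simp
    ring
  rw [e]
  push_cast at hb
  rw [show (j : ℝ) + 3 - 2 = (j : ℝ) + 1 by ring] at hb
  have := sub_nonneg.2 hk
  have := sub_nonneg.2 hb
  positivity

/-- The derivative of the field without the unbounded part. -/
noncomputable def slopeFieldB' (m : ℕ) (M1 M2 η s S g q : ℝ) : ℝ :=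
  far s S * (1 - step (cliffArg m M1 M2 S g)) + (1 - far s S) * edgeField' η s S q +
    step' (5 / 2 * (S - s)) * (5 / 2) * (q - 1) *
      (cliffField m M1 M2 s S g - edgeField η s S)

/-- Against the potential only the bounded part of the derivative of the field can be negative. -/
theorem potK_mul_slopeField'_ge (hm : 3 ≤ m) (hM1 : 0 ≤ M1) (hM2 : 0 < M2) (hs0 : 0 ≤ s)
    (hs : s ≤ 1) (hS : 0 ≤ S) (hS1 : S ≤ 1) (hg : 0 ≤ g) (hq : 0 ≤ q) (hσ : 0 ≤ σ) :
    Ident.potK (m - 1) M1 M2 (slopeField m M1 M2 η s S g) S g *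
        slopeFieldB' m M1 M2 η s S g q ≤
      Ident.potK (m - 1) M1 M2 (slopeField m M1 M2 η s S g) S g *
        slopeField' m M1 M2 η s S g q σ := by
  obtain ⟨k0, k1⟩ := slopeField_mem (m := m) (M1 := M1) (M2 := M2) (η := η) (S := S) (g := g) hs
  have hk : slopeField m M1 M2 η s S g * S ≤ 1 := mul_le_one₀ k1 hS hS1
  have h := potK_mul_step'_nonneg hm hM1 hM2 hS hg hk
  have hw : 0 ≤ far s S * (1 - s) * ((m : ℝ) * (vSurf m M1 M2 + σ) * q) := by
    have := (step_mem (5 / 2 * (S - s))).1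
    have : 0 ≤ vSurf m M1 M2 := Real.sqrt_nonneg _
    have := sub_nonneg.2 hs
    unfold far
    positivity
  have := mul_nonneg h hw
  unfold slopeFieldB' slopeField' cliffField'
  linarith

end Vale.Agent.P237.Petty.Tail
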