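import Vale.Agent.P237.Petty.Tail.Defs
import Vale.Agent.P237.Petty.Centre.Phi

/-!
# P237: scalar facts for the tail

The cutoff, the strengthened inequality between the weighted means, and the size of `z - 1`.
-/

namespace Vale.Agent.P237.Petty.Tail

open Set Real

theorem sqp_nonneg (x : ℝ) : 0 ≤ sqp x := sq_nonneg _

theorem sqp_le_sq (x : ℝ) : sqp x ≤ x ^ 2 := by
  unfold sqp
  rcases le_total x 0 with h | h
  · rw [max_eq_right h]; nlinarith
  · rw [max_eq_left h]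

theorem sqp_of_nonneg {x : ℝ} (h : 0 ≤ x) : sqp x = x ^ 2 := by rw [sqp, max_eq_left h]

theorem sqp_of_nonpos {x : ℝ} (h : x ≤ 0) : sqp x = 0 := by rw [sqp, max_eq_right h]; simp

theorem sqp'_nonneg (x : ℝ) : 0 ≤ sqp' x := by
  unfold sqp'; positivity

theorem sqp'_of_nonpos {x : ℝ} (h : x ≤ 0) : sqp' x = 0 := by rw [sqp', max_eq_right h]; simp

theorem continuous_sqp : Continuous sqp := by unfold sqp; fun_prop

theorem continuous_sqp' : Continuous sqp' := by unfold sqp'; fun_prop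

theorem hasDerivAt_sqp (x : ℝ) : HasDerivAt sqp (sqp' x) x := by
  rcases lt_trichotomy x 0 with h | h | h
  · refine ((hasDerivAt_const x (0 : ℝ)).congr_of_eventuallyEq ?_).congr_deriv
      (sqp'_of_nonpos h.le).symm
    filter_upwards [Iio_mem_nhds h] with y hy using sqp_of_nonpos (le_of_lt hy)
  · subst h
    rw [sqp'_of_nonpos le_rfl, hasDerivAt_iff_isLittleO_nhds_zero]
    have e : (fun h : ℝ => sqp (0 + h) - sqp 0 - h • (0 : ℝ)) = sqp := by
      funext h; simp [sqp]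
    rw [e]
    refine (Asymptotics.isBigO_iff.2 ⟨1, Filter.Eventually.of_forall fun h => ?_⟩).trans_isLittleO
      (Asymptotics.isLittleO_pow_id (n := 2) (by norm_num) :
        (fun h : ℝ => h ^ 2) =o[nhds 0] fun h => h)
    rw [one_mul, norm_of_nonneg (sqp_nonneg h), norm_of_nonneg (sq_nonneg h)]
    exact sqp_le_sq h
  · refine ((hasDerivAt_pow 2 x).congr_of_eventuallyEq ?_).congr_deriv (by
      rw [sqp', max_eq_left h.le]; simp)
    filter_upwards [Ioi_mem_nhds h] with y hy using sqp_of_nonneg (le_of_lt hy)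

theorem hasDerivAt_step (x : ℝ) : HasDerivAt step (step' x) x := by
  have hin : HasDerivAt (fun y => 8 * y - 7) 8 x := by
    simpa using ((hasDerivAt_id x).const_mul 8).sub_const 7
  have h := ((hasDerivAt_sqp (1 - sqp (8 * x - 7))).comp x
    (((hasDerivAt_sqp (8 * x - 7)).comp x hin).const_sub 1)).const_sub 1
  refine h.congr_deriv ?_
  rw [step']
  ring

theorem continuous_step : Continuous step := by
  unfold step
  exact continuous_const.sub (continuous_sqp.comp (continuous_const.sub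
    (continuous_sqp.comp (by fun_prop))))

theorem step_mem (x : ℝ) : 0 ≤ step x ∧ step x ≤ 1 := by
  have h := sqp_nonneg (8 * x - 7)
  refine ⟨?_, by unfold step; linarith [sqp_nonneg (1 - sqp (8 * x - 7))]⟩
  unfold step
  rcases le_total (1 - sqp (8 * x - 7)) 0 with h1 | h1
  · rw [sqp_of_nonpos h1]; norm_num
  · rw [sqp_of_nonneg h1]; nlinarith

theorem step_of_one_le {x : ℝ} (h : 1 ≤ x) : step x = 1 ∧ step' x = 0 := by
  have h1 : 1 - sqp (8 * x - 7) ≤ 0 := by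
    rw [sqp_of_nonneg (by linarith)]; nlinarith
  simp [step, step', sqp_of_nonpos h1, sqp'_of_nonpos h1]

theorem step_of_le {x : ℝ} (h : x ≤ 7 / 8) : step x = 0 ∧ step' x = 0 := by
  have h1 : 8 * x - 7 ≤ 0 := by linarith
  simp [step, step', sqp_of_nonpos h1, sqp'_of_nonpos h1, sqp_of_nonneg zero_le_one]

theorem step'_bounds (x : ℝ) : 0 ≤ step' x ∧ step' x ≤ 32 := by
  refine ⟨mul_nonneg (mul_nonneg (by norm_num : (0 : ℝ) ≤ 8) (sqp'_nonneg _)) (sqp'_nonneg _), ?_⟩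
  rcases le_total 1 x with h | h
  · rw [(step_of_one_le h).2]; norm_num
  · have a1 : sqp' (8 * x - 7) ≤ 2 := by
      unfold sqp'; linarith [max_le (show 8 * x - 7 ≤ 1 by linarith) zero_le_one]
    have a2 : sqp' (1 - sqp (8 * x - 7)) ≤ 2 := by
      unfold sqp'
      linarith [max_le (show 1 - sqp (8 * x - 7) ≤ 1 by linarith [sqp_nonneg (8 * x - 7)])
        zero_le_one]
    unfold step'
    nlinarith [sqp'_nonneg (8 * x - 7), sqp'_nonneg (1 - sqp (8 * x - 7))]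

variable {m : ℕ} {z Q R : ℝ}

/-- The refined inequality between the weighted means. -/
theorem third_ge (hm : 2 ≤ m) (hz : 0 < z) (hQ : z ^ m ≤ Q) :
    (m : ℝ)⁻¹ * (z ^ m - 1) ^ 2 ≤
      2 * (Q + 1) * ((1 - (m : ℝ)⁻¹) * (z ^ m - 1) - (z ^ (m - 1) - 1)) := by
  have hm2 : (2 : ℝ) ≤ m := by exact_mod_cast hm
  set L := (m : ℝ) * log z with hL
  set y := exp (L / 2) with hy
  have hq : z ^ m = y ^ 2 := by
    rw [hy, ← exp_nat_mul, show ((2 : ℕ) : ℝ) * (L / 2) = L by push_cast; ring, hL, ← log_pow,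
      exp_log (pow_pos hz m)]
  have he : (m : ℝ)⁻¹ ≤ 1 / 2 := by rw [inv_le_comm₀ (by linarith) (by norm_num)]; linarith
  have he0 : (0 : ℝ) < (m : ℝ)⁻¹ := by positivity
  have h := convexOn_exp.2 (mem_univ L) (mem_univ (L / 2))
    (show (0 : ℝ) ≤ 1 - 2 * (m : ℝ)⁻¹ by linarith) (show (0 : ℝ) ≤ 2 * (m : ℝ)⁻¹ by linarith)
    (by ring)
  simp only [smul_eq_mul] at h
  have hw : (1 - 2 * (m : ℝ)⁻¹) * L + 2 * (m : ℝ)⁻¹ * (L / 2) = ((m - 1 : ℕ) : ℝ) * log z := by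
    rw [hL, Nat.cast_sub (by omega)]
    field_simp
    push_cast
    ring
  rw [hw, ← log_pow, exp_log (pow_pos hz _), ← hy] at h
  have hexpL : exp L = y ^ 2 := by rw [hy, ← exp_nat_mul]; push_cast; ring_nf
  rw [hexpL] at h
  rw [hq] at hQ ⊢
  have hy0 : 0 < y := exp_pos _
  have key : (m : ℝ)⁻¹ * (y - 1) ^ 2 ≤ (1 - (m : ℝ)⁻¹) * (y ^ 2 - 1) - (z ^ (m - 1) - 1) := by
    linarith
  have hy2 : (y + 1) ^ 2 ≤ 2 * (Q + 1) := by nlinarith [sq_nonneg (y - 1)]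
  have h0 : 0 ≤ (1 - (m : ℝ)⁻¹) * (y ^ 2 - 1) - (z ^ (m - 1) - 1) :=
    le_trans (by positivity) key
  calc (m : ℝ)⁻¹ * (y ^ 2 - 1) ^ 2 = (y + 1) ^ 2 * ((m : ℝ)⁻¹ * (y - 1) ^ 2) := by ring
    _ ≤ (y + 1) ^ 2 * ((1 - (m : ℝ)⁻¹) * (y ^ 2 - 1) - (z ^ (m - 1) - 1)) :=
        mul_le_mul_of_nonneg_left key (sq_nonneg _)
    _ ≤ _ := mul_le_mul_of_nonneg_right hy2 h0

/-- The size of `z` and of `z - 1` when `z ^ m` stays in `[1/R, Q]`. -/
theorem z_bounds (hm : 1 ≤ m) (hz : 0 < z) (hQ : z ^ m ≤ Q) (hR : (z ^ m)⁻¹ ≤ R) (hQm : Q ≤ m)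
    (hRm : R ≤ m) :
    z ≤ 2 ∧ z⁻¹ ≤ 2 ∧ |z⁻¹ - 1| ≤ (m : ℝ)⁻¹ * (1 + R) * |z ^ m - 1| := by
  have hm0 : (0 : ℝ) < m := by exact_mod_cast hm
  have hq : 0 < z ^ m := pow_pos hz m
  have hR0 : 0 < R := lt_of_lt_of_le (inv_pos.2 hq) hR
  have b1 : (m : ℝ) * (z - 1) ≤ z ^ m - 1 := by
    have := one_add_mul_le_pow (a := z - 1) (by linarith) m
    rw [add_sub_cancel] at this
    linarith
  have b2 : (m : ℝ) * (z⁻¹ - 1) ≤ (z ^ m)⁻¹ - 1 := by
    have := one_add_mul_le_pow (a := z⁻¹ - 1) (by linarith [inv_pos.2 hz]) m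
    rw [add_sub_cancel, inv_pow] at this
    linarith
  refine ⟨?_, ?_, ?_⟩
  · by_contra hc
    nlinarith [not_le.1 hc]
  · by_contra hc
    nlinarith [not_le.1 hc]
  · rw [show (m : ℝ)⁻¹ * (1 + R) * |z ^ m - 1| = (1 + R) * |z ^ m - 1| / m by ring,
      le_div_iff₀ hm0]
    rcases le_total 1 z with h | h
    · have hz1 : z⁻¹ ≤ 1 := inv_le_one_of_one_le₀ h
      have hq1 : 1 ≤ z ^ m := one_le_pow₀ h
      rw [abs_of_nonpos (by linarith), abs_of_nonneg (by linarith)]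
      have h1 : 1 - z⁻¹ ≤ z - 1 := by
        have e : z + z⁻¹ - 2 = (z - 1) ^ 2 / z := by field_simp; ring
        have : 0 ≤ (z - 1) ^ 2 / z := by positivity
        linarith
      nlinarith
    · have hz1 : 1 ≤ z⁻¹ := one_le_inv₀ hz |>.2 h
      have hq1 : z ^ m ≤ 1 := pow_le_one₀ hz.le h
      rw [abs_of_nonneg (by linarith), abs_of_nonpos (by linarith)]
      have h1 : (z ^ m)⁻¹ - 1 = (z ^ m)⁻¹ * (1 - z ^ m) := by field_simp
      nlinarith [mul_le_mul_of_nonneg_right hR (sub_nonneg.2 hq1)]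

end Vale.Agent.P237.Petty.Tail
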