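import Vale.Agent.P237.Petty.Tail.Centre
import Vale.Agent.P237.Petty.Centre.BridgeTail

/-!
# P237: the steps in all large dimensions from the sign on the tail

On the centre the sign of the whole integrand is the centre estimate. So a sign on the remaining
states gives, through the bridge, the linear inequality and the step in every large dimension.
-/

namespace Vale.Agent.P237.Petty.Tail

open Centre Set

/-- The steps in all large dimensions, given the sign of the integrand outside the centre. -/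
theorem stepHolds_of_tail
    (htail : ∀ C : ℝ, 0 ≤ C → ∃ a A A' κ η : ℝ, 1 / 5000 ≤ a ∧ 0 < η ∧ η ≤ 11 / 20 ∧ 0 ≤ κ ∧
      κ ≤ 1 / 8 ∧ ∃ N : ℕ, ∀ (p : ℕ) (g σ : ℝ → ℝ) (lam : ℝ), N ≤ p → Regular g →
        Transport p g σ → 0 < lam → lam ≤ 1 → lowPick p ≤ lam →
        (∀ u ∈ Icc (-1 : ℝ) 1, lam * √(1 - u ^ 2) ≤ g u) →
        ∀ t ∈ Ioo (0 : ℝ) 1, (9 / 20 < t ∨ 1 / 5000 < σ t) →
          0 ≤ total (p + 1) (Ident.b0 p) (Ident.coefPi p (muPick p)) (Ident.coefJ p (nuPick p))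
            C a A A' κ η (σ t) t (cs (σ t) / g t) (-slopeR g t)) :
    ∃ N : ℕ, 2 ≤ N ∧ ∀ p, N ≤ p + 1 → StepHolds.{0} p := by
  obtain ⟨C, hC, N₁, hN₁, hcen⟩ := total_centre
  obtain ⟨a, A, A', κ, η, ha, hη, hη', hκ, hκ', N₂, htl⟩ := htail C hC
  refine ⟨N₁ + N₂ + 1, by omega, fun p hp => ?_⟩
  have hp1 : N₁ ≤ p := by omega
  have hp2 : 2000 ≤ p := hN₁.trans hp1
  refine @stepHolds_of_bound p hp2 _ (slack_pos p) fun g σ lam hg hσ hl0 hl1 hlow hge => ?_
  have hc := cnst_pick hp2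
  have hb : 89 / 100 ≤ Ident.b0 p := le_trans (by norm_num) hc.b_ge
  refine linearForm_ge_of_total (C := C) (a := a) (A := A) (A' := A') (kap0 := κ) (η := η) hg
    (by omega) hσ hl0 hl1 hge hη (by linarith) hκ hκ' hb hc.b_le_one le_rfl fun t ht => ?_
  by_cases hregion : 9 / 20 < t ∨ 1 / 5000 < σ t
  · exact htl p g σ lam (by omega) hg hσ hl0 hl1 hlow hge t ht hregion
  · rw [not_or, not_lt, not_lt] at hregion
    refine le_trans ?_ (hcen hp1 hg hσ hlow hl0 hge ht.1 hregion.1 hregion.2 ha hη hη')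
    have hgt : 0 < g t := hg.pos_of_lt ⟨ht.1.le, ht.2⟩
    have hst := hσ.mem_Ioo t ht
    have hcs : 0 < cs (σ t) := cs_pos (by nlinarith [hst.1, hst.2])
    have := gap_nonneg (m := p + 1) (div_pos hcs hgt)
    positivity

end Vale.Agent.P237.Petty.Tail
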