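import Vale.Agent.P237.Petty.Tail.Profile

/-!
# P237: the facts of the tail for admissible profiles in large dimension
-/

namespace Vale.Agent.P237.Petty.Tail

open MeasureTheory Set Real Centre

variable {p m : ℕ} {g σ : ℝ → ℝ} {lam s t κ : ℝ}

/-- The Jacobian times `s²` away from the edge. -/
theorem sq_mul_q_le (hg : Regular g) (hσ : Transport p g σ) (hl : 0 < lam) (hκ : 0 < κ)
    (hlow : κ / √((p : ℝ) + 1) ≤ lam ^ (p + 1)) (hl0 : lam ≤ g 0) (ht : t ∈ Ioo (0 : ℝ) 1)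
    (hs : σ t ≤ 1 / 10) :
    σ t ^ 2 * (cs (σ t) / g t) ^ (p + 1) ≤
      28 * t * (σ t + 1 / √((p : ℝ) + 1)) + 12 / κ / √((p : ℝ) + 1) := by
  set m := p + 1 with hm
  have hmR : (m : ℝ) = (p : ℝ) + 1 := by rw [hm]; push_cast; ring
  rw [← hmR] at hlow ⊢
  have hm1 : 1 ≤ m := Nat.succ_le_succ (Nat.zero_le p)
  have hmp : (0 : ℝ) < m := by exact_mod_cast hm1
  have htI : t ∈ Icc (0 : ℝ) 1 := Ioo_subset_Icc_self ht
  have hs0 : 0 ≤ σ t := (hσ.mem t htI).1
  have hgt : 0 < g t := hg.pos_of_lt ⟨ht.1.le, ht.2⟩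
  have hsub : Icc (0 : ℝ) 1 ⊆ Icc (-1) 1 := Icc_subset_Icc (by norm_num) le_rfl
  have h := jacobian_cases (hg.concave.subset hsub (convex_Icc 0 1))
    (fun u hu => hg.nonneg u (hsub hu)) (hg.cont.mono hsub) hm1 hκ hs0 hs ht.1 ht.2.le hgt
    (hl.trans_le hl0) (hlow.trans (pow_le_pow_left₀ hl.le hl0 m))
    (tails_eq hg hσ htI)
  rw [div_pow]
  set q := cs (σ t) ^ m / g t ^ m with hq
  have hq0 : 0 ≤ q := by
    have : 0 ≤ cs (σ t) := sqrt_nonneg _
    positivity
  set r := √(m : ℝ) with hr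
  have hr0 : 0 < r := sqrt_pos.2 hmp
  have hr2 : r ^ 2 = m := sq_sqrt hmp.le
  have hA : 0 ≤ 28 * t * (σ t + 1 / r) := by
    have := ht.1
    positivity
  have hB : 0 ≤ 12 / κ / r := by positivity
  rcases h with h | h
  · have h1 := (mul_le_mul_of_nonneg_left (le_max_right 1 ((m : ℝ) * σ t ^ 2 / 4)) hq0).trans h
    refine le_trans ?_ (le_add_of_nonneg_right hB)
    refine le_of_mul_le_mul_right ?_ (show (0 : ℝ) < m / 4 by linarith)
    calc σ t ^ 2 * q * ((m : ℝ) / 4) = q * ((m : ℝ) * σ t ^ 2 / 4) := by ring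
      _ ≤ _ := h1.trans (le_of_eq ?_)
    rw [← hr2]
    field_simp
    ring
  · have hx : (m : ℝ) * σ t ^ 2 / 4 * exp (-((m : ℝ) * σ t ^ 2 / 4)) ≤ 1 := by
      rw [exp_neg, ← div_eq_mul_inv, div_le_one (exp_pos _)]
      linarith [add_one_le_exp ((m : ℝ) * σ t ^ 2 / 4)]
    refine le_trans ?_ (le_add_of_nonneg_left hA)
    refine (mul_le_mul_of_nonneg_left h (sq_nonneg _)).trans ?_
    calc σ t ^ 2 * (3 / κ * r * exp (-((m : ℝ) * σ t ^ 2 / 4)))
        = (m : ℝ) * σ t ^ 2 / 4 * exp (-((m : ℝ) * σ t ^ 2 / 4)) * (12 / κ / r) := by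
          rw [← hr2]; field_simp; ring
      _ ≤ _ := mul_le_of_le_one_left hB hx

/-- The tail of the profile against that of the circle. -/
theorem pow_mul_tail_le (hg : Regular g) (hσ : Transport p g σ) (hl : 0 < lam)
    (hge : ∀ u ∈ Icc (-1 : ℝ) 1, lam * √(1 - u ^ 2) ≤ g u) (ht : t ∈ Icc (0 : ℝ) 1) :
    lam ^ (p + 1) * (∫ u in t..1, √(1 - u ^ 2) ^ (p + 1)) ≤
      ∫ u in σ t..1, √(1 - u ^ 2) ^ (p + 1) := by
  rw [← tails_eq hg hσ ht, ← intervalIntegral.integral_const_mul]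
  have hsub : Icc t 1 ⊆ Icc (-1 : ℝ) 1 := Icc_subset_Icc (by linarith [ht.1]) le_rfl
  refine intervalIntegral.integral_mono_on ht.2 (Continuous.intervalIntegrable (by fun_prop) _ _)
    (ContinuousOn.intervalIntegrable (by
      rw [uIcc_of_le ht.2]; exact (hg.cont.mono hsub).pow (p + 1))) fun u hu => ?_
  rw [← mul_pow]
  exact pow_le_pow_left₀ (mul_nonneg hl.le (sqrt_nonneg _)) (hge u (hsub hu)) _

/-- The two abscissae are comparable at the edge. -/
theorem one_sub_le (hp : 1000 ≤ p) (hg : Regular g) (hσ : Transport p g σ) (hl : 0 < lam)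
    (hlow : 1 / 5 / √((p : ℝ) + 1) ≤ lam ^ (p + 1))
    (hge : ∀ u ∈ Icc (-1 : ℝ) 1, lam * √(1 - u ^ 2) ≤ g u) (ht : t ∈ Ioo (0 : ℝ) 1) :
    1 - t ≤ 2 * (1 - σ t) := by
  by_contra hno
  rw [not_le] at hno
  have hs := hσ.mem_Ioo t ht
  set s := σ t
  have hs2 : 1 / 2 ≤ s := by linarith [ht.1]
  set m := p + 1 with hm
  have hmR : (m : ℝ) = (p : ℝ) + 1 := by rw [hm]; push_cast; ring
  have hp' : (1001 : ℝ) ≤ m := by
    rw [hmR]
    have := (Nat.cast_le (α := ℝ)).2 hp
    push_cast at this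
    linarith
  rw [← hmR] at hlow
  set F : ℝ → ℝ := fun u => √(1 - u ^ 2) ^ m with hF
  have hFc : Continuous F := by rw [hF]; fun_prop
  have hF0 : ∀ u, 0 ≤ F u := fun u => pow_nonneg (sqrt_nonneg _) _
  have h1 : 2 * (9 / 8 : ℝ) ^ m * (∫ u in s..1, F u) ≤ ∫ u in t..1, F u := by
    calc 2 * (9 / 8 : ℝ) ^ m * (∫ u in s..1, F u)
        = 2 * ∫ u in s..1, (9 / 8 : ℝ) ^ m * F u := by
          rw [intervalIntegral.integral_const_mul]; ring
      _ ≤ 2 * ∫ u in s..1, F (2 * u - 1) := by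
          refine mul_le_mul_of_nonneg_left (intervalIntegral.integral_mono_on hs.2.le
            ((continuous_const.mul hFc).intervalIntegrable _ _)
            ((hFc.comp (by fun_prop)).intervalIntegrable _ _) fun u hu => ?_) (by norm_num)
          show (9 / 8 : ℝ) ^ m * √(1 - u ^ 2) ^ m ≤ √(1 - (2 * u - 1) ^ 2) ^ m
          rw [← mul_pow]
          refine pow_le_pow_left₀ (by positivity) (le_sqrt_of_sq_le ?_) m
          rw [mul_pow, sq_sqrt (by nlinarith [hu.1, hu.2])]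
          nlinarith [hu.1, hu.2]
      _ = ∫ u in (2 * s - 1)..1, F u := by
          rw [intervalIntegral.integral_comp_mul_sub F two_ne_zero, smul_eq_mul]
          norm_num
          ring
      _ ≤ ∫ u in t..1, F u := by
          rw [← intervalIntegral.integral_add_adjacent_intervals (hFc.intervalIntegrable t (2 * s - 1))
            (hFc.intervalIntegrable (2 * s - 1) 1)]
          exact le_add_of_nonneg_left (intervalIntegral.integral_nonneg (by linarith) fun u _ => hF0 u)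
  have h2 := pow_mul_tail_le hg hσ hl hge (Ioo_subset_Icc_self ht)
  have hpos : 0 < ∫ u in s..1, F u := by
    refine intervalIntegral.intervalIntegral_pos_of_pos_on (hFc.intervalIntegrable _ _)
      (fun u hu => pow_pos (sqrt_pos.2 (by nlinarith [hu.1, hu.2, hs.1])) _) hs.2
  have h3 := (mul_le_mul_of_nonneg_left h1 (pow_nonneg hl.le m)).trans h2
  rw [← mul_assoc] at h3
  have h4 := le_of_mul_le_mul_right (h3.trans (one_mul _).symm.le) hpos
  have h5 := mul_le_mul hlow (mul_le_mul_of_nonneg_left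
    (one_add_mul_le_pow (show (-2 : ℝ) ≤ 1 / 8 by norm_num) m) (by norm_num : (0 : ℝ) ≤ 2))
    (by positivity) (pow_nonneg hl.le m)
  norm_num at h5
  have hsm : 0 < √(m : ℝ) := sqrt_pos.2 (by linarith)
  have h6 := h5.trans h4
  rw [div_mul_eq_mul_div, div_le_one hsm] at h6
  nlinarith [sq_sqrt (show (0 : ℝ) ≤ m by linarith)]

/-- Away from the centre the abscissa of the profile is not small. -/
theorem half_le (hp : 10 ^ 12 ≤ p) (hg : Regular g) (hσ : Transport p g σ) (hl : 0 < lam)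
    (hlow : 1 / 5 / √((p : ℝ) + 1) ≤ lam ^ (p + 1))
    (hge : ∀ u ∈ Icc (-1 : ℝ) 1, lam * √(1 - u ^ 2) ≤ g u) (ht : t ∈ Ioo (0 : ℝ) 1)
    (hs0 : 1 / 5000 ≤ σ t) : σ t / 2 ≤ t := by
  by_contra hno
  rw [not_le] at hno
  have hs := hσ.mem_Ioo t ht
  set s := σ t
  set m := p + 1 with hm
  have hmR : (m : ℝ) = (p : ℝ) + 1 := by rw [hm]; push_cast; ring
  have hp' : (10 : ℝ) ^ 12 ≤ m := by
    rw [hmR]
    have : ((10 : ℕ) ^ 12 : ℕ) ≤ p := hp
    have := (Nat.cast_le (α := ℝ)).2 this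
    push_cast at this
    linarith
  rw [← hmR] at hlow
  have hs2 : s ^ 2 < 1 := by nlinarith [hs.1, hs.2]
  have hc := cs_pos hs2
  set F : ℝ → ℝ := fun u => √(1 - u ^ 2) ^ m with hF
  have hFc : Continuous F := by rw [hF]; fun_prop
  have hF0 : ∀ u, 0 ≤ F u := fun u => pow_nonneg (sqrt_nonneg _) _
  have hlowI : s / 4 * ((1 + (m : ℝ) * (s ^ 2 / 8)) * cs s ^ m) ≤ ∫ u in t..1, F u := by
    calc s / 4 * ((1 + (m : ℝ) * (s ^ 2 / 8)) * cs s ^ m)
        ≤ ∫ u in (s / 2)..(3 * s / 4), F u := by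
          refine le_trans (le_of_eq ?_) (intervalIntegral.integral_mono_on (by linarith)
            intervalIntegrable_const (hFc.intervalIntegrable _ _)
            (f := fun _ => (1 + (m : ℝ) * (s ^ 2 / 8)) * cs s ^ m) fun u hu => ?_)
          · rw [intervalIntegral.integral_const, smul_eq_mul]; ring
          · refine le_trans (mul_le_mul_of_nonneg_right (one_add_mul_le_pow
              (show (-2 : ℝ) ≤ s ^ 2 / 8 by nlinarith) m) (pow_nonneg hc.le _)) ?_
            show _ ≤ √(1 - u ^ 2) ^ m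
            rw [← mul_pow]
            refine pow_le_pow_left₀ (by positivity) (le_sqrt_of_sq_le ?_) m
            rw [mul_pow, cs_sq hs2.le]
            have hu2 : u ^ 2 ≤ (3 * s / 4) ^ 2 := pow_le_pow_left₀ (by linarith [hu.1]) hu.2 2
            nlinarith [sq_nonneg s, mul_nonneg (sq_nonneg s) (sq_nonneg s)]
      _ ≤ ∫ u in t..1, F u := by
          rw [← intervalIntegral.integral_add_adjacent_intervals (hFc.intervalIntegrable t (s / 2))
            (hFc.intervalIntegrable (s / 2) 1),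
            ← intervalIntegral.integral_add_adjacent_intervals
              (hFc.intervalIntegrable (s / 2) (3 * s / 4)) (hFc.intervalIntegrable (3 * s / 4) 1)]
          have h1 := intervalIntegral.integral_nonneg (μ := volume) (show t ≤ s / 2 by linarith)
            fun u _ => hF0 u
          have h2 := intervalIntegral.integral_nonneg (μ := volume)
            (show 3 * s / 4 ≤ 1 by linarith [hs.2]) fun u _ => hF0 u
          linarith
  have h3 := (mul_le_mul hlow hlowI (by positivity) (pow_nonneg hl.le m)).trans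
    ((pow_mul_tail_le hg hσ hl hge (Ioo_subset_Icc_self ht)).trans (circle_tail_le hs.1 hs.2.le))
  have hsm : 0 < √(m : ℝ) := sqrt_pos.2 (by linarith)
  have hsm6 : (10 : ℝ) ^ 6 ≤ √(m : ℝ) := le_sqrt_of_sq_le (by linarith)
  have hmm : ((m : ℝ) + 2) ≤ 2 * m := by linarith
  rw [show ((p + 1 : ℕ) : ℝ) = (m : ℝ) from rfl] at h3
  have h4 : 1 / 5 / √(m : ℝ) * (s / 4 * ((1 + (m : ℝ) * (s ^ 2 / 8)) * cs s ^ m)) * ((m : ℝ) * s) ≤
      cs s ^ m := by
    have h5 := (le_div_iff₀ (by have := hs.1; positivity)).1 h3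
    refine le_trans (mul_le_mul_of_nonneg_left ?_ (by have := hs.1; positivity)) (h5.trans ?_)
    · exact mul_le_mul_of_nonneg_right (by linarith) hs.1.le
    · rw [pow_add]
      exact mul_le_of_le_one_right (pow_nonneg hc.le _) (pow_le_one₀ hc.le (sqrt_le_one.2 (by nlinarith)))
  have h6 : (m : ℝ) * (m : ℝ) * s ^ 4 ≤ 160 * √(m : ℝ) := by
    have h7 : 1 / 5 / √(m : ℝ) * (s / 4 * ((m : ℝ) * (s ^ 2 / 8))) * ((m : ℝ) * s) ≤ 1 := by
      refine le_of_mul_le_mul_right ?_ (pow_pos hc m)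
      rw [one_mul]
      refine le_trans (le_of_eq ?_) ((mul_le_mul_of_nonneg_right (mul_le_mul_of_nonneg_left
        (mul_le_mul_of_nonneg_left (mul_le_mul_of_nonneg_right (le_add_of_nonneg_left zero_le_one)
          (pow_nonneg hc.le m)) (by linarith [hs.1])) (by positivity))
            (by have := hs.1; positivity)).trans h4)
      ring
    rw [show 1 / 5 / √(m : ℝ) * (s / 4 * ((m : ℝ) * (s ^ 2 / 8))) * ((m : ℝ) * s) =
      ((m : ℝ) * (m : ℝ) * s ^ 4) / (160 * √(m : ℝ)) by ring, div_le_one (by positivity)] at h7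
    exact h7
  have h8 : (1 / 5000 : ℝ) ^ 4 ≤ s ^ 4 := pow_le_pow_left₀ (by norm_num) hs0 4
  have h9 : (10 : ℝ) ^ 12 * √(m : ℝ) * √(m : ℝ) ^ 1 * (1 / 5000 : ℝ) ^ 4 ≤
      (m : ℝ) * (m : ℝ) * s ^ 4 := by
    refine mul_le_mul ?_ h8 (by positivity) (by positivity)
    rw [pow_one, mul_assoc, mul_self_sqrt (by linarith)]
    exact mul_le_mul_of_nonneg_right hp' (by linarith)
  have h10 := h9.trans h6
  rw [pow_one] at h10
  nlinarith

/-- All facts of the tail for admissible profiles. -/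
theorem tail_facts : ∃ N : ℕ, 2000 ≤ N ∧ ∀ {p : ℕ} {g σ : ℝ → ℝ} {lam t : ℝ}, N ≤ p → Regular g →
    Transport p g σ → 0 < lam → lowPick p ≤ lam → lam ≤ 1 →
    (∀ u ∈ Icc (-1 : ℝ) 1, lam * √(1 - u ^ 2) ≤ g u) → t ∈ Ioo (0 : ℝ) 1 →
      99 / 100 ≤ lam ∧ 1 - lam ≤ log ((p : ℝ) + 1) / ((p : ℝ) + 1) ∧
      (1 - t) * σ t ≤ (cs (σ t) / g t) ^ (p + 1) * cs (σ t) ^ 2 ∧
      1 - t ≤ 2 * (1 - σ t) ∧
      (1 / 5000 ≤ σ t → (cs (σ t) / g t) ^ (p + 1) ≤ 150000 ∧ σ t / 2 ≤ t) ∧
      (σ t ≤ 1 / 2000 → t ≤ 9 / 20 → σ t ^ 2 * (cs (σ t) / g t) ^ (p + 1) ≤ 1 / 100) := by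
  refine ⟨10 ^ 14, by norm_num, ?_⟩
  intro p g σ lam t hp hg hσ hl hlow hl1 hge ht
  have hlow' := kappa_le_pow hlow
  have hl0 : lam ≤ g 0 := by simpa using hge 0 (by norm_num)
  set M := (p : ℝ) + 1 with hM
  have hM14 : (10 : ℝ) ^ 14 ≤ M := by
    have := (Nat.cast_le (α := ℝ)).2 hp
    push_cast at this
    linarith
  have hr7 : (10 : ℝ) ^ 7 ≤ √M := le_sqrt_of_sq_le (by linarith)
  have hr : 0 < √M := by linarith
  have hlog : 1 - lam ≤ log M / M := by
    have h1 := Real.log_le_log (by positivity) hlow'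
    rw [log_pow, Real.log_div (by norm_num) hr.ne', Real.log_sqrt (by linarith)] at h1
    push_cast at h1
    rw [← hM] at h1
    have h2 : -log M / 2 ≤ log (1 / 5 : ℝ) := by
      rw [one_div, log_inv, neg_div, neg_le_neg_iff, le_div_iff₀ two_pos,
        show log 5 * 2 = log ((5 : ℝ) ^ 2) by rw [log_pow]; push_cast; ring]
      exact Real.log_le_log (by norm_num) (by linarith)
    have h3 := log_le_sub_one_of_pos hl
    rw [le_div_iff₀ (by linarith)]
    nlinarith
  have hlam : 99 / 100 ≤ lam := by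
    have h1 : log M ≤ 2 * √M := by
      rw [show log M = 2 * log (√M) by rw [Real.log_sqrt (by linarith)]; ring]
      linarith [log_le_sub_one_of_pos hr]
    have h2 : log M / M ≤ 2 * √M / M := div_le_div_of_nonneg_right h1 (by linarith)
    rw [mul_div_assoc, sqrt_div_self] at h2
    have : (√M)⁻¹ ≤ 1 / 200 := by rw [inv_le_comm₀ hr (by norm_num)]; linarith
    linarith
  have hs := hσ.mem_Ioo t ht
  have hsmall : σ t ≤ 1 / 10 → σ t ^ 2 * (cs (σ t) / g t) ^ (p + 1) ≤
      28 * t * (σ t + 1 / √M) + 60 / √M := fun h => by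
    have := sq_mul_q_le hg hσ hl (by norm_num : (0 : ℝ) < 1 / 5) hlow' hl0 ht h
    norm_num at this ⊢
    exact this
  have hu : 1 / √M ≤ 1 / 10 ^ 7 := one_div_le_one_div_of_le (by norm_num) hr7
  have hu60 : 60 / √M ≤ 60 / 10 ^ 7 := div_le_div_of_nonneg_left (by norm_num) (by norm_num) hr7
  have hp12 : 10 ^ 12 ≤ p := le_trans (by norm_num) hp
  refine ⟨hlam, hlog, edge_le hg hσ ht,
    one_sub_le (le_trans (by norm_num) hp) hg hσ hl hlow' hge ht,
    fun h => ⟨?_, half_le hp12 hg hσ hl hlow' hge ht h⟩, fun h1 h2 => ?_⟩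
  · rcases le_total (σ t) (1 / 10) with h10 | h10
    · refine le_of_mul_le_mul_left ?_ (show 0 < σ t ^ 2 by nlinarith [hs.1])
      refine (hsmall h10).trans ?_
      have e1 : 28 * t * (σ t + 1 / √M) ≤ 28 * (σ t + 1 / √M) :=
        mul_le_mul_of_nonneg_right (by linarith [ht.2]) (by have := hs.1; positivity)
      have e2 : σ t * (1 / 5000) ≤ σ t ^ 2 := by
        rw [sq]; exact mul_le_mul_of_nonneg_left h hs.1.le
      have e3 : (1 / 5000 : ℝ) * (1 / 5000) ≤ σ t ^ 2 := by rw [sq]; gcongr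
      linarith
    · refine (q_le_slope hg hσ hl hge ht ?_).trans ?_
      · rcases le_total (1 : ℝ) lam with h' | h'
        · nlinarith
        · have h1 : log M / M ≤ 1 / 1000 := by
            have h1 : log M ≤ 2 * √M := by
              rw [show log M = 2 * log (√M) by rw [Real.log_sqrt (by linarith)]; ring]
              linarith [log_le_sub_one_of_pos hr]
            refine (div_le_div_of_nonneg_right h1 (by linarith)).trans ?_
            rw [mul_div_assoc, sqrt_div_self]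
            have : (√M)⁻¹ ≤ 1 / 2000 := by rw [inv_le_comm₀ hr (by norm_num)]; linarith
            linarith
          nlinarith
      · rw [div_le_iff₀ (by nlinarith)]
        nlinarith
  · refine (hsmall (by linarith)).trans ?_
    have : 28 * t * (σ t + 1 / √M) ≤ 28 * (9 / 20) * (1 / 2000 + 1 / 10 ^ 7) :=
      mul_le_mul (mul_le_mul_of_nonneg_left h2 (by norm_num)) (by linarith)
        (by have := hs.1; positivity) (by norm_num)
    linarith

end Vale.Agent.P237.Petty.Tail
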