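import Vale.Agent.P237.Petty.Tail.Facts

/-!
# P237: the profile is at most `11/10` away from the axis

The mass of the power of the profile up to `t` is at most the circle abscissa.
-/

namespace Vale.Agent.P237.Petty.Tail

open MeasureTheory Set Real Centre

variable {p : ℕ} {g σ : ℝ → ℝ} {t : ℝ}

/-- The profile away from the axis is at most `11/10` in large dimension. -/
theorem g_le (hp : 10 ^ 6 ≤ p) (hg : Regular g) (hσ : Transport p g σ) (ht0 : 1 / 10000 ≤ t)
    (ht1 : t ≤ 1) : g t ≤ 11 / 10 := by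
  have htI : t ∈ Icc (0 : ℝ) 1 := ⟨by linarith, ht1⟩
  have hsub : Icc (0 : ℝ) 1 ⊆ Icc (-1) 1 := Icc_subset_Icc (by norm_num) le_rfl
  have hs := hσ.mem t htI
  have h1 : t * g t ^ (p + 1) ≤ ∫ u in (0 : ℝ)..t, g u ^ (p + 1) := by
    have e : t * g t ^ (p + 1) = ∫ _u in (0 : ℝ)..t, g t ^ (p + 1) := by simp
    rw [e]
    refine intervalIntegral.integral_mono_on htI.1 intervalIntegrable_const
      (ContinuousOn.intervalIntegrable ?_) fun u hu => pow_le_pow_left₀ (hg.nonneg t (hsub htI))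
      (antitoneOn_of_concave_even hg.concave hg.even ⟨hu.1, hu.2.trans ht1⟩ htI hu.2) _
    rw [uIcc_of_le htI.1]
    exact (hg.cont.mono ((Icc_subset_Icc le_rfl ht1).trans hsub)).pow _
  have h2 : ∫ u in (0 : ℝ)..σ t, arc u ^ (p + 1) ≤ 1 := by
    refine le_trans (intervalIntegral.integral_mono_on (g := fun _ => (1 : ℝ)) hs.1
      ((continuous_arc.pow _).intervalIntegrable _ _) intervalIntegrable_const fun u _ =>
        pow_le_one₀ (sqrt_nonneg _) (sqrt_le_one.2 (by nlinarith [sq_nonneg u]))) ?_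
    simp only [intervalIntegral.integral_const, smul_eq_mul, mul_one]
    linarith [hs.2]
  rw [← hσ.mass t htI] at h1
  by_contra h
  rw [not_le] at h
  have h3 := (mul_le_mul ht0 ((one_add_mul_le_pow (show (-2 : ℝ) ≤ 1 / 10 by norm_num) (p + 1)).trans
    (pow_le_pow_left₀ (by norm_num) (show (1 : ℝ) + 1 / 10 ≤ g t by linarith) _))
    (by positivity) htI.1).trans (h1.trans h2)
  have hpR : ((10 : ℕ) ^ 6 : ℕ) ≤ p := hp
  have := (Nat.cast_le (α := ℝ)).2 hpR
  push_cast at this h3
  linarith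

end Vale.Agent.P237.Petty.Tail
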