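import Vale.Agent.P237.Petty.Tail.Pointwise
import Vale.Agent.P237.Petty.Tail.Facts
import Vale.Agent.P237.Petty.Tail.Upper

/-!
# P237: the sign of the integrand away from the centre along a profile
-/

namespace Vale.Agent.P237.Petty.Tail

open MeasureTheory Set Centre

/-- For `σ t ≥ 1/2000` the whole integrand is nonnegative in all large dimensions. -/
theorem total_away {C A A' : ℝ} (hC : 0 ≤ C) (hA : 0 < A) (hA' : 0 ≤ A') :
    ∃ κ₀ : ℝ, 0 < κ₀ ∧ ∀ κ : ℝ, 0 < κ → κ ≤ κ₀ → ∃ N : ℕ,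
      ∀ (p : ℕ) (g σ : ℝ → ℝ) (lam : ℝ), N ≤ p → Regular g → Transport p g σ → 0 < lam →
        lam ≤ 1 → lowPick p ≤ lam → (∀ u ∈ Icc (-1 : ℝ) 1, lam * √(1 - u ^ 2) ≤ g u) →
        ∀ t ∈ Ioo (0 : ℝ) 1, 1 / 2000 ≤ σ t →
          0 ≤ total (p + 1) (Ident.b0 p) (Ident.coefPi p (muPick p)) (Ident.coefJ p (nuPick p))
            C (1 / 4000) A A' κ (1 / 2) (σ t) t (cs (σ t) / g t) (-slopeR g t) := by
  obtain ⟨κ₀, hκ₀, hpt⟩ := total_nonneg_tail (a := 1 / 4000) (η := 1 / 2) (Q := 150000)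
    (R := 16000) (by norm_num) (by norm_num) le_rfl (by norm_num) (by norm_num) hC hA hA'
  obtain ⟨N₁, hN₁, hfacts⟩ := tail_facts
  refine ⟨κ₀, hκ₀, fun κ hκ hκ' => ?_⟩
  obtain ⟨N₂, hN₂⟩ := hpt κ hκ hκ'
  refine ⟨N₁ + N₂ + 10 ^ 6, fun p g σ lam hp hg hσ hl hl1 hlow hge t ht hst => ?_⟩
  have hp' : 2000 ≤ p := by omega
  obtain ⟨hlam, hlog, hF2, hF3, hF1, -⟩ :=
    hfacts (by omega : N₁ ≤ p) hg hσ hl hlow hl1 hge ht
  obtain ⟨hq, hth⟩ := hF1 (by linarith)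
  obtain ⟨s1, s2, s3, s4, s5⟩ := slope_facts hg hl hge ht
  have hs := hσ.mem_Ioo t ht
  have hgt : 0 < g t := hg.pos_of_lt ⟨ht.1.le, ht.2⟩
  have hs2 : σ t ^ 2 < 1 := by nlinarith [hs.1, hs.2]
  have hc := cs_pos hs2
  have e : cs (σ t) / (cs (σ t) / g t) = g t := by field_simp
  have hM2 : 12 / 100 ≤ Ident.coefJ p (nuPick p) := by
    refine le_trans (by linarith [(nuPick_bounds hp').1] : (12 : ℝ) / 100 ≤ nuPick p) ?_
    exact le_div_self (by linarith [(nuPick_bounds hp').1]) (Ident.b0_pos p) (cnst_pick hp').b_le_one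
  have hg11 : g t ≤ 11 / 10 := g_le (le_trans (by norm_num) hp) hg hσ (by linarith) ht.2.le
  refine hN₂ (lam := lam) (by omega) ⟨cnst_pick hp', hM2, div_pos hc hgt, by linarith, hs.2,
    by linarith, ht.2, hF3, hlam, hl1, by push_cast; exact hlog, hq, fun hed => ?_,
    ⟨s1, by rwa [e], by rwa [e], by rwa [e]⟩, by rwa [e], by rwa [e]⟩
  rw [inv_le_comm₀ (pow_pos (div_pos hc hgt) _) (by norm_num)]
  have h1 := mul_le_mul_of_nonneg_right hed (show 0 ≤ σ t by linarith)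
  have h2 := h1.trans hF2
  rw [cs_sq hs2.le] at h2
  have h3 : (1 - σ t) * (σ t / 4) ≤
      (1 - σ t) * (2 * (cs (σ t) / g t) ^ (p + 1)) := by
    refine le_trans (le_of_eq_of_le (by ring) h2) ?_
    rw [show (1 : ℝ) - σ t ^ 2 = (1 - σ t) * (1 + σ t) by ring]
    have := pow_nonneg (div_nonneg hc.le hgt.le) (p + 1)
    calc (cs (σ t) / g t) ^ (p + 1) * ((1 - σ t) * (1 + σ t))
        ≤ (cs (σ t) / g t) ^ (p + 1) * ((1 - σ t) * 2) := mul_le_mul_of_nonneg_left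
          (mul_le_mul_of_nonneg_left (by linarith [hs.2]) (by linarith [hs.2])) this
      _ = _ := by ring
  have := le_of_mul_le_mul_left h3 (by linarith [hs.2])
  norm_num
  linarith

end Vale.Agent.P237.Petty.Tail
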