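import Vale.Agent.P237.Petty.Centre.Profile
import Vale.Agent.P237.Petty.Centre.Setting
import Vale.Agent.P237.Petty.Tail.Basic

/-!
# P237: the whole integrand on the centre

Where `t ≤ 9/20` and the circle abscissa is small, the cutoff, the small obstacle and the second
tail null are inactive, and the square has a nonnegative coefficient; so the whole integrand
dominates the centre estimate.
-/

namespace Vale.Agent.P237.Petty.Tail

open Centre

variable {m : ℕ} {b M1 M2 C a A A' κ η s S z σ : ℝ}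

/-- On the centre the additions vanish except the square. -/
theorem total_eq_centre (hs0 : 0 ≤ s) (hs : s ≤ 1 / 10) (hsa : s ≤ a) (hS0 : 0 ≤ S)
    (hS : S ≤ 9 / 20) (hη0 : 0 < η) (hη : η ≤ 11 / 20)
    (hcl : cliffArg m M1 M2 S (cs s / z) ≤ 7 / 8) :
    total m b M1 M2 C a A A' κ η s S z σ =
      P m b M1 M2 C s S z + z ^ m * Ident.gain (m - 1) M1 M2 s S (cs s / z) σ := by
  have hx : 1 ≤ (1 - S) / ((1 - s) * η) := by
    rw [le_div_iff₀ (mul_pos (by linarith) hη0), one_mul]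
    have : (1 - s) * η ≤ 1 * η := mul_le_mul_of_nonneg_right (by linarith) hη0.le
    linarith
  obtain ⟨h1, h2⟩ := step_of_one_le hx
  obtain ⟨h3, h4⟩ := step_of_le hcl
  have hf : slopeField m M1 M2 η s S (cs s / z) = s := by
    simp [slopeField, cliffField, edgeField, cut, h1, h3]
    ring
  have hf' : slopeField' m M1 M2 η s S (cs s / z) (z ^ m) σ = 1 := by
    have h2' : step' ((1 - S) / ((1 - s) * η)) = 0 := h2
    simp [slopeField', cliffField', cliffField, edgeField', edgeField, cut, h1, h2', h3, h4]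
  have hc : 89 / 100 ≤ cs S := by
    rw [show cs S = √(1 - S ^ 2) from rfl, Real.le_sqrt (by norm_num) (by nlinarith)]
    nlinarith
  have hv : vObs m κ S = 0 := by rw [vObs, sqp_of_nonpos (by linarith), mul_zero]
  have hq : sqp (s - a) = 0 := sqp_of_nonpos (by linarith)
  have hq' : sqp' (s - a) = 0 := sqp'_of_nonpos (by linarith)
  have hr : sqp (S - s - 1 / 2) = 0 := sqp_of_nonpos (by linarith)
  have hr' : sqp' (S - s - 1 / 2) = 0 := sqp'_of_nonpos (by linarith)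
  rw [total, hf, hf', slopePart, hv]
  rw [null2s, null2S, hq, hq', hr, hr']
  ring

/-- The coefficient of the square on the centre. -/
theorem gain_nonneg_centre {p : ℕ} {g σ lam : ℝ} {M1 M2 κ t : ℝ} (hM2 : 12 / 100 ≤ M2)
    (hM1 : M1 ≤ 377 / 1000) (hlam : 9 / 10 ≤ lam ^ 2) (hl : 0 ≤ lam) (ht0 : 0 ≤ t)
    (ht : t ≤ 9 / 20) (hg : lam * √(1 - t ^ 2) ≤ g) (hD : 0 < g + t * σ) :
    0 ≤ Ident.gain p M1 M2 κ t g σ := by
  have h1 : lam ^ 2 * (1 - t ^ 2) ≤ g ^ 2 := by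
    have := pow_le_pow_left₀ (mul_nonneg hl (Real.sqrt_nonneg _)) hg 2
    rwa [mul_pow, Real.sq_sqrt (by nlinarith)] at this
  have h2 : 0 ≤ g := (mul_nonneg hl (Real.sqrt_nonneg _)).trans hg
  have h3 : 0 ≤ M2 * g ^ 2 - M1 * t ^ 2 := by
    have ht2 : t ^ 2 ≤ 81 / 400 := by nlinarith
    have h4 : 9 / 10 * (1 - t ^ 2) ≤ g ^ 2 :=
      (mul_le_mul_of_nonneg_right hlam (by linarith)).trans h1
    have h5 : 12 / 100 * g ^ 2 ≤ M2 * g ^ 2 := mul_le_mul_of_nonneg_right hM2 (sq_nonneg g)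
    have h6 : M1 * t ^ 2 ≤ 377 / 1000 * t ^ 2 := mul_le_mul_of_nonneg_right hM1 (sq_nonneg t)
    linarith
  rw [Ident.gain]
  positivity

/-- The switch of the cliff field is off on the centre. -/
theorem cliffArg_le_centre {g : ℝ} (hm : 1000 ≤ m) (hM2 : 12 / 100 ≤ M2) (hM10 : 0 ≤ M1)
    (hM1 : M1 ≤ 377 / 1000) (hS0 : 0 ≤ S) (hS : S ≤ 9 / 20) (hg : 84 / 100 ≤ g) :
    cliffArg m M1 M2 S g ≤ 7 / 8 := by
  have hm' : (1000 : ℝ) ≤ m := by exact_mod_cast hm
  have hv : vSurf m M1 M2 ≤ 36 / 20 := by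
    rw [vSurf, Real.sqrt_le_left (by norm_num), div_le_iff₀ (by linarith)]
    have h1 : (m : ℝ) / ((m : ℝ) - 2) ≤ 1003 / 1000 := by
      rw [div_le_iff₀ (by linarith)]; linarith
    have := mul_le_mul h1 hM1 hM10 (by norm_num)
    linarith
  have hv0 : 0 ≤ vSurf m M1 M2 := Real.sqrt_nonneg _
  have h2 : vSurf m M1 M2 * S ≤ 36 / 20 * (9 / 20) := mul_le_mul hv hS hS0 (by norm_num)
  have h3 : 1000 * (g - vSurf m M1 M2 * S) ≤ (m : ℝ) * (g - vSurf m M1 M2 * S) :=
    mul_le_mul_of_nonneg_right hm' (by linarith)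
  rw [cliffArg]
  linarith

/-- The whole integrand along a profile on the centre. -/
theorem total_centre : ∃ C : ℝ, 0 ≤ C ∧ ∃ N : ℕ, 2000 ≤ N ∧
    ∀ {p : ℕ} {g σ : ℝ → ℝ} {lam t a A A' κ η : ℝ}, N ≤ p → Regular g → Transport p g σ →
      lowPick p ≤ lam → 0 < lam → (∀ u ∈ Set.Icc (-1 : ℝ) 1, lam * √(1 - u ^ 2) ≤ g u) →
      0 < t → t ≤ 9 / 20 → σ t ≤ 1 / 5000 → 1 / 5000 ≤ a → 0 < η → η ≤ 11 / 20 →
      ((p : ℝ) + 1)⁻¹ * cs (σ t) ^ (p + 1 - 2) * gap (p + 1) (cs (σ t) / g t) / 100 ≤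
        total (p + 1) (Ident.b0 p) (Ident.coefPi p (muPick p)) (Ident.coefJ p (nuPick p))
          C a A A' κ η (σ t) t (cs (σ t) / g t) (-slopeR g t) := by
  obtain ⟨C, hC, N₁, hN₁, hP⟩ := centre_profile (κ := 1 / 5) (by norm_num)
  obtain ⟨N₂, hN₂⟩ := sq_ge_of_low
  refine ⟨C, hC, max (max N₁ N₂) 2000, le_max_right _ _, ?_⟩
  intro p g σ lam t a A A' κ η hp hg hσ hlow hlam hge ht0 ht hst ha hη0 hη
  simp only [max_le_iff] at hp
  have htI : t ∈ Set.Icc (0 : ℝ) 1 := ⟨ht0.le, by linarith⟩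
  have hs0 : 0 ≤ σ t := (hσ.mem t htI).1
  have htp : t ∈ Set.Ioo (-1 : ℝ) 1 := ⟨by linarith, by linarith⟩
  have hl0 : lam ≤ g 0 := by simpa using hge 0 (by norm_num)
  have hc := cnst_pick hp.2
  refine (hP (by omega) hc hg hσ (kappa_le_pow hlow) hlam hl0 ht0 ht hst).trans ?_
  have hgl : 84 / 100 ≤ g t := by
    have h1 := hge t (Set.Ioo_subset_Icc_self htp)
    have h2 : 71 / 100 ≤ (lam * √(1 - t ^ 2)) ^ 2 := by
      rw [mul_pow, Real.sq_sqrt (by nlinarith)]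
      have ht2 : t ^ 2 ≤ (9 / 20) ^ 2 := pow_le_pow_left₀ ht0.le ht 2
      have := mul_le_mul (hN₂ p hp.1.2 lam hlow) (show 319 / 400 ≤ 1 - t ^ 2 by linarith)
        (by norm_num) (sq_nonneg _)
      linarith
    have h4 : 84 / 100 ≤ lam * √(1 - t ^ 2) := by
      refine (pow_le_pow_iff_left₀ (by norm_num) (mul_nonneg hlam.le (Real.sqrt_nonneg _))
        two_ne_zero).1 (le_trans ?_ h2)
      norm_num
    linarith
  have hgt0 : cs (σ t) / (cs (σ t) / g t) = g t := by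
    field_simp [(cs_pos (show σ t ^ 2 < 1 by nlinarith)).ne']
  rw [total_eq_centre hs0 (by linarith) (by linarith) ht0.le ht hη0 hη (by
    rw [hgt0]
    refine cliffArg_le_centre (by omega) ?_ (by linarith [hc.M1_lo]) hc.M1_hi ht0.le ht hgl
    refine le_trans (by linarith [(nuPick_bounds hp.2).1] : (12 : ℝ) / 100 ≤ nuPick p) ?_
    exact le_div_self (by linarith [(nuPick_bounds hp.2).1]) (Ident.b0_pos p) hc.b_le_one)]
  have hD : 0 < g t + t * -slopeR g t := by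
    have := hg.icept_pos htp
    rw [icept] at this
    linarith
  have hgt : 0 < g t := hg.pos_of_lt ⟨ht0.le, by linarith⟩
  have hcs : 0 < cs (σ t) := cs_pos (by nlinarith)
  have hM2 : 12 / 100 ≤ Ident.coefJ p (nuPick p) := by
    refine le_trans (by linarith [(nuPick_bounds hp.2).1] : (12 : ℝ) / 100 ≤ nuPick p) ?_
    exact le_div_self (by linarith [(nuPick_bounds hp.2).1]) (Ident.b0_pos p) hc.b_le_one
  refine le_add_of_nonneg_right (mul_nonneg (by positivity) ?_)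
  rw [show cs (σ t) / (cs (σ t) / g t) = g t by field_simp]
  exact gain_nonneg_centre hM2 hc.M1_hi (hN₂ p hp.1.2 lam hlow) hlam.le ht0.le ht
    (hge t (Set.Ioo_subset_Icc_self htp)) hD

end Vale.Agent.P237.Petty.Tail
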