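import Vale.Agent.P237.Petty.Centre.Slope
import Vale.Agent.P237.Petty.Centre.Lip

/-!
# P237: the sign of `U` away from the axis

Once both variables exceed `√(8/m)` the derivative of `U` has the sign of the displacement, up to
the edge, so `U` dominates the square of the displacement.
-/

namespace Vale.Agent.P237.Petty.Tail

open Centre Set

variable {m : ℕ} {b M1 M2 s x y : ℝ}

theorem cs_sq_le (hc : Cnst m b M1 M2) (hx : 8 ≤ (m : ℝ) * x ^ 2) (h1 : x ^ 2 ≤ 1) :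
    cs x ^ 2 + 7 / (m : ℝ) ≤ b ^ 2 := by
  have hm := hc.m_ge
  have h := hc.one_sub_b_sq
  rw [cs_sq h1]
  have e : 8 / (m : ℝ) ≤ x ^ 2 := by rw [div_le_iff₀ (by linarith)]; linarith
  rw [inv_eq_one_div] at h
  have : 8 / (m : ℝ) = 7 / m + 1 / m := by ring
  linarith

/-- The polynomial of the weight increases in the circle. -/
theorem g1_mono (hc : Cnst m b M1 M2) {u v : ℝ} (hu : 0 ≤ u) (huv : u ≤ v)
    (hv : v ^ 2 + 7 / (m : ℝ) ≤ b ^ 2) :
    u ^ (m - 2) * (b - u) ^ 2 * (u + 2 * b) ≤ v ^ (m - 2) * (b - v) ^ 2 * (v + 2 * b) := by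
  obtain ⟨k, rfl⟩ : ∃ k, m = k + 4 := ⟨m - 4, by have := hc.large; omega⟩
  have hk := hc.m_ge
  push_cast at hk hv
  have hb := hc.b_pos
  have hb1 := hc.b_le_one
  have hd : ∀ w : ℝ, HasDerivAt (fun w => w ^ (k + 4 - 2) * (b - w) ^ 2 * (w + 2 * b))
      (w ^ (k + 1) * (b - w) * (((k : ℝ) + 2) * (b - w) * (w + 2 * b) - 3 * w * (w + b))) w := by
    intro w
    rw [show k + 4 - 2 = k + 2 from rfl]
    refine (((hasDerivAt_pow (k + 2) w).mul (((hasDerivAt_id w).const_sub b).pow 2)).mul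
      ((hasDerivAt_id w).add_const (2 * b))).congr_deriv ?_
    simp only [Pi.mul_apply, Pi.pow_apply, id_eq, show k + 2 - 1 = k + 1 from rfl]
    push_cast
    ring
  refine monotoneOn_of_deriv_nonneg (convex_Icc 0 v)
    (fun w _ => (hd w).continuousAt.continuousWithinAt)
    (fun w _ => (hd w).differentiableAt.differentiableWithinAt) (fun w hw => ?_)
    ⟨hu, huv⟩ ⟨hu.trans huv, le_rfl⟩ huv
  rw [interior_Icc] at hw
  rw [(hd w).deriv]
  have h0 : 0 < 7 / ((k : ℝ) + 4) := by positivity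
  have hwb : w < b := by nlinarith [hw.1, hw.2]
  have hgap : 7 / ((k : ℝ) + 4) ≤ (b - w) * (2 * b) := by
    nlinarith [hw.1, hw.2, mul_pos (sub_pos.2 hwb) hb]
  rw [div_le_iff₀ (by linarith)] at hgap
  refine mul_nonneg (mul_nonneg (pow_nonneg hw.1.le _) (by linarith)) ?_
  nlinarith [mul_pos (sub_pos.2 hwb) hw.1, mul_pos (sub_pos.2 hwb) hb,
    mul_nonneg (sub_pos.2 hwb).le (show (0 : ℝ) ≤ (k : ℝ) - 50 by linarith)]

/-- The second polynomial of the derivative of the weight decreases. -/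
theorem g2_anti (hc : Cnst m b M1 M2) (hx : 8 ≤ (m : ℝ) * x ^ 2) (hx0 : 0 ≤ x) (hxy : x ≤ y)
    (hy : y < 1) :
    y * cs y ^ (m - 3) * (b ^ 2 - cs y ^ 2) ≤ x * cs x ^ (m - 3) * (b ^ 2 - cs x ^ 2) := by
  obtain ⟨k, rfl⟩ : ∃ k, m = k + 5 := ⟨m - 5, by have := hc.large; omega⟩
  have hk := hc.m_ge
  have hb1 := hc.b_le_one
  have hbl := hc.one_sub_b_sq
  push_cast at hk hx hbl
  have hd : ∀ w ∈ Icc x y, HasDerivAt (fun w => w * cs w ^ (k + 5 - 3) * (b ^ 2 - 1 + w ^ 2))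
      (cs w ^ k * (cs w ^ 2 * (b ^ 2 - 1 + 3 * w ^ 2) -
        ((k : ℝ) + 2) * w ^ 2 * (b ^ 2 - 1 + w ^ 2))) w := by
    intro w hw
    have hw1 : w ^ 2 < 1 := by nlinarith [hw.1, hw.2]
    rw [show k + 5 - 3 = k + 2 from rfl]
    refine (((hasDerivAt_id w).mul (hasDerivAt_cs_pow hw1 k)).mul
      ((hasDerivAt_pow 2 w).const_add (b ^ 2 - 1))).congr_deriv ?_
    simp only [Pi.mul_apply, id_eq]
    push_cast
    ring
  have key : AntitoneOn (fun w => w * cs w ^ (k + 5 - 3) * (b ^ 2 - 1 + w ^ 2)) (Icc x y) := by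
    refine antitoneOn_of_deriv_nonpos (convex_Icc x y)
      (fun w hw => (hd w hw).continuousAt.continuousWithinAt)
      (fun w hw => (hd w (interior_subset hw)).differentiableAt.differentiableWithinAt)
      (fun w hw => ?_)
    have hwI := interior_subset hw
    rw [(hd w hwI).deriv]
    have hw0 : 0 ≤ w := hx0.trans hwI.1
    have hw1 : w ^ 2 ≤ 1 := by nlinarith [hwI.2]
    have hw8 : 8 ≤ ((k : ℝ) + 5) * w ^ 2 := by
      nlinarith [pow_le_pow_left₀ hx0 hwI.1 2]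
    refine mul_nonpos_of_nonneg_of_nonpos (pow_nonneg (Real.sqrt_nonneg _) _) ?_
    rw [cs_sq hw1]
    have hb2 : b ^ 2 ≤ 1 := by nlinarith [hc.b_pos]
    have h7 : 7 / 8 * w ^ 2 ≤ b ^ 2 - 1 + w ^ 2 := by
      have : ((k : ℝ) + 5) * (1 - b ^ 2) ≤ 1 := by
        have := mul_le_mul_of_nonneg_left hbl (by linarith : (0 : ℝ) ≤ (k : ℝ) + 5)
        rwa [mul_inv_cancel₀ (by linarith : (k : ℝ) + 5 ≠ 0)] at this
      nlinarith
    have hw2 := sq_nonneg w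
    have a1 : (1 - w ^ 2) * (b ^ 2 - 1 + 3 * w ^ 2) ≤ 3 * w ^ 2 := by
      nlinarith [mul_nonneg hw2 (sub_nonneg.2 hw1), mul_nonneg (sub_nonneg.2 hw1) (sub_nonneg.2 hb2)]
    have a2 := mul_le_mul_of_nonneg_left h7 (show 0 ≤ ((k : ℝ) + 2) * w ^ 2 by positivity)
    have a3 : 3 * w ^ 2 ≤ ((k : ℝ) + 2) * w ^ 2 * (7 / 8 * w ^ 2) := by
      nlinarith [mul_le_mul_of_nonneg_left hw8 hw2]
    linarith
  have h := key ⟨le_rfl, hxy⟩ ⟨hxy, le_rfl⟩ hxy
  have e1 : b ^ 2 - 1 + x ^ 2 = b ^ 2 - cs x ^ 2 := by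
    rw [cs_sq (by nlinarith)]; ring
  have e2 : b ^ 2 - 1 + y ^ 2 = b ^ 2 - cs y ^ 2 := by
    rw [cs_sq (by nlinarith)]; ring
  simp only [e1, e2] at h
  exact h

/-- The part of `K` coming from the weight. -/
noncomputable def KW (m : ℕ) (b s x : ℝ) : ℝ :=
  -(2 * (m : ℝ)⁻¹ * cs s * fW' m b x) - 2 * (1 - (m : ℝ)⁻¹) * (s / cs s) * fW m b x

/-- `KW` as a positive multiple of two signed parts. -/
theorem KW_eq (hm : 4 ≤ m) (hs : s ^ 2 < 1) (hx : x ^ 2 < 1) :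
    KW m b s x = ((m : ℝ) - 1) / (2 * b ^ 3 * cs s) *
      (cs x ^ (m - 2) * (b - cs x) ^ 2 * (cs x + 2 * b) *
          ((m : ℝ)⁻¹ * ((m : ℝ) - 2) * cs s ^ 2 * x / cs x ^ 2 - (1 - (m : ℝ)⁻¹) * s) -
        3 * (m : ℝ)⁻¹ * cs s ^ 2 * (x * cs x ^ (m - 3) * (b ^ 2 - cs x ^ 2))) := by
  obtain ⟨k, rfl⟩ : ∃ k, m = k + 4 := ⟨m - 4, by omega⟩
  have := (cs_pos hs).ne'
  have := (cs_pos hx).ne'
  simp only [KW, fW', fW, wPoly, Nat.add_sub_cancel, show k + 4 - 2 = k + 2 from rfl,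
    show k + 4 - 3 = k + 1 from rfl, pow_succ]
  field_simp
  ring

theorem KW_mono (hc : Cnst m b M1 M2) (hs : 8 ≤ (m : ℝ) * s ^ 2) (hs0 : 0 ≤ s) (hsx : s ≤ x)
    (hx : x < 1) :
    KW m b s s ≤ KW m b s x ∧
      (∀ y, 0 ≤ y → 8 ≤ (m : ℝ) * y ^ 2 → y ≤ s → KW m b s y ≤ KW m b s s) := by
  have hm := hc.m_ge
  have hm4 : 4 ≤ m := by have := hc.large; omega
  have hs1 : s ^ 2 < 1 := by nlinarith
  have hcp := cs_pos hs1
  have hb := hc.b_pos
  set e := (m : ℝ)⁻¹ with he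
  have he0 : 0 < e := by positivity
  have hem : e * (m : ℝ) = 1 := inv_mul_cancel₀ (by linarith)
  have hK : 0 ≤ ((m : ℝ) - 1) / (2 * b ^ 3 * cs s) := div_nonneg (by linarith) (by positivity)
  have hbr : ∀ w, w ^ 2 < 1 → ∃ t : ℝ,
      e * ((m : ℝ) - 2) * cs s ^ 2 * w / cs w ^ 2 - (1 - e) * s = -(e * s) + t ∧
        (s ≤ w → 0 ≤ t) ∧ (0 ≤ w → w ≤ s → t ≤ 0) := by
    intro w hw
    have hw' := cs_pos hw
    refine ⟨e * ((m : ℝ) - 2) * cs s ^ 2 * w / cs w ^ 2 - (1 - e) * s + e * s, by ring, fun h => ?_,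
      fun h0 h => ?_⟩
    · have : s * cs w ^ 2 ≤ w * cs s ^ 2 := by
        rw [cs_sq hw.le, cs_sq hs1.le]
        nlinarith [mul_nonneg (sub_nonneg.2 h) (mul_nonneg hs0 (hs0.trans h))]
      have h2 : (1 - 2 * e) * s ≤ e * ((m : ℝ) - 2) * cs s ^ 2 * w / cs w ^ 2 := by
        rw [le_div_iff₀ (by positivity), show e * ((m : ℝ) - 2) = 1 - 2 * e by linarith]
        nlinarith [mul_le_mul_of_nonneg_left this (show 0 ≤ 1 - 2 * e by nlinarith)]
      linarith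
    · have : w * cs s ^ 2 ≤ s * cs w ^ 2 := by
        rw [cs_sq hw.le, cs_sq hs1.le]
        nlinarith [mul_nonneg (sub_nonneg.2 h) (mul_nonneg hs0 h0)]
      have h2 : e * ((m : ℝ) - 2) * cs s ^ 2 * w / cs w ^ 2 ≤ (1 - 2 * e) * s := by
        rw [div_le_iff₀ (by positivity), show e * ((m : ℝ) - 2) = 1 - 2 * e by linarith]
        nlinarith [mul_le_mul_of_nonneg_left this (show 0 ≤ 1 - 2 * e by nlinarith)]
      linarith
  have hself : e * ((m : ℝ) - 2) * cs s ^ 2 * s / cs s ^ 2 - (1 - e) * s = -(e * s) := by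
    rw [mul_right_comm, mul_div_assoc, div_self (by positivity), mul_one]
    linear_combination s * hem
  have hle : ∀ w, 0 ≤ w → w < 1 → 8 ≤ (m : ℝ) * w ^ 2 →
      0 ≤ cs w ^ (m - 2) * (b - cs w) ^ 2 * (cs w + 2 * b) := fun w _ _ _ => by
    have : 0 ≤ cs w := Real.sqrt_nonneg _
    positivity
  constructor
  · obtain ⟨t, ht, ht1, -⟩ := hbr x (by nlinarith)
    rw [KW_eq hm4 hs1 hs1, KW_eq hm4 hs1 (by nlinarith), ← he, ht, hself]
    have a1 := g1_mono hc (Real.sqrt_nonneg (1 - x ^ 2)) (v := cs s)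
      (Real.sqrt_le_sqrt (by nlinarith)) (cs_sq_le hc hs hs1.le)
    have a2 := g2_anti hc hs hs0 hsx hx
    refine mul_le_mul_of_nonneg_left ?_ hK
    have b1 := mul_le_mul_of_nonneg_left a1 (mul_nonneg he0.le hs0)
    have b2 := mul_le_mul_of_nonneg_left a2 (show 0 ≤ 3 * e * cs s ^ 2 by positivity)
    have b3 := mul_nonneg (hle x (hs0.trans hsx) hx (by nlinarith)) (ht1 hsx)
    unfold cs at *
    linarith
  · intro y hy0 hy hys
    obtain ⟨t, ht, -, ht1⟩ := hbr y (by nlinarith)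
    rw [KW_eq hm4 hs1 hs1, KW_eq hm4 hs1 (by nlinarith), ← he, ht, hself]
    have a1 := g1_mono hc (Real.sqrt_nonneg (1 - s ^ 2)) (v := cs y)
      (Real.sqrt_le_sqrt (by nlinarith)) (cs_sq_le hc hy (by nlinarith))
    have a2 := g2_anti hc hy hy0 hys (lt_of_le_of_lt hsx hx)
    refine mul_le_mul_of_nonneg_left ?_ hK
    have b1 := mul_le_mul_of_nonneg_left a1 (mul_nonneg he0.le hs0)
    have b2 := mul_le_mul_of_nonneg_left a2 (show 0 ≤ 3 * e * cs s ^ 2 by positivity)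
    have b3 := mul_nonpos_of_nonneg_of_nonpos (hle y hy0 (by linarith) hy) (ht1 hy0 hys)
    unfold cs at *
    linarith

/-- The derivative of `U` has the sign of the displacement. -/
theorem K_bounds (hc : Cnst m b M1 M2) (hs : 8 ≤ (m : ℝ) * s ^ 2) (hs0 : 0 ≤ s) (hs1 : s < 1)
    (hy0 : 0 ≤ y) (hy1 : y < 1) (hy : 8 ≤ (m : ℝ) * y ^ 2) :
    (s ≤ y → M1 * s ^ 2 * cs s ^ (m - 2) * (y - s) ≤ K m b M1 M2 s y) ∧
      (y ≤ s → K m b M1 M2 s y ≤ M1 * s ^ 2 * cs s ^ (m - 2) * (y - s)) := by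
  have hm := hc.m_ge
  have hK : ∀ w, K m b M1 M2 s w =
      cs s ^ (m - 2) * R0' m M1 M2 s w + hd' m M1 M2 s + KW m b s w := fun w => by
    unfold K KW
    ring
  have h0 := K_self hc (by nlinarith : s ^ 2 < 1)
  rw [hK] at h0
  have hcn : 0 ≤ cs s ^ (m - 2) := pow_nonneg (Real.sqrt_nonneg _) _
  have hM1 : 0 ≤ M1 := by linarith [hc.M1_lo]
  set e := ((m : ℝ) - 2)⁻¹ with he
  have he' : 4 * e ≤ s ^ 2 := by
    rw [he, ← div_eq_mul_inv, div_le_iff₀ (by linarith)]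
    nlinarith
  have he0 : 0 ≤ e := inv_nonneg.2 (by linarith)
  have hdiff : R0' m M1 M2 s y - R0' m M1 M2 s s =
      M1 * (y - s) * (2 * s ^ 2 - 2 * e * (2 - 3 * s ^ 2 - 3 * s * (y + s))) := by
    simp only [R0', ← he]
    ring
  have hcoef : s ^ 2 ≤ 2 * s ^ 2 - 2 * e * (2 - 3 * s ^ 2 - 3 * s * (y + s)) := by
    nlinarith [mul_nonneg he0 (mul_nonneg hs0 (add_nonneg hy0 hs0)),
      mul_nonneg he0 (sq_nonneg s)]
  constructor
  · intro h
    rw [hK]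
    have h1 := (KW_mono hc hs hs0 h hy1).1
    have h2 := mul_le_mul_of_nonneg_left (mul_le_mul_of_nonneg_left hcoef
      (mul_nonneg hM1 (sub_nonneg.2 h))) hcn
    rw [← hdiff] at h2
    linarith
  · intro h
    rw [hK]
    have h1 := (KW_mono hc hs hs0 le_rfl hs1).2 y hy0 hy h
    have h2 := mul_le_mul_of_nonneg_left (mul_le_mul_of_nonpos_left hcoef
      (mul_nonpos_of_nonneg_of_nonpos hM1 (sub_nonpos.2 h))) hcn
    rw [← hdiff] at h2
    linarith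

/-- `U` dominates the square of the displacement. -/
theorem U_ge (hc : Cnst m b M1 M2) (hs : 8 ≤ (m : ℝ) * s ^ 2) (hs0 : 0 ≤ s) (hs1 : s < 1)
    (hy0 : 0 ≤ y) (hy1 : y < 1) (hy : 8 ≤ (m : ℝ) * y ^ 2) :
    M1 / 2 * s ^ 2 * cs s ^ (m - 2) * (y - s) ^ 2 ≤ U m b M1 M2 s y := by
  have hm : 4 ≤ m := by have := hc.large; omega
  set L := M1 / 2 * s ^ 2 * cs s ^ (m - 2)
  set F := fun w => U m b M1 M2 s w - L * (w - s) ^ 2
  have hd : ∀ w, w ^ 2 < 1 → HasDerivAt F (K m b M1 M2 s w - L * (2 * (w - s))) w := fun w hw => by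
    refine ((hasDerivAt_U hm hw).sub ((((hasDerivAt_id w).sub_const s).pow 2).const_mul L)).congr_deriv ?_
    simp
  have h0 : F s = 0 := by simp [F, U_self]
  have hin : ∀ w, w ∈ uIcc s y → 0 ≤ w ∧ w < 1 ∧ 8 ≤ (m : ℝ) * w ^ 2 := fun w hw => by
    rcases le_total s y with h | h
    · rw [uIcc_of_le h] at hw
      exact ⟨hs0.trans hw.1, lt_of_le_of_lt hw.2 hy1, by nlinarith [pow_le_pow_left₀ hs0 hw.1 2]⟩
    · rw [uIcc_of_ge h] at hw
      exact ⟨hy0.trans hw.1, lt_of_le_of_lt hw.2 hs1, by nlinarith [pow_le_pow_left₀ hy0 hw.1 2]⟩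
  have hsq : ∀ w ∈ uIcc s y, w ^ 2 < 1 := fun w hw => by
    obtain ⟨a, b, -⟩ := hin w hw
    nlinarith
  suffices 0 ≤ F y by simp only [F] at this; linarith
  rw [← h0]
  rcases le_total s y with h | h
  · rw [uIcc_of_le h] at hin hsq
    refine monotoneOn_of_deriv_nonneg (convex_Icc s y)
      (fun w hw => (hd w (hsq w hw)).continuousAt.continuousWithinAt)
      (fun w hw => (hd w (hsq w (interior_subset hw))).differentiableAt.differentiableWithinAt)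
      (fun w hw => ?_) ⟨le_rfl, h⟩ ⟨h, le_rfl⟩ h
    have hwI := interior_subset hw
    rw [(hd w (hsq w hwI)).deriv]
    obtain ⟨a, b', c⟩ := hin w hwI
    have := (K_bounds hc hs hs0 hs1 a b' c).1 hwI.1
    simp only [L]
    linarith
  · rw [uIcc_of_ge h] at hin hsq
    refine antitoneOn_of_deriv_nonpos (convex_Icc y s)
      (fun w hw => (hd w (hsq w hw)).continuousAt.continuousWithinAt)
      (fun w hw => (hd w (hsq w (interior_subset hw))).differentiableAt.differentiableWithinAt)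
      (fun w hw => ?_) ⟨le_rfl, h⟩ ⟨h, le_rfl⟩ h
    have hwI := interior_subset hw
    rw [(hd w (hsq w hwI)).deriv]
    obtain ⟨a, b', c⟩ := hin w hwI
    have := (K_bounds hc hs hs0 hs1 a b' c).2 hwI.2
    simp only [L]
    linarith

end Vale.Agent.P237.Petty.Tail
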