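import Vale.Agent.P237.Petty.Centre.Main
import Vale.Agent.P237.Petty.Tail.Centre
import Vale.Agent.P237.Petty.Tail.Sign

/-!
# P237: the band between the centre and the tail

For `1/5000 ≤ s ≤ 1/2000` and `s/2 ≤ S ≤ 9/20` the sign of `U` and the gap pay for the derivative
of the null function of the displacement.
-/

namespace Vale.Agent.P237.Petty.Tail

open Centre

variable {m : ℕ} {b M1 M2 C a A A' κ η lam s S z σ q u w : ℝ}

/-- The derivative of the null function of the displacement against the squares. -/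
theorem null_ge {K c : ℝ} (hK : 0 < K) (hc0 : 0 ≤ c) (hc1 : c ≤ 1) (hw : 0 ≤ w) (hw1 : w ≤ 1) :
    -(2 / K * (u ^ 2 + (q - 1) ^ 2)) ≤
      K * w ^ 2 * u ^ 2 - 2 * c * w * u ^ 2 - 2 * c * w ^ 2 * u * (q - 1) := by
  have h1 : 2 * c * w * u ^ 2 ≤ (K / 2 * w ^ 2 + 2 / K) * u ^ 2 := by
    refine mul_le_mul_of_nonneg_right ?_ (sq_nonneg u)
    have h : K / 2 * w ^ 2 + 2 / K - 2 * w = (K * w - 2) ^ 2 / (2 * K) := by field_simp; ring
    have h2 : 0 ≤ (K * w - 2) ^ 2 / (2 * K) := by positivity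
    have h3 : 2 * c * w ≤ 2 * 1 * w := by gcongr
    linarith
  have h2 : 2 * c * w ^ 2 * u * (q - 1) ≤ K / 2 * w ^ 2 * u ^ 2 + 2 / K * (q - 1) ^ 2 := by
    have h : K / 2 * w ^ 2 * u ^ 2 + c ^ 2 * w ^ 2 * (2 / K * (q - 1) ^ 2) -
        2 * c * w ^ 2 * u * (q - 1) = w ^ 2 * (K * u - 2 * c * (q - 1)) ^ 2 / (2 * K) := by
      field_simp
      ring
    have h0 : 0 ≤ w ^ 2 * (K * u - 2 * c * (q - 1)) ^ 2 / (2 * K) := by positivity
    have h3 : c ^ 2 * w ^ 2 * (2 / K * (q - 1) ^ 2) ≤ 1 * (2 / K * (q - 1) ^ 2) :=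
      mul_le_mul_of_nonneg_right (mul_le_one₀ (pow_le_one₀ hc0 hc1) (sq_nonneg w)
        (pow_le_one₀ hw hw1)) (by positivity)
    linarith
  linarith

/-- On the band the additions are the square and the null function of the displacement. -/
theorem total_eq_band (hs0 : 0 ≤ s) (hs : s ≤ 1 / 10) (hS0 : 0 ≤ S) (hS : S ≤ 9 / 20) (hη0 : 0 < η)
    (hη : η ≤ 11 / 20) (hm : 5 ≤ m) (hcl : cliffArg m M1 M2 S (cs s / z) ≤ 7 / 8) :
    total m b M1 M2 C a A A' κ η s S z σ =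
      P m b M1 M2 C s S z + z ^ m * Ident.gain (m - 1) M1 M2 s S (cs s / z) σ +
        A * cs s ^ (m - 5) * (((m : ℝ) - 3) * s * max (s - a) 0 ^ 2 * (S - s) ^ 2 -
          2 * cs s ^ 2 * max (s - a) 0 * (S - s) ^ 2 -
          2 * cs s ^ 2 * max (s - a) 0 ^ 2 * (S - s) * (z ^ m - 1)) := by
  have hx : 1 ≤ (1 - S) / ((1 - s) * η) := by
    rw [le_div_iff₀ (mul_pos (by linarith) hη0), one_mul]
    have : (1 - s) * η ≤ 1 * η := mul_le_mul_of_nonneg_right (by linarith) hη0.le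
    linarith
  obtain ⟨h1, h2⟩ := step_of_one_le hx
  obtain ⟨h3, h4⟩ := step_of_le hcl
  have hf : slopeField m M1 M2 η s S (cs s / z) = s := by
    simp [slopeField, cliffField, edgeField, cut, h1, h3]
    ring
  have hf' : slopeField' m M1 M2 η s S (cs s / z) (z ^ m) σ = 1 := by
    have h2' : step' ((1 - S) / ((1 - s) * η)) = 0 := h2
    simp [slopeField', cliffField', cliffField, edgeField', edgeField, cut, h1, h2', h3, h4]
  have hc : 89 / 100 ≤ cs S := by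
    rw [show cs S = √(1 - S ^ 2) from rfl, Real.le_sqrt (by norm_num) (by nlinarith)]
    nlinarith
  have hv : vObs m κ S = 0 := by rw [vObs, sqp_of_nonpos (by linarith), mul_zero]
  have hr : sqp (S - s - 1 / 2) = 0 := sqp_of_nonpos (by linarith)
  have hr' : sqp' (S - s - 1 / 2) = 0 := sqp'_of_nonpos (by linarith)
  obtain ⟨k, rfl⟩ : ∃ k, m = k + 5 := ⟨m - 5, by omega⟩
  rw [total, hf, hf', slopePart, hv, null2s, null2S, hr, hr']
  simp only [sqp, sqp', Nat.add_sub_cancel, show k + 5 - 3 = k + 2 from rfl, pow_add]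
  ring

/-- The derivative of the null function is small against the square and the gap. -/
theorem null_band {Q : ℝ} (hm : 1000 ≤ m) (hs : 1 / 5000 ≤ s) (hs2 : s ≤ 1 / 10) (ha : 0 ≤ a)
    (hA : 0 ≤ A) (hz : 0 < z) (hQ : z ^ m ≤ Q) :
    -(A * (2 * cs s ^ (m - 2)) *
        (20000 * (m : ℝ)⁻¹ * (u ^ 2 + Q * (2 + Q) * gap m z))) ≤
      A * cs s ^ (m - 5) * (((m : ℝ) - 3) * s * max (s - a) 0 ^ 2 * u ^ 2 -
        2 * cs s ^ 2 * max (s - a) 0 * u ^ 2 -
        2 * cs s ^ 2 * max (s - a) 0 ^ 2 * u * (z ^ m - 1)) := by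
  have hm' : (1000 : ℝ) ≤ m := by exact_mod_cast hm
  have hc1 := one_le_cs (by linarith) hs2
  have hcle : cs s ≤ 1 := Real.sqrt_le_one.2 (by nlinarith)
  have hK : 0 < ((m : ℝ) - 3) * s := mul_pos (by linarith) (by linarith)
  have hn := null_ge (u := u) (q := z ^ m) hK (sq_nonneg (cs s))
    (pow_le_one₀ (by linarith) hcle) (le_max_right (s - a) 0) (max_le (by linarith) zero_le_one)
  have hK2 : 2 / (((m : ℝ) - 3) * s) ≤ 20000 * (m : ℝ)⁻¹ := by
    rw [← div_eq_mul_inv, div_le_div_iff₀ hK (by linarith)]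
    linarith [mul_le_mul_of_nonneg_left hs (show (0 : ℝ) ≤ (m : ℝ) - 3 by linarith)]
  have hq0 := pow_pos hz m
  have hgap0 := gap_nonneg (m := m) hz
  have hgap : (z ^ m - 1) ^ 2 ≤ Q * (2 + Q) * gap m z := by
    have h1 : (z ^ m - 1) ^ 2 = z ^ m * (z ^ m - 1 + ((z ^ m)⁻¹ - 1)) := by
      generalize z ^ m = q at hq0 ⊢
      field_simp
      ring
    rw [h1]
    refine (mul_le_mul_of_nonneg_left (inv_gap_le hz) hq0.le).trans ?_
    rw [← mul_assoc]
    exact mul_le_mul_of_nonneg_right (mul_le_mul hQ (by linarith) (by linarith) (by linarith)) hgap0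
  have hX5 : cs s ^ (m - 5) ≤ 2 * cs s ^ (m - 2) := by
    rw [show m - 2 = m - 5 + 3 by omega, pow_add]
    have h3 : (1 : ℝ) / 2 ≤ cs s ^ 3 :=
      le_trans (by norm_num) (pow_le_pow_left₀ (by norm_num) hc1 3)
    linarith [mul_le_mul_of_nonneg_left h3 (pow_nonneg (show 0 ≤ cs s by linarith) (m - 5))]
  have hc0 : 0 ≤ cs s ^ (m - 5) := pow_nonneg (by linarith) _
  refine le_trans ?_ (mul_le_mul_of_nonneg_left hn (mul_nonneg hA hc0))
  rw [mul_neg, neg_le_neg_iff]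
  exact mul_le_mul (mul_le_mul_of_nonneg_left hX5 hA)
    (mul_le_mul hK2 (by linarith) (by positivity) (by positivity))
    (by positivity) (mul_nonneg hA (by linarith))

/-- The arithmetic of the band. -/
theorem band_arith {X e G U k Pv g N : ℝ} (hX : 0 ≤ X) (he : 0 ≤ e) (he1 : e ≤ 1 / 10 ^ 12)
    (hu : 0 ≤ u) (hG : 0 ≤ G) (hA1 : A ≤ 1 / 10 ^ 17)
    (hs : (1 / 5000 : ℝ) ^ 2 ≤ s ^ 2) (hM : 36 / 100 ≤ M1)
    (hP : U + k + e * X * (G / 50 - 2500 * u) ≤ Pv) (hU : M1 / 2 * s ^ 2 * X * u ≤ U) (hk : 0 ≤ k)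
    (hg : 0 ≤ g)
    (hN : -(A * (2 * X) * (20000 * e * (u + 150000 * (2 + 150000) * G))) ≤ N) :
    0 ≤ Pv + g + N := by
  have h3 := mul_le_mul_of_nonneg_right
    (show (18 : ℝ) / 100 ≤ M1 / 2 by linarith) (sq_nonneg s)
  have h4 := mul_le_mul hA1 he1 he (by norm_num)
  have h1 : 0 ≤ M1 / 2 * s ^ 2 - 2500 * e - 40000 * A * e := by linarith
  have h2 : (0 : ℝ) ≤ 1 / 50 - 40000 * A * (150000 * (2 + 150000)) := by linarith
  have k1 := mul_nonneg (mul_nonneg hX h1) hu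
  have k2 := mul_nonneg (mul_nonneg (mul_nonneg hX he) hG) h2
  linarith

/-- The profile is not small on the band. -/
theorem band_gS {g : ℝ} (hlam : 9 / 10 ≤ lam ^ 2) (hl : 0 ≤ lam) (hS0 : 0 ≤ S) (hS : S ≤ 9 / 20)
    (hg : lam * cs S ≤ g) : 84 / 100 ≤ g := by
  have hcS : 89 / 100 ≤ cs S := by
    rw [show cs S = √(1 - S ^ 2) from rfl, Real.le_sqrt (by norm_num) (by nlinarith)]
    nlinarith
  have hl2 : 948 / 1000 ≤ lam := by nlinarith
  linarith [mul_le_mul hl2 hcS (by norm_num) hl]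

/-- The whole integrand is nonnegative on the band. -/
theorem total_band {C : ℝ} (hC : 0 ≤ C) : ∃ N : ℕ, ∀ {m : ℕ} {b M1 M2 a A A' κ η lam s S z σ : ℝ},
    N ≤ m → Cnst m b M1 M2 → 12 / 100 ≤ M2 → 0 ≤ a → 0 ≤ A → A ≤ 1 / 10 ^ 17 →
    0 < η → η ≤ 11 / 20 → 1 / 5000 ≤ s → s ≤ 1 / 2000 → s / 2 ≤ S → S ≤ 9 / 20 → 0 < z →
    z ^ m ≤ 150000 → s ^ 2 * z ^ m ≤ 1 / 100 → 9 / 10 ≤ lam ^ 2 → 0 ≤ lam →
    lam * cs S ≤ cs s / z → 0 < cs s / z + S * σ →
      0 ≤ total m b M1 M2 C a A A' κ η s S z σ := by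
  obtain ⟨N₀, hN₀⟩ := exists_nat_ge (4 * C ^ 2 + 1000 * 150002 * C)
  refine ⟨N₀ + 10 ^ 12, ?_⟩
  intro m b M1 M2 a A A' κ η lam s S z σ hm hc hM2 ha hA0 hA hη0 hη hs1 hs2 hsS hS hz hQ hsq hlam
    hl hg hD
  have hmN : (N₀ : ℝ) + 10 ^ 12 ≤ m := by
    have := (Nat.cast_le (α := ℝ)).2 hm
    push_cast at this
    linarith
  have hm12 : (10 : ℝ) ^ 12 ≤ m := by linarith [(Nat.cast_nonneg N₀ : (0 : ℝ) ≤ N₀)]
  have hmC : 4 * C ^ 2 + 1000 * 150002 * C ≤ (m : ℝ) := by linarith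
  have hm5 : 5 ≤ m := le_trans (by norm_num) ((Nat.le_add_left _ N₀).trans hm)
  have hs0 : 0 ≤ s := by linarith
  have hS0 : 0 ≤ S := by linarith
  have hs' : s ≤ 1 / 10 := by linarith
  set q := z ^ m with hq
  have hq0 : 0 < q := pow_pos hz m
  set e := (m : ℝ)⁻¹ with he
  have he0 : 0 < e := inv_pos.2 (by linarith)
  have he1 : e ≤ 1 / 10 ^ 12 := by
    rw [he, one_div]
    exact inv_anti₀ (by norm_num) hm12
  have hss : (1 / 5000 : ℝ) ^ 2 ≤ s ^ 2 := pow_le_pow_left₀ (by norm_num) hs1 2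
  have hm8 : 8 ≤ (m : ℝ) * s ^ 2 :=
    le_trans (by norm_num) (mul_le_mul hm12 hss (by norm_num) (by linarith))
  have hS8 : 8 ≤ (m : ℝ) * S ^ 2 :=
    le_trans (by norm_num) (mul_le_mul hm12
      (pow_le_pow_left₀ (by norm_num) (show (1 / 10000 : ℝ) ≤ S by linarith) 2) (by norm_num)
      (by linarith))
  have hCC : 2 * C * √e ≤ 1 := by
    rw [he, Real.sqrt_inv, ← div_eq_mul_inv, div_le_one (Real.sqrt_pos.2 (by linarith))]
    exact Real.le_sqrt_of_sq_le (by nlinarith)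
  have hCe : C * (e * (2 + q)) ≤ 1 / 1000 := by
    have h1 : C * (e * (2 + q)) ≤ C * (e * 150002) :=
      mul_le_mul_of_nonneg_left (mul_le_mul_of_nonneg_left (by linarith) he0.le) hC
    have h2 : (1000 * 150002 * C) * e ≤ 1 := by
      rw [he, ← div_eq_mul_inv, div_le_one (by linarith)]
      linarith [sq_nonneg C]
    linarith
  have hqe : e * q ≤ 1 / 1000 :=
    (mul_le_mul he1 hQ hq0.le (by norm_num)).trans (by norm_num)
  have hs4 : s ^ 2 ≤ (1 / 2000) ^ 2 := pow_le_pow_left₀ hs0 hs2 2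
  have hG : -Gd m M1 M2 s * (2 + q) ≤ 3 / 100 := by
    refine (mul_le_mul_of_nonneg_right (neg_Gd_le hc (by linarith)) (by linarith)).trans ?_
    have : e * (2 + q) ≤ 1 / 10 ^ 12 * 150002 := mul_le_mul he1 (by linarith) (by linarith) (by norm_num)
    rw [← he]
    linarith
  have hP := P_ge_U (S := S) hc (le_trans (by norm_num) ((Nat.le_add_left _ N₀).trans hm)) hs0 hs'
    hS0 hS hz hC hCC hCe hqe hG
  have hU := U_ge hc hm8 hs0 (by linarith) hS0 (by linarith) hS8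
  have hk := mul_nonneg (kap'_nonneg (m := m) hC hs0 hs') (sat_nonneg (m := m) (S - s))
  have hgS : 84 / 100 ≤ cs s / z := band_gS hlam hl hS0 hS hg
  rw [total_eq_band hs0 hs' hS0 hS hη0 hη hm5 (cliffArg_le_centre
    (le_trans (by norm_num) ((Nat.le_add_left _ N₀).trans hm)) hM2 (by linarith [hc.M1_lo])
    hc.M1_hi hS0 hS hgS)]
  have hgain : 0 ≤ q * Ident.gain (m - 1) M1 M2 s S (cs s / z) σ :=
    mul_nonneg hq0.le (gain_nonneg_centre hM2 hc.M1_hi hlam hl hS0 hS hg hD)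
  have hN := null_band (A := A) (a := a) (u := S - s)
    (le_trans (by norm_num) ((Nat.le_add_left _ N₀).trans hm)) hs1 hs' ha hA0 hz hQ
  exact band_arith (M1 := M1) (pow_nonneg (Real.sqrt_nonneg _) _) he0.le he1 (sq_nonneg _)
    (gap_nonneg hz) hA hss hc.M1_lo hP hU hk hgain hN

end Vale.Agent.P237.Petty.Tail
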