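import Vale.Agent.P237.Petty.Tail.Cliff.Small
import Vale.Agent.P237.Petty.Tail.Facts

/-!
# P237: the sign of the integrand on a cliff

Close to the axis of the circle and away from that of the profile, the value `g` of the profile is
below `1` by a multiple of `log m / m`, which absorbs every error of order `1/m`.
-/

namespace Vale.Agent.P237.Petty.Tail

open MeasureTheory Set Real Centre Filter Topology

variable {p : ℕ} {g σ : ℝ → ℝ} {t : ℝ}

namespace Cliff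

/-- The mass before the point bounds the profile. -/
theorem pow_sq_le (hg : Regular g) (hσ : Transport p g σ) (ht : t ∈ Ioo (0 : ℝ) 1)
    (ht0 : 9 / 20 ≤ t) : (g t ^ (p + 1)) ^ 2 * ((p : ℝ) + 1) ≤ 10 := by
  have htI : t ∈ Icc (0 : ℝ) 1 := Ioo_subset_Icc_self ht
  have hsub : Icc (0 : ℝ) 1 ⊆ Icc (-1) 1 := Icc_subset_Icc (by norm_num) le_rfl
  have hgt : 0 ≤ g t := hg.nonneg t (hsub htI)
  have hgi : ∀ x ∈ Icc (0 : ℝ) 1,
      IntervalIntegrable (fun u => g u ^ (p + 1)) volume 0 x := fun x hx =>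
    (((hg.cont.mono hsub).pow (p + 1)).mono
      (uIcc_subset_Icc (show (0 : ℝ) ∈ Icc (0 : ℝ) 1 by norm_num) hx)).intervalIntegrable
  have h1 : t * g t ^ (p + 1) ≤ ∫ u in (0 : ℝ)..t, g u ^ (p + 1) := by
    have e : t * g t ^ (p + 1) = ∫ _u in (0 : ℝ)..t, g t ^ (p + 1) := by simp
    rw [e]
    exact intervalIntegral.integral_mono_on htI.1 intervalIntegrable_const (hgi t htI) fun u hu =>
      pow_le_pow_left₀ hgt (antitoneOn_of_concave_even hg.concave hg.even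
        ⟨hu.1, hu.2.trans htI.2⟩ htI hu.2) _
  have h2 : ∫ u in (0 : ℝ)..t, g u ^ (p + 1) ≤ Ident.half (p + 1) := by
    rw [← hσ.mass t htI, Ident.half]
    refine intervalIntegral.integral_mono_interval le_rfl (hσ.mem t htI).1 (hσ.mem t htI).2
      (Filter.Eventually.of_forall fun u => pow_nonneg (Real.sqrt_nonneg _) _)
      ((continuous_arc.pow _).intervalIntegrable _ _)
  have h3 : Ident.half (p + 1) ^ 2 * ((p : ℝ) + 1) ≤ 2 := by
    have h := LargeN.circ_sq_le_div (p + 1) (by omega)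
    rw [Ident.circ_eq_half, le_div_iff₀ (by positivity)] at h
    push_cast at h
    have := Real.pi_le_four
    have := sq_nonneg (Ident.half (p + 1))
    linarith
  have hG : 0 ≤ g t ^ (p + 1) := pow_nonneg hgt _
  have h4 : (9 / 20 * g t ^ (p + 1)) ^ 2 ≤ Ident.half (p + 1) ^ 2 :=
    pow_le_pow_left₀ (by positivity)
      (((mul_le_mul_of_nonneg_right ht0 hG).trans h1).trans h2) 2
  have h5 := mul_le_mul_of_nonneg_right h4 (show (0 : ℝ) ≤ (p : ℝ) + 1 by positivity)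
  linarith

/-- The tail of the circle bounds the Jacobian. -/
theorem q_le (hg : Regular g) (hσ : Transport p g σ) (ht : t ∈ Ioo (0 : ℝ) 1)
    (hs : σ t ≤ 1 / 2000) :
    cs (σ t) ^ (p + 1) / g t ^ (p + 1) ≤
      7 * (((p : ℝ) + 1) * σ t + √((p : ℝ) + 1)) := by
  have htI : t ∈ Icc (0 : ℝ) 1 := Ioo_subset_Icc_self ht
  have hs0 : 0 ≤ σ t := (hσ.mem t htI).1
  have hgt : 0 < g t := hg.pos_of_lt ⟨ht.1.le, ht.2⟩
  have hsub : Icc t 1 ⊆ Icc (-1 : ℝ) 1 := Icc_subset_Icc (by linarith [ht.1]) le_rfl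
  have hG := pow_pos hgt (p + 1)
  have h1 : ∫ u in t..1, g u ^ (p + 1) ≤ 1 * g t ^ (p + 1) := by
    refine le_trans (intervalIntegral.integral_mono_on (g := fun _ => g t ^ (p + 1)) ht.2.le
      (ContinuousOn.intervalIntegrable (by
        rw [uIcc_of_le ht.2.le]; exact (hg.cont.mono hsub).pow _))
      intervalIntegrable_const fun u hu => pow_le_pow_left₀ (hg.nonneg u (hsub hu))
        (antitoneOn_of_concave_even hg.concave hg.even htI ⟨ht.1.le.trans hu.1, hu.2⟩ hu.1) _) ?_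
    simp only [intervalIntegral.integral_const, smul_eq_mul]
    exact mul_le_mul_of_nonneg_right (by linarith [ht.1]) hG.le
  have h2 := LargeN.circle_tail_ge (p + 1) (by omega) hs0 (by linarith)
  rw [← tails_eq hg hσ htI, show √(1 - σ t ^ 2) = cs (σ t) from rfl] at h2
  push_cast at h2
  have hsm : 0 < ((p : ℝ) + 1) * σ t + √((p : ℝ) + 1) :=
    add_pos_of_nonneg_of_pos (mul_nonneg (by positivity) hs0) (sqrt_pos.2 (by positivity))
  have h3 := h2.trans h1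
  rw [div_mul_eq_mul_div, div_le_iff₀ (by positivity)] at h3
  rw [div_le_iff₀ hG]
  have h4 : 999 / 1000 ≤ 1 - σ t ^ 2 := by nlinarith
  have h5 := mul_le_mul_of_nonneg_right h4
    (pow_nonneg (Real.sqrt_nonneg (1 - σ t ^ 2)) (p + 1))
  rw [show √(1 - σ t ^ 2) = cs (σ t) from rfl] at h5
  have h6 : 0 ≤ g t ^ (p + 1) * (((p : ℝ) + 1) * σ t + √((p : ℝ) + 1)) := by positivity
  linarith

/-- The profile stays close to `1`. -/
theorem exists_g_ge : ∃ N : ℕ, ∀ {p : ℕ} {g σ : ℝ → ℝ} {t : ℝ}, N ≤ p → Regular g →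
    Transport p g σ → t ∈ Ioo (0 : ℝ) 1 → σ t ≤ 1 / 2000 → 99 / 100 ≤ g t := by
  have h := tendsto_pow_const_mul_const_pow_of_abs_lt_one 1 (r := (991 / 1000 : ℝ))
    (by rw [abs_lt]; norm_num)
  obtain ⟨N, hN⟩ := eventually_atTop.1 (h.eventually (gt_mem_nhds (by norm_num : (0 : ℝ) < 1 / 20)))
  refine ⟨N, fun {p g σ t} hp hg hσ ht hs => ?_⟩
  have hgt : 0 < g t := hg.pos_of_lt ⟨ht.1.le, ht.2⟩
  have hq := q_le hg hσ ht hs
  have hs0 : 0 ≤ σ t := (hσ.mem t (Ioo_subset_Icc_self ht)).1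
  set M := (p : ℝ) + 1 with hM
  have hM1 : 1 ≤ M := by rw [hM]; linarith [Nat.cast_nonneg (α := ℝ) p]
  have hq2 : cs (σ t) ^ (p + 1) / g t ^ (p + 1) ≤ 14 * M := by
    have h1 : √M ≤ M := by rw [sqrt_le_iff]; exact ⟨by linarith, by nlinarith⟩
    have h2 : M * σ t ≤ M * 1 := mul_le_mul_of_nonneg_left (by linarith) (by linarith)
    linarith
  by_contra hno
  rw [not_le] at hno
  rw [div_le_iff₀ (pow_pos hgt _)] at hq2
  have hc : (999 / 1000 : ℝ) ≤ cs (σ t) := by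
    rw [show cs (σ t) = √(1 - σ t ^ 2) from rfl, le_sqrt (by norm_num) (by nlinarith)]
    nlinarith
  have h1 : (999 / 1000 : ℝ) ^ (p + 1) ≤ 14 * M * (99 / 100) ^ (p + 1) :=
    (pow_le_pow_left₀ (by norm_num) hc _).trans (hq2.trans (mul_le_mul_of_nonneg_left
      (pow_le_pow_left₀ hgt.le hno.le _) (by positivity)))
  have h2 : (99 / 100 : ℝ) ^ (p + 1) ≤ (991 / 1000) ^ (p + 1) * (999 / 1000) ^ (p + 1) := by
    rw [← mul_pow]
    exact pow_le_pow_left₀ (by norm_num) (by norm_num) _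
  have h3 := hN (p + 1) (by omega)
  rw [pow_one] at h3
  push_cast at h3
  rw [← hM] at h3
  have h4 : (0 : ℝ) < (999 / 1000 : ℝ) ^ (p + 1) := by positivity
  have h5 := mul_le_mul_of_nonneg_left h2 (show 0 ≤ 14 * M by positivity)
  have h6 := mul_lt_mul_of_pos_right h3 (show (0 : ℝ) < 14 * (999 / 1000) ^ (p + 1) by positivity)
  linarith

/-- The deficit of the profile is large in units of `1/m`. -/
theorem exists_gap_ge {L : ℝ} (hL : 0 ≤ L) : ∃ N : ℕ, ∀ {p : ℕ} {g σ : ℝ → ℝ} {t : ℝ}, N ≤ p →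
    Regular g → Transport p g σ → t ∈ Ioo (0 : ℝ) 1 → 9 / 20 ≤ t → L * ((p : ℝ) + 1)⁻¹ ≤ 1 - g t := by
  obtain ⟨N, hN⟩ := exists_nat_gt (max (10 * exp (4 * L)) (2 * L))
  refine ⟨N, fun {p g σ t} hp hg hσ ht ht0 => ?_⟩
  have hp' : (N : ℝ) ≤ p := by exact_mod_cast hp
  have hM := lt_of_le_of_lt (le_max_left (10 * exp (4 * L)) (2 * L)) hN
  have hM2 := lt_of_le_of_lt (le_max_right (10 * exp (4 * L)) (2 * L)) hN
  by_contra hno
  rw [not_le] at hno
  set x := L * ((p : ℝ) + 1)⁻¹ with hx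
  have hx0 : 0 ≤ x := by positivity
  have hx1 : x ≤ 1 / 2 := by
    rw [hx, ← div_eq_mul_inv, div_le_iff₀ (by positivity)]
    linarith
  have h1 : exp (-(2 * x)) ≤ g t := by
    refine le_trans ?_ (show 1 - x ≤ g t by linarith)
    rw [exp_neg, inv_le_iff_one_le_mul₀ (exp_pos _)]
    have h := add_one_le_exp (2 * x)
    have := mul_le_mul_of_nonneg_left h (show 0 ≤ 1 - x by linarith)
    nlinarith
  have h2 : exp (-(4 * L)) ≤ (g t ^ (p + 1)) ^ 2 := by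
    refine le_trans (le_of_eq ?_) (pow_le_pow_left₀ (by positivity)
      (pow_le_pow_left₀ (exp_pos _).le h1 (p + 1)) 2)
    rw [← exp_nat_mul, ← exp_nat_mul, hx]
    congr 1
    push_cast
    field_simp
    ring
  have h3 := pow_sq_le hg hσ ht ht0
  have h4 := mul_le_mul_of_nonneg_right h2 (show (0 : ℝ) ≤ (p : ℝ) + 1 by positivity)
  have h5 : exp (-(4 * L)) * exp (4 * L) = 1 := by rw [← exp_add]; simp
  have h6 := mul_lt_mul_of_pos_left (show 10 * exp (4 * L) < (p : ℝ) + 1 by linarith)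
    (exp_pos (-(4 * L)))
  linarith

/-- The scalar margin. -/
theorem base_ge {M1 : ℝ} (hM1 : M1 ≤ 377 / 1000) {x : ℝ} (hx : 99 / 100 ≤ x) (hx1 : x ≤ 1) :
    239 / 1000 * (1 - x) ≤ 1 / x - M1 / x ^ 2 + M1 - 1 := by
  have hx0 : 0 < x := by linarith
  have e : 1 / x - M1 / x ^ 2 + M1 - 1 = (1 - x) * (x - M1 * (1 + x)) / x ^ 2 := by
    field_simp
    ring
  rw [e, le_div_iff₀ (by positivity)]
  have h1 : 239 / 1000 ≤ x - M1 * (1 + x) := by
    have := mul_le_mul_of_nonneg_right hM1 (show 0 ≤ 1 + x by linarith)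
    linarith
  have h2 := mul_le_mul_of_nonneg_left h1 (show 0 ≤ 1 - x by linarith)
  have h3 := mul_le_mul_of_nonneg_left (pow_le_one₀ hx0.le hx1 : x ^ 2 ≤ 1)
    (show 0 ≤ 239 / 1000 * (1 - x) by linarith)
  linarith

/-- The pointwise bound on a cliff. -/
theorem total_ge {m : ℕ} {b M1 M2 C a A κ η s S g σ : ℝ} (hc : Cnst m b M1 M2) (hm : 10 ^ 11 ≤ m)
    (hdec : (m : ℝ) ^ 2 * (91 / 100) ^ m ≤ 1) (hC : 0 ≤ C) (hA : 0 ≤ A) (ha : 1 / 5000 ≤ a)
    (hκ : 0 ≤ κ) (hκ1 : κ ≤ 1 / 8) (hs0 : 0 ≤ s) (hs : s ≤ 1 / 2000) (hS : 9 / 20 ≤ S)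
    (hS1 : S < 1) (hg : 99 / 100 ≤ g) (hg1 : g ≤ 1) (hσ : 0 ≤ σ) (hedge : σ * (1 - S) ≤ g)
    (hq : cs s ^ m / g ^ m ≤ 7 * ((m : ℝ) * s + √(m : ℝ)))
    (hqa : 1 / 5000 ≤ s → cs s ^ m / g ^ m ≤ 150000) :
    cs s ^ m * (39 / 1000 * (1 - g) - (50 + 500 * C + 20000 * A) * (m : ℝ)⁻¹) ≤
      total m b M1 M2 C a A 0 κ η s S (cs s / g) σ := by
  have hm1 : 2000 ≤ m := le_trans (by norm_num) hm
  have hm' : (2000 : ℝ) ≤ m := by exact_mod_cast hm1
  have hg0 : 0 < g := by linarith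
  have hs2 : s ^ 2 < 1 := by nlinarith
  have hS2 : S ^ 2 < 1 := by nlinarith
  obtain ⟨e1, e2⟩ := slopeField_eq_cliff (m := m) (M1 := M1) (M2 := M2) (η := η) (g := g)
    (q := cs s ^ m / g ^ m) (σ := σ) (show 2 / 5 ≤ S - s by linarith)
  rw [total_eq (by omega) hs2 hS2 hg0, e1, e2]
  have hp : 0 ≤ cs s ^ m := pow_nonneg (Real.sqrt_nonneg _) m
  have hq0 : 0 ≤ cs s ^ m / g ^ m := by positivity
  have hq14 : cs s ^ m / g ^ m ≤ 14 * m := by
    have h1 : √(m : ℝ) ≤ m := by rw [sqrt_le_iff]; exact ⟨by linarith, by nlinarith⟩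
    have h2 : (m : ℝ) * s ≤ (m : ℝ) * 1 := mul_le_mul_of_nonneg_left (by linarith) (by linarith)
    linarith
  have a1 := field_part_ge hc hm1 hs0 hs hS hS1.le hg hg1 hσ hedge hq0
  have a2 := constC_ge hc hm1 hs0 hs
  have a3 := Gd_term_ge hc (le_trans (by norm_num) hm) hs0 hs hg0 hq hg1
  have a4 := base_ge hc.M1_hi hg hg1
  have a5 := zC_ge hc hm1 hs0 hs hS hS1.le
  have a6 := fW_term_ge hc hm1 hdec hs0 hs hS hS1.le hg hg1
  have a7 := vObs_term_ge (s := s) (σ := σ) (show 3 ≤ m by omega) hdec hκ hκ1 hS hS1.le hg hg1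
  have a8 := null1_term_ge (show 1 ≤ m by omega) hC hs0 hs hS hq0 hq14
  have a9 := null2_term_ge (A := A) ha hA hm hs0 hs hS hS1.le hq0 hqa
  set main := 1 / g + fieldC m M1 M2 (cliffField m M1 M2 s S g) S g +
      gainC M1 M2 (cliffField m M1 M2 s S g) S g σ +
      g ^ m / cs s ^ m * potC m M1 M2 (cliffField m M1 M2 s S g) S g *
        cliffField' m M1 M2 s S g (cs s ^ m / g ^ m) σ +
      constC m b M1 M2 s + (m : ℝ)⁻¹ * (cs s ^ m / g ^ m - 1) * (Gd m M1 M2 s / cs s ^ 2)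
  have hmain : 39 / 1000 * (1 - g) - 20 * (m : ℝ)⁻¹ ≤ main := by
    simp only [main]
    linarith
  have h1 := mul_le_mul_of_nonneg_left hmain hp
  have : 0 ≤ cs s ^ m * (m : ℝ)⁻¹ := by positivity
  linarith

end Cliff

/-- The sign of the integrand on a cliff. -/
theorem total_cliff {C A : ℝ} (hC : 0 ≤ C) (hA : 0 ≤ A) :
    ∃ N : ℕ, ∀ {p : ℕ} {g σ : ℝ → ℝ} {lam t a κ η : ℝ}, N ≤ p → Regular g → Transport p g σ →
      0 < lam → lam ≤ 1 → lowPick p ≤ lam →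
      (∀ u ∈ Icc (-1 : ℝ) 1, lam * √(1 - u ^ 2) ≤ g u) → t ∈ Ioo (0 : ℝ) 1 → 9 / 20 ≤ t →
      σ t ≤ 1 / 2000 → 1 / 5000 ≤ a → 0 ≤ κ → κ ≤ 1 / 8 →
      0 ≤ total (p + 1) (Ident.b0 p) (Ident.coefPi p (muPick p)) (Ident.coefJ p (nuPick p))
        C a A 0 κ η (σ t) t (cs (σ t) / g t) (-slopeR g t) := by
  obtain ⟨N₁, hdec⟩ := Cliff.exists_decay
  obtain ⟨N₂, hglo⟩ := Cliff.exists_g_ge
  obtain ⟨N₃, hgap⟩ := Cliff.exists_gap_ge (L := 26 * (50 + 500 * C + 20000 * A)) (by positivity)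
  obtain ⟨N₄, -, hfacts⟩ := tail_facts
  refine ⟨max (max N₁ N₂) (max (max N₃ N₄) (10 ^ 11)), ?_⟩
  intro p g σ lam t a κ η hp hg hσ hl0 hl1 hlow hge ht ht0 hs ha hκ hκ1
  simp only [max_le_iff] at hp
  obtain ⟨⟨hp1, hp2⟩, ⟨hp3, hp4⟩, hp5⟩ := hp
  have hs0 : 0 ≤ σ t := (hσ.mem t (Ioo_subset_Icc_self ht)).1
  obtain ⟨hσ0, hσ1, -, -, -⟩ := slope_facts hg hl0 hge ht
  have hfa := (hfacts hp4 hg hσ hl0 hlow hl1 hge ht).2.2.2.2.1
  have hgp := hgap hp3 hg hσ ht ht0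
  have hq := Cliff.q_le hg hσ ht hs
  have hg99 := hglo hp2 hg hσ ht hs
  have hK : 0 ≤ 50 + 500 * C + 20000 * A := by positivity
  have he : 0 ≤ ((p : ℝ) + 1)⁻¹ := by positivity
  have hg1 : g t ≤ 1 := by
    have : 0 ≤ 26 * (50 + 500 * C + 20000 * A) * ((p : ℝ) + 1)⁻¹ := by positivity
    linarith
  refine le_trans ?_ (Cliff.total_ge (m := p + 1) (η := η) (cnst_pick (le_trans (by norm_num) hp5))
    (by omega) (hdec (p + 1) (by omega)) hC hA ha hκ hκ1 hs0 hs ht0 ht.2 hg99 hg1 hσ0 hσ1 ?_ ?_)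
  · refine mul_nonneg (pow_nonneg (Real.sqrt_nonneg _) _) ?_
    push_cast
    have := mul_nonneg hK he
    linarith
  · push_cast
    exact hq
  · intro h
    have := (hfa h).1
    rwa [div_pow] at this

end Vale.Agent.P237.Petty.Tail
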