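import Vale.Agent.P237.Petty.Tail.Basic
import Vale.Agent.P237.Petty.Tail.Sign

/-!
# P237: the calibrated integrand near the diagonal, away from the axis

Up to the slack of the obstacle the remaining terms are of order `1/m`, in units of `c ^ (m - 1)`
and of the displacement `ξ = (S - s) / c²`.
-/

namespace Vale.Agent.P237.Petty.Tail

open Centre

variable {m : ℕ} {b M1 M2 C s S z Q R : ℝ}

theorem cs_mem (hs : s ^ 2 ≤ 1) : 0 ≤ cs s ∧ cs s ≤ 1 :=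
  ⟨Real.sqrt_nonneg _, Real.sqrt_le_one.2 (by nlinarith)⟩

/-- The diagonal coefficient is of the order of the circle. -/
theorem abs_Gd_le (hc : Cnst m b M1 M2) (hM2 : 0 ≤ M2) (hs : s ^ 2 ≤ 1) :
    |Gd m M1 M2 s| ≤ 3 * cs s := by
  obtain ⟨hc0, hc1⟩ := cs_mem hs
  have hm := hc.m_ge
  have hM1 := hc.M1_hi
  have hM10 := hc.M1_lo
  have hsum := hc.sum_le
  have he : ((m : ℝ) - 2)⁻¹ ≤ 1 / 90 := by
    rw [one_div]; exact inv_anti₀ (by norm_num) (by linarith)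
  have he0 : (0 : ℝ) ≤ ((m : ℝ) - 2)⁻¹ := inv_nonneg.2 (by linarith)
  have hf : 0 ≤ 1 - ((m : ℝ) - 2)⁻¹ * (1 - 3 * s ^ 2) ∧
      1 - ((m : ℝ) - 2)⁻¹ * (1 - 3 * s ^ 2) ≤ 2 := by
    constructor <;> nlinarith [sq_nonneg s, mul_nonneg he0 (sq_nonneg s)]
  have hcc : cs s ^ 2 ≤ cs s := by nlinarith
  have hc4 : cs s ^ 4 ≤ cs s := by nlinarith [mul_nonneg hc0 (sub_nonneg.2 hc1)]
  have a1 : 2 * M1 * cs s ^ 2 * (1 - ((m : ℝ) - 2)⁻¹ * (1 - 3 * s ^ 2)) ≤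
      2 * (377 / 1000) * cs s * 2 :=
    mul_le_mul (mul_le_mul (by linarith) hcc (sq_nonneg _) (by norm_num)) hf.2 hf.1 (by positivity)
  have a2 : 2 * M2 * cs s ^ 4 ≤ 2 * (52 / 100) * cs s :=
    mul_le_mul (by linarith) hc4 (by positivity) (by norm_num)
  have a3 : 0 ≤ 2 * M1 * cs s ^ 2 * (1 - ((m : ℝ) - 2)⁻¹ * (1 - 3 * s ^ 2)) :=
    mul_nonneg (mul_nonneg (by linarith) (sq_nonneg _)) hf.1
  have a4 : 0 ≤ 2 * M2 * cs s ^ 4 := by positivity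
  unfold Gd
  rw [← cs_sq hs, ← pow_mul, abs_le]
  constructor <;> linarith

/-- The coefficient of `r - 1` is Lipschitz in the displacement. -/
theorem abs_coG_sub_le (hc : Cnst m b M1 M2) (hM2 : 0 ≤ M2) (hs0 : 0 ≤ s) (hs1 : s ≤ 1)
    (hS0 : 0 ≤ S) (hS1 : S ≤ 1) :
    |Gd m M1 M2 s - coG m M1 M2 s S| ≤ 9 * |S - s| := by
  have hm := hc.m_ge
  set e := ((m : ℝ) - 2)⁻¹ with he
  have he' : e ≤ 1 / 90 := by
    rw [he, one_div]; exact inv_anti₀ (by norm_num) (by linarith)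
  have he0 : 0 ≤ e := inv_nonneg.2 (by linarith)
  have hM1 := hc.M1_hi
  have hM10 : 0 ≤ M1 := by linarith [hc.M1_lo]
  have hM2' : M2 ≤ 52 / 100 := by linarith [hc.sum_le]
  set X := 2 * M1 * (s ^ 2 * (S + s) + e * (-(4 * s) + 3 * s ^ 2 * (S + s))) +
    2 * M2 * (1 - s ^ 2) * s + 2 * M1 * ((S + s) - s * (S ^ 2 + S * s + s ^ 2))
  have hX : Gd m M1 M2 s - coG m M1 M2 s S = (S - s) * X := by
    simp only [Gd, coG, coA, X, ← he]
    ring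
  rw [hX, abs_mul, mul_comm]
  refine mul_le_mul_of_nonneg_right ?_ (abs_nonneg _)
  have b1 : s ^ 2 * (S + s) ≤ 2 := by nlinarith
  have b2 : s * (S ^ 2 + S * s + s ^ 2) ≤ 3 := by
    nlinarith [mul_le_mul hS1 hs1 hs0 zero_le_one]
  have b3 : (1 - s ^ 2) * s ≤ 1 := by nlinarith
  have b4 : 0 ≤ (1 - s ^ 2) * s := mul_nonneg (by nlinarith) hs0
  have b5 : 0 ≤ s ^ 2 * (S + s) := by positivity
  have b6 : 0 ≤ s * (S ^ 2 + S * s + s ^ 2) := by positivity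
  have b7 : |s ^ 2 * (S + s) + e * (-(4 * s) + 3 * s ^ 2 * (S + s))| ≤ 3 := by
    rw [abs_le]
    constructor <;> nlinarith [mul_nonneg he0 hs0, mul_nonneg he0 b5]
  have b8 : |(S + s) - s * (S ^ 2 + S * s + s ^ 2)| ≤ 3 := abs_le.2 ⟨by linarith, by linarith⟩
  calc |X| ≤ |2 * M1 * (s ^ 2 * (S + s) + e * (-(4 * s) + 3 * s ^ 2 * (S + s)))| +
        |2 * M2 * (1 - s ^ 2) * s| + |2 * M1 * ((S + s) - s * (S ^ 2 + S * s + s ^ 2))| :=
      abs_add_three _ _ _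
    _ ≤ 2 * (377 / 1000) * 3 + 2 * (52 / 100) * 1 + 2 * (377 / 1000) * 3 := by
        rw [abs_mul (2 * M1), abs_mul (2 * M1), abs_of_nonneg (by positivity : 0 ≤ 2 * M1),
          mul_assoc (2 * M2), abs_mul (2 * M2), abs_of_nonneg (by positivity : 0 ≤ 2 * M2),
          abs_of_nonneg b4]
        gcongr <;> linarith
    _ ≤ 9 := by norm_num

/-- The coefficient of `z ^ 2` is at most three times the square of the circle. -/
theorem coA_bounds (hc : Cnst m b M1 M2) (hs0 : 0 ≤ s) (hs1 : s ≤ 1) (hS0 : 0 ≤ S) (hS1 : S ≤ 1) :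
    0 ≤ coA m M1 s S ∧ coA m M1 s S ≤ 1 - s * S := by
  have hm := hc.m_ge
  set e := ((m : ℝ) - 2)⁻¹ with he
  have he' : e ≤ 1 / 90 := by
    rw [he, one_div]; exact inv_anti₀ (by norm_num) (by linarith)
  have he0 : 0 ≤ e := inv_nonneg.2 (by linarith)
  have hp : s * S ≤ 1 := by nlinarith
  have hp0 := mul_nonneg hs0 hS0
  have e1 : coA m M1 s S = M1 * ((1 - s * S) * ((1 + s * S) - e * (1 - 3 * (s * S)))) := by
    simp only [coA, ← he]; ring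
  have h2 : 0 ≤ (1 + s * S) - e * (1 - 3 * (s * S)) ∧
      (1 + s * S) - e * (1 - 3 * (s * S)) ≤ 11 / 5 := by
    constructor <;> nlinarith
  have hM1 := hc.M1_hi
  have hM10 : 0 ≤ M1 := by linarith [hc.M1_lo]
  refine ⟨?_, ?_⟩ <;> rw [e1]
  · exact mul_nonneg hM10 (mul_nonneg (by linarith) h2.1)
  · calc M1 * ((1 - s * S) * ((1 + s * S) - e * (1 - 3 * (s * S))))
        ≤ 377 / 1000 * ((1 - s * S) * (11 / 5)) :=
          mul_le_mul hM1 (mul_le_mul_of_nonneg_left h2.2 (by linarith))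
            (mul_nonneg (by linarith) h2.1) (by norm_num)
      _ ≤ _ := by linarith

/-- `1 - sS` near the diagonal. -/
theorem one_sub_mul_le (hs0 : 0 ≤ s) (hs1 : s ≤ 1) (hS0 : 0 ≤ S) (hS1 : S ≤ 1)
    (hρ : 1 - S ≤ 2 * (1 - s)) : 1 - s * S ≤ 3 * cs s ^ 2 := by
  rw [cs_sq (by nlinarith)]
  nlinarith

/-- The obstacle slack in units of the square of `q - 1`. -/
theorem slack_ge (hc : Cnst m b M1 M2) (hz : 0 < z) (hs : s ^ 2 ≤ 1) (hQ : z ^ m ≤ Q) :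
    cs s * fW m b S * ((m : ℝ)⁻¹ * (z ^ m - 1) ^ 2) / (Q + 1) ≤
      2 * cs s * fW m b S * ((1 - (m : ℝ)⁻¹) * (z ^ m - 1 + ((z ^ m)⁻¹ - 1)) -
        (z ^ (m - 1) - 1 + (1 - (m : ℝ)⁻¹) * ((z ^ m)⁻¹ - 1))) := by
  have hm2 : 2 ≤ m := by have := hc.large; omega
  have hQ0 : 0 < Q + 1 := by linarith [(pow_pos hz m).le.trans hQ]
  rw [div_le_iff₀ hQ0]
  have h := mul_le_mul_of_nonneg_left (third_ge hm2 hz hQ)
    (mul_nonneg (cs_mem hs).1 (fW_nonneg (t := S) (m := m) (by omega) hc.b_pos))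
  linarith

/-- The second null function is of order `1/m`. -/
theorem abs_kap_term_le (hm : 3 ≤ m) (hC : 0 ≤ C) (hs0 : 0 ≤ s) (hs1 : s < 1) (δ : ℝ) :
    |kap m C s * sat' m (S - s) * δ| ≤
      2 * C * ((m : ℝ)⁻¹ * cs s ^ (m - 1)) * (|S - s| / cs s ^ 2 * |δ|) := by
  have hs2 : s ^ 2 < 1 := by nlinarith
  have hcp := cs_pos hs2
  have hc1 := (cs_mem hs2.le).2
  have hk : |kap m C s| ≤ C * (m : ℝ)⁻¹ * cs s ^ m := by
    unfold kap
    rw [abs_neg, abs_of_nonneg (by positivity)]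
    have hse : √(m : ℝ)⁻¹ ≤ 1 := by
      rw [Real.sqrt_le_one]; exact Nat.cast_inv_le_one m
    have hexp : Real.exp (-(√(m : ℝ) * s)) ≤ 1 :=
      Real.exp_le_one_iff.2 (neg_nonpos.2 (mul_nonneg (Real.sqrt_nonneg _) hs0))
    rw [Real.sqrt_inv] at hse ⊢
    calc C * ((m : ℝ)⁻¹ * (√(m : ℝ))⁻¹) * (cs s ^ m * Real.exp (-(√(m : ℝ) * s)))
        ≤ C * ((m : ℝ)⁻¹ * 1) * (cs s ^ m * 1) := by gcongr
      _ = _ := by ring
  have hs' : |sat' m (S - s)| ≤ 2 * |S - s| := by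
    unfold sat'
    have hd : (1 : ℝ) ≤ (1 + (m : ℝ) * (S - s) ^ 2) ^ 2 :=
      one_le_pow₀ (le_add_of_nonneg_right (by positivity))
    rw [abs_div, abs_mul, abs_two, abs_pow, pow_abs, abs_of_pos (lt_of_lt_of_le one_pos hd)]
    exact div_le_self (by positivity) hd
  have hcc : cs s ^ m * cs s ^ 2 ≤ cs s ^ (m - 1) := by
    rw [← pow_add]; exact pow_le_pow_of_le_one hcp.le hc1 (by omega)
  rw [abs_mul, abs_mul]
  calc |kap m C s| * |sat' m (S - s)| * |δ| ≤ C * (m : ℝ)⁻¹ * cs s ^ m * (2 * |S - s|) * |δ| :=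
        mul_le_mul_of_nonneg_right (mul_le_mul hk hs' (abs_nonneg _) (by positivity)) (abs_nonneg _)
    _ = 2 * C * (m : ℝ)⁻¹ * (cs s ^ m * cs s ^ 2) * (|S - s| / cs s ^ 2 * |δ|) := by
        field_simp
    _ ≤ 2 * C * (m : ℝ)⁻¹ * cs s ^ (m - 1) * (|S - s| / cs s ^ 2 * |δ|) := by gcongr
    _ = _ := by ring

/-- The main part of the integrand loses only `1/m`. -/
theorem main_ge (hc : Cnst m b M1 M2) (hz : 0 < z) (hs0 : 0 ≤ s) (hs1 : s < 1) (hS0 : 0 ≤ S)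
    (hS1 : S < 1) (hρ : 1 - S ≤ 2 * (1 - s)) (hQ : z ^ m ≤ Q) (hR : (z ^ m)⁻¹ ≤ R)
    (hT : (m : ℝ)⁻¹ * (2 + Q) * Real.exp (2 * (m : ℝ)⁻¹ * Q) ≤ 1) :
    -(12 * R * ((m : ℝ)⁻¹ * cs s ^ (m - 1)) * (z ^ m - 1) ^ 2) ≤ cs s ^ (m - 2) *
      (cs s * (z - 1 + (m : ℝ)⁻¹ * ((z ^ m)⁻¹ - 1)) -
        coA m M1 s S * (z ^ 2 - 1 + 2 * (m : ℝ)⁻¹ * ((z ^ m)⁻¹ - 1)) -
        2 * ((m : ℝ) - 2)⁻¹ * M1 * (1 - s * S) * S ^ 2 *
          ((z ^ m)⁻¹ * z ^ 2 - 1 - (1 - 2 * (m : ℝ)⁻¹) * ((z ^ m)⁻¹ - 1))) := by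
  have hm := hc.m_ge
  have hm2 : 3 ≤ m := by have := hc.large; omega
  have hs2 : s ^ 2 < 1 := by nlinarith
  have hcp := cs_pos hs2
  have hc1 := (cs_mem hs2.le).2
  have hq := pow_pos hz m
  have he0 : (0 : ℝ) < (m : ℝ)⁻¹ := inv_pos.2 (by linarith)
  have hQ0 : 0 ≤ Q := hq.le.trans hQ
  have hg0 := gap_nonneg (m := m) hz
  have hgap : gap m z ≤ R * (z ^ m - 1) ^ 2 := by
    have e1 : (z ^ m - 1) ^ 2 * (z ^ m)⁻¹ = z ^ m - 1 + ((z ^ m)⁻¹ - 1) := by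
      field_simp; ring
    have e2 := mul_le_mul_of_nonneg_left hR (sq_nonneg (z ^ m - 1))
    rw [gap, ← Real.log_pow]
    linarith [Real.log_le_sub_one_of_pos hq]
  have hf1 : 0 ≤ z - 1 + (m : ℝ)⁻¹ * ((z ^ m)⁻¹ - 1) :=
    le_trans (mul_nonneg he0.le hg0) (mul_gap_le_first (by omega) hz)
  have hT' : (m : ℝ)⁻¹ * (2 + z ^ m) * Real.exp (2 * (m : ℝ)⁻¹ * z ^ m) ≤ 1 := by
    refine le_trans (mul_le_mul (mul_le_mul_of_nonneg_left (by linarith) he0.le)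
      (Real.exp_le_exp.2 (mul_le_mul_of_nonneg_left hQ (by linarith))) (Real.exp_pos _).le
      (mul_nonneg he0.le (by linarith))) hT
  have hf2 : z ^ 2 - 1 + 2 * (m : ℝ)⁻¹ * ((z ^ m)⁻¹ - 1) ≤ 4 * (m : ℝ)⁻¹ * gap m z := by
    refine (second_le_mul_gap (by omega) hz).trans ?_
    have := mul_le_mul_of_nonneg_left hT'
      (show 0 ≤ 2 * (m : ℝ)⁻¹ * gap m z from mul_nonneg (by linarith) hg0)
    linarith
  have hf4 : (z ^ m)⁻¹ * z ^ 2 - 1 - (1 - 2 * (m : ℝ)⁻¹) * ((z ^ m)⁻¹ - 1) ≤ 0 := by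
    linarith [fourth_le (m := m) (by omega) hz]
  have hcoef : 0 ≤ 2 * ((m : ℝ) - 2)⁻¹ * M1 * (1 - s * S) * S ^ 2 := by
    have : (0 : ℝ) ≤ ((m : ℝ) - 2)⁻¹ := inv_nonneg.2 (by linarith)
    have : 0 ≤ M1 := by linarith [hc.M1_lo]
    have : 0 ≤ 1 - s * S := by nlinarith
    positivity
  obtain ⟨hA0, hA1⟩ := coA_bounds hc hs0 hs1.le hS0 hS1.le
  have hA3 : coA m M1 s S ≤ 3 * cs s := by
    refine hA1.trans ((one_sub_mul_le hs0 hs1.le hS0 hS1.le hρ).trans ?_)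
    nlinarith
  have i1 : coA m M1 s S * (z ^ 2 - 1 + 2 * (m : ℝ)⁻¹ * ((z ^ m)⁻¹ - 1)) ≤
      3 * cs s * (4 * (m : ℝ)⁻¹ * (R * (z ^ m - 1) ^ 2)) := by
    calc _ ≤ coA m M1 s S * (4 * (m : ℝ)⁻¹ * gap m z) := mul_le_mul_of_nonneg_left hf2 hA0
      _ ≤ _ := mul_le_mul hA3 (mul_le_mul_of_nonneg_left hgap (by linarith))
          (mul_nonneg (by linarith) hg0) (by positivity)
  have i2 := mul_nonneg hcp.le hf1
  have i3 := mul_nonpos_of_nonneg_of_nonpos hcoef hf4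
  have := mul_le_mul_of_nonneg_left
    (show -(3 * cs s * (4 * (m : ℝ)⁻¹ * (R * (z ^ m - 1) ^ 2))) ≤
      cs s * (z - 1 + (m : ℝ)⁻¹ * ((z ^ m)⁻¹ - 1)) -
        coA m M1 s S * (z ^ 2 - 1 + 2 * (m : ℝ)⁻¹ * ((z ^ m)⁻¹ - 1)) -
        2 * ((m : ℝ) - 2)⁻¹ * M1 * (1 - s * S) * S ^ 2 *
          ((z ^ m)⁻¹ * z ^ 2 - 1 - (1 - 2 * (m : ℝ)⁻¹) * ((z ^ m)⁻¹ - 1)) by linarith)
    (pow_nonneg hcp.le (m - 2))
  have hpow : cs s ^ (m - 2) * cs s = cs s ^ (m - 1) := by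
    rw [← pow_succ]; congr 1; omega
  rw [← hpow]
  linarith

/-- The calibrated integrand keeps the slack of the obstacle up to terms of order `1/m`. -/
theorem P_near (hc : Cnst m b M1 M2) (hM2 : 0 ≤ M2) (hC : 0 ≤ C) (hz : 0 < z) (hs0 : 0 ≤ s)
    (hs1 : s < 1) (hS0 : 0 ≤ S) (hS1 : S < 1) (hsm : 8 ≤ (m : ℝ) * s ^ 2)
    (hSm : 8 ≤ (m : ℝ) * S ^ 2) (hρ : 1 - S ≤ 2 * (1 - s)) (hQ : z ^ m ≤ Q)
    (hR : (z ^ m)⁻¹ ≤ R) (hT : (m : ℝ)⁻¹ * (2 + Q) * Real.exp (2 * (m : ℝ)⁻¹ * Q) ≤ 1) :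
    cs s * fW m b S * ((m : ℝ)⁻¹ * (z ^ m - 1) ^ 2) / (Q + 1) -
        (m : ℝ)⁻¹ * cs s ^ (m - 1) * ((15 * R) * (z ^ m - 1) ^ 2 +
          (9 * R + 2 * C) * (|S - s| / cs s ^ 2 * |z ^ m - 1|)) ≤
      P m b M1 M2 C s S z := by
  have hm := hc.m_ge
  have hm4 : 4 ≤ m := by have := hc.large; omega
  have hm0 : 0 < m := by omega
  have hs2 : s ^ 2 < 1 := by nlinarith
  have hS2 : S ^ 2 < 1 := by nlinarith
  have hU : 0 ≤ U m b M1 M2 s S := by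
    refine le_trans ?_ (U_ge hc hsm hs0 hs1 hS0 hS1 hSm)
    have : 0 ≤ M1 := by linarith [hc.M1_lo]
    have : 0 ≤ cs s ^ (m - 2) := pow_nonneg (Real.sqrt_nonneg _) _
    positivity
  rw [P_eq hm4 hz hs2 hS2]
  set e := (m : ℝ)⁻¹ with he
  have he0 : 0 < e := inv_pos.2 (by linarith)
  have he1 : e ≤ 1 := Nat.cast_inv_le_one m
  set c := cs s with hcdef
  have hcp : 0 < c := cs_pos hs2
  have hc1 : c ≤ 1 := (cs_mem hs2.le).2
  set q := z ^ m with hqdef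
  have hq : 0 < q := pow_pos hz m
  set r := q⁻¹ with hrdef
  have hr : 0 < r := inv_pos.2 hq
  have hqr : r * q = 1 := inv_mul_cancel₀ hq.ne'
  have hR0 : 0 ≤ R := hr.le.trans hR
  set δ := q - 1 with hδdef
  have hsum : δ + (r - 1) = δ ^ 2 * r := by
    simp only [hδdef]
    linear_combination (-(q : ℝ) + 2) * hqr
  have hrr : r - 1 = -(δ * r) := by
    simp only [hδdef]
    linear_combination hqr
  have hsum0 : 0 ≤ δ ^ 2 * r := by positivity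
  have hsumR : δ ^ 2 * r ≤ R * δ ^ 2 := by
    rw [mul_comm]; exact mul_le_mul_of_nonneg_right hR (sq_nonneg _)
  have hrrR : |r - 1| ≤ R * |δ| := by
    rw [hrr, abs_neg, abs_mul, abs_of_pos hr, mul_comm]
    exact mul_le_mul_of_nonneg_right hR (abs_nonneg _)
  have hpow : c ^ (m - 2) * c = c ^ (m - 1) := by
    rw [← pow_succ]; congr 1; omega
  have hcn : 0 ≤ c ^ (m - 1) := pow_nonneg hcp.le _
  set X := |S - s| / c ^ 2 with hX
  have hu : |S - s| = c ^ 2 * X := by rw [hX]; field_simp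
  have hX0 : 0 ≤ X := div_nonneg (abs_nonneg _) (sq_nonneg _)
  -- the diagonal coefficient
  have h1 : -(3 * R * (e * c ^ (m - 1)) * δ ^ 2) ≤ hd m M1 M2 s * (δ + (r - 1)) := by
    have hg : |hd m M1 M2 s| ≤ 3 * (e * c ^ (m - 1)) := by
      rw [hd, abs_mul, abs_mul, ← he, abs_of_pos he0, abs_of_nonneg (pow_nonneg hcp.le _),
        mul_assoc, ← hpow]
      calc e * (c ^ (m - 2) * |Gd m M1 M2 s|) ≤ e * (c ^ (m - 2) * (3 * c)) := by
            gcongr; exact abs_Gd_le hc hM2 hs2.le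
        _ = _ := by ring
    rw [hsum]
    have := mul_le_mul hg hsumR hsum0 (by positivity)
    have h' := neg_abs_le (hd m M1 M2 s * (δ ^ 2 * r))
    rw [abs_mul, abs_of_nonneg hsum0] at h'
    linarith
  -- the second null function
  have h2 : -(2 * C * (e * c ^ (m - 1)) * (X * |δ|)) ≤ kap m C s * sat' m (S - s) * δ :=
    (neg_le_neg (abs_kap_term_le (S := S) (by omega : 3 ≤ m) hC hs0 hs1 δ)).trans (neg_abs_le _)
  -- the linear coefficient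
  have h3 : e * c ^ (m - 2) * (Gd m M1 M2 s - coG m M1 M2 s S) * (r - 1) ≤
      9 * R * (e * c ^ (m - 1)) * (X * |δ|) := by
    refine (le_abs_self _).trans ?_
    rw [abs_mul, abs_mul, abs_of_nonneg (by positivity : 0 ≤ e * c ^ (m - 2))]
    have := mul_le_mul (mul_le_mul_of_nonneg_left (abs_coG_sub_le hc hM2 hs0 hs1.le hS0 hS1.le)
      (show 0 ≤ e * c ^ (m - 2) by positivity)) hrrR (abs_nonneg _) (by positivity)
    rw [hu] at this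
    refine this.trans ?_
    have hcc : c ^ (m - 2) * c ^ 2 ≤ c ^ (m - 1) := by
      rw [← pow_add]; exact pow_le_pow_of_le_one hcp.le hc1 (by omega)
    have := mul_le_mul_of_nonneg_left hcc (show 0 ≤ 9 * R * e * (X * |δ|) by positivity)
    linarith
  have h4 := main_ge hc hz hs0 hs1 hS0 hS1 hρ hQ hR hT
  have h5 := slack_ge (S := S) hc hz hs2.le hQ
  have hk' : 0 ≤ kap' m C s * sat m (S - s) := by
    refine mul_nonneg ?_ (div_nonneg (sq_nonneg _) (by positivity))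
    unfold kap'
    rw [← hcdef]
    have : 0 < 1 - s ^ 2 := by linarith
    positivity
  simp only [coN, ← hcdef, ← he, ← hrdef] at *
  linarith

end Vale.Agent.P237.Petty.Tail
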