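import Vale.Agent.P237.Petty.Tail.NearP

/-!
# P237: the squares left by the tangent bounds and by the obstacle

Near the diagonal the negative square is paid by the obstacle, or is linear in the displacement;
everywhere it is bounded.
-/

namespace Vale.Agent.P237.Petty.Tail

open Centre

variable {m : ℕ} {b M1 M2 lam s S z k κ η σ Q R : ℝ}

/-- The conditions on a slope `-σ` of a profile above the ellipse. -/
structure SlopeOK (lam S g σ : ℝ) : Prop where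
  nonneg : 0 ≤ σ
  to_edge : σ * (1 - S) ≤ g
  icept_pos : 0 < g + S * σ
  clears : σ ^ 2 + lam ^ 2 ≤ (g + S * σ) ^ 2

theorem SlopeOK.le_icept (h : SlopeOK lam S (cs s / z) σ) : lam ≤ cs s / z + S * σ :=
  le_trans (le_abs_self lam) (abs_le_of_sq_le_sq (by nlinarith [h.clears, sq_nonneg σ]) h.icept_pos.le)

/-- The square of the obstacle is bounded by the distance to the ellipse. -/
theorem SlopeOK.obs_sq_le (h : SlopeOK lam S (cs s / z) σ) (hS : S ^ 2 ≤ 1) :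
    ((1 - S ^ 2) * σ - S * (cs s / z)) ^ 2 ≤ (cs s / z) ^ 2 - lam ^ 2 * cs S ^ 2 := by
  rw [cs_sq hS]
  have h1 := mul_le_mul_of_nonneg_left h.clears (sub_nonneg.2 hS)
  linarith

/-- The unit of the squares. -/
theorem gain_unit (hm : 3 ≤ m) (hz : 0 < z) :
    z ^ m * (cs s / z) ^ (m - 3) = cs s ^ (m - 3) * z ^ 3 := by
  obtain ⟨i, rfl⟩ : ∃ i, m = i + 3 := ⟨m - 3, by omega⟩
  rw [Nat.add_sub_cancel, div_pow, pow_add]
  field_simp

/-- The negative part of the gain. -/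
theorem gain_ge (hm : 3 ≤ m) (hz : 0 < z) (hM1 : 0 ≤ M1) (hM1' : M1 ≤ 377 / 1000)
    (hM2 : 0 ≤ M2) (hs : s ^ 2 ≤ 1) (hS : S ^ 2 ≤ 1) (hlam : 4 / 5 ≤ lam)
    (h : SlopeOK lam S (cs s / z) σ) :
    -(cs s ^ (m - 3) * z ^ 3 / 2 * (σ - k * (cs s / z + S * σ)) ^ 2) ≤
      z ^ m * Ident.gain (m - 1) M1 M2 k S (cs s / z) σ := by
  have hD := h.le_icept
  have hc0 := (cs_mem hs).1
  set g := cs s / z with hg
  set X := (σ - k * (g + S * σ)) ^ 2 with hX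
  have hX0 : 0 ≤ X := sq_nonneg _
  rw [Ident.gain, show m - 1 - 2 = m - 3 by omega, ← hX, ← mul_div_assoc, le_div_iff₀ h.icept_pos,
    ← mul_assoc, ← mul_assoc, gain_unit hm hz]
  have hW : 0 ≤ cs s ^ (m - 3) * X * z ^ 3 := by positivity
  have hb : -(377 / 1000) ≤ M2 * g ^ 2 - M1 * S ^ 2 := by nlinarith [sq_nonneg g]
  have h1 := mul_le_mul_of_nonneg_left hb hW
  have h3 := mul_le_mul_of_nonneg_left (hlam.trans hD) hW
  linarith

/-- Away from the diagonal the gain is bounded below by a constant. -/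
theorem gain_far (hm : 3 ≤ m) (hz : 0 < z) (hz2 : z ≤ 2) (hM1 : 0 ≤ M1) (hM1' : M1 ≤ 377 / 1000)
    (hM2 : 0 ≤ M2) (hs : s ^ 2 ≤ 1) (hS0 : 0 ≤ S) (hS : S ≤ 1)
    (hlam : 4 / 5 ≤ lam) (hk0 : 0 ≤ k) (hk1 : k ≤ 1) (hη : 0 < η) (hη1 : η ≤ 1)
    (hkS : η * (1 - k) ≤ 2 * (1 - S)) (h : SlopeOK lam S (cs s / z) σ) :
    -(16 / η ^ 2 * cs s ^ (m - 1)) ≤ z ^ m * Ident.gain (m - 1) M1 M2 k S (cs s / z) σ := by
  refine le_trans ?_ (gain_ge hm hz hM1 hM1' hM2 hs (by nlinarith) hlam h)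
  obtain ⟨hc0, -⟩ := cs_mem hs
  set g := cs s / z with hg
  have hg0 : 0 ≤ g := div_nonneg hc0 hz.le
  have e : σ - k * (g + S * σ) = σ * (1 - k * S) - k * g := by ring
  have h1 : η * (σ * (1 - k * S)) ≤ 3 * g := by
    have hb : η * (1 - k * S) ≤ 3 * (1 - S) := by
      nlinarith [mul_nonneg hη.le (mul_nonneg (sub_nonneg.2 hk1) (sub_nonneg.2 hS))]
    calc η * (σ * (1 - k * S)) = σ * (η * (1 - k * S)) := by ring
      _ ≤ σ * (3 * (1 - S)) := mul_le_mul_of_nonneg_left hb h.nonneg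
      _ ≤ _ := by linarith [h.to_edge]
  have h2 : |η * (σ - k * (g + S * σ))| ≤ 4 * g := by
    rw [e, abs_le]
    have h0 : 0 ≤ η * (σ * (1 - k * S)) :=
      mul_nonneg hη.le (mul_nonneg h.nonneg (by nlinarith))
    have h4 : η * (k * g) ≤ g := by
      calc η * (k * g) ≤ 1 * (1 * g) := by gcongr
        _ = g := by ring
    have h5 : 0 ≤ η * (k * g) := by positivity
    constructor <;> linarith
  have h3 := pow_le_pow_left₀ (abs_nonneg _) h2 2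
  rw [sq_abs] at h3
  have hpow : cs s ^ (m - 3) * cs s ^ 2 = cs s ^ (m - 1) := by rw [← pow_add]; congr 1; omega
  rw [neg_le_neg_iff, div_mul_eq_mul_div (16 : ℝ), le_div_iff₀ (by positivity)]
  calc cs s ^ (m - 3) * z ^ 3 / 2 * (σ - k * (g + S * σ)) ^ 2 * η ^ 2
      = cs s ^ (m - 3) * z ^ 3 / 2 * (η * (σ - k * (g + S * σ))) ^ 2 := by ring
    _ ≤ cs s ^ (m - 3) * z ^ 3 / 2 * (4 * g) ^ 2 := mul_le_mul_of_nonneg_left h3 (by positivity)
    _ = 8 * z * (cs s ^ (m - 3) * cs s ^ 2) := by rw [hg]; field_simp; ring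
    _ ≤ 16 * cs s ^ (m - 1) := by
        rw [hpow]; exact mul_le_mul_of_nonneg_right (by linarith) (by positivity)

/-- Near the diagonal the negative gain is the square of the obstacle and of the displacement. -/
theorem gain_near (hm : 3 ≤ m) (hz : 0 < z) (hz2 : z ≤ 2) (hzi : z⁻¹ ≤ 2) (hM1 : 0 ≤ M1)
    (hM1' : M1 ≤ 377 / 1000) (hM2 : 0 ≤ M2) (hs0 : 0 ≤ s) (hs1 : s < 1) (hS0 : 0 ≤ S) (hS1 : S < 1)
    (hlam : 4 / 5 ≤ lam) (hη : 0 < η) (hρ : 1 - S ≤ 2 * (1 - s))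
    (hρ' : η * cs s ^ 2 ≤ 2 * cs S ^ 2) (h : SlopeOK lam S (cs s / z) σ) :
    -(288 / η ^ 2 * cs s ^ (m - 1) * (((1 - S ^ 2) * σ - S * (cs s / z)) ^ 2 / cs s ^ 2 +
        (|S - s| / cs s ^ 2) ^ 2)) ≤ z ^ m * Ident.gain (m - 1) M1 M2 s S (cs s / z) σ := by
  have hs2 : s ^ 2 < 1 := by nlinarith
  have hS2 : S ^ 2 < 1 := by nlinarith
  refine le_trans ?_ (gain_ge hm hz hM1 hM1' hM2 hs2.le hS2.le hlam h)
  have hz3 : z ^ 3 ≤ 8 := (pow_le_pow_left₀ hz.le hz2 3).trans_eq (by norm_num)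
  have hcp := cs_pos hs2
  have hcS := cs_pos hS2
  set c := cs s with hcdef
  set g := c / z with hg
  set u_ := (1 - S ^ 2) * σ - S * g with hu_
  have hg0 : 0 ≤ g := div_nonneg hcp.le hz.le
  have hg2 : g ≤ 2 * c := by
    rw [hg, div_eq_mul_inv, mul_comm 2]; exact mul_le_mul_of_nonneg_left hzi hcp.le
  have e : (σ - s * (g + S * σ)) * cs S ^ 2 = (1 - s * S) * u_ + (S - s) * g := by
    rw [cs_sq hS2.le, hu_]; ring
  have ha := one_sub_mul_le hs0 hs1.le hS0 hS1.le hρ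
  rw [← hcdef] at ha
  have ha0 : 0 ≤ 1 - s * S := by nlinarith
  have h1 : ((σ - s * (g + S * σ)) * cs S ^ 2) ^ 2 ≤
      18 * c ^ 4 * u_ ^ 2 + 8 * c ^ 2 * (S - s) ^ 2 := by
    rw [e]
    have a1 : (1 - s * S) ^ 2 * u_ ^ 2 ≤ (3 * c ^ 2) ^ 2 * u_ ^ 2 :=
      mul_le_mul_of_nonneg_right (pow_le_pow_left₀ ha0 ha 2) (sq_nonneg _)
    have a2 : (S - s) ^ 2 * g ^ 2 ≤ (S - s) ^ 2 * (2 * c) ^ 2 :=
      mul_le_mul_of_nonneg_left (pow_le_pow_left₀ hg0 hg2 2) (sq_nonneg _)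
    linarith [sq_nonneg ((1 - s * S) * u_ - (S - s) * g)]
  have h2 : (σ - s * (g + S * σ)) ^ 2 * (η * c ^ 2) ^ 2 ≤
      4 * (18 * c ^ 4 * u_ ^ 2 + 8 * c ^ 2 * (S - s) ^ 2) := by
    have := mul_le_mul_of_nonneg_left (pow_le_pow_left₀ (by positivity) hρ' 2)
      (sq_nonneg (σ - s * (g + S * σ)))
    linarith
  have hpow : c ^ (m - 1) = c ^ (m - 3) * c ^ 2 := by rw [← pow_add]; congr 1; omega
  rw [hpow, neg_le_neg_iff, div_pow, sq_abs,
    show 288 / η ^ 2 * (c ^ (m - 3) * c ^ 2) * (u_ ^ 2 / c ^ 2 + (S - s) ^ 2 / (c ^ 2) ^ 2) =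
      4 * c ^ (m - 3) * (72 * (u_ ^ 2 + (S - s) ^ 2 / c ^ 2) / η ^ 2) by field_simp; ring]
  have hunit : c ^ (m - 3) * z ^ 3 / 2 ≤ 4 * c ^ (m - 3) := by
    linarith [mul_le_mul_of_nonneg_left hz3 (pow_nonneg hcp.le (m - 3))]
  refine mul_le_mul hunit ?_ (sq_nonneg _) (by positivity)
  rw [le_div_iff₀ (by positivity)]
  have h3 : (σ - s * (g + S * σ)) ^ 2 * η ^ 2 * c ^ 4 ≤
      72 * (u_ ^ 2 + (S - s) ^ 2 / c ^ 2) * c ^ 4 := by
    rw [show 72 * (u_ ^ 2 + (S - s) ^ 2 / c ^ 2) * c ^ 4 =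
      72 * c ^ 4 * u_ ^ 2 + 72 * c ^ 2 * (S - s) ^ 2 by field_simp]
    nlinarith [mul_nonneg (sq_nonneg c) (sq_nonneg (S - s))]
  exact le_of_mul_le_mul_right h3 (by positivity)

theorem vObs_nonneg (hm : 1 ≤ m) (hκ : 0 ≤ κ) (t : ℝ) : 0 ≤ vObs m κ t := by
  have : (1 : ℝ) ≤ m := by exact_mod_cast hm
  have : 0 ≤ cs t := Real.sqrt_nonneg _
  have := sqp_nonneg (89 / 100 - cs t)
  unfold vObs
  positivity

theorem vObs_le (hm : 1 ≤ m) (hκ : 0 ≤ κ) (t : ℝ) : vObs m κ t ≤ κ * m * cs t ^ (m - 3) := by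
  have hm' : (1 : ℝ) ≤ m := by exact_mod_cast hm
  have h0 : 0 ≤ cs t := Real.sqrt_nonneg _
  have h1 : sqp (89 / 100 - cs t) ≤ 1 := by
    refine le_trans (pow_le_pow_left₀ (le_max_right _ _) (?_ : max (89 / 100 - cs t) 0 ≤ 1) 2)
      (one_pow 2).le
    exact max_le (by linarith) zero_le_one
  unfold vObs
  calc κ * ((m : ℝ) - 1) * cs t ^ (m - 3) * sqp (89 / 100 - cs t) ≤
        κ * (m : ℝ) * cs t ^ (m - 3) * 1 :=
      mul_le_mul (mul_le_mul_of_nonneg_right (mul_le_mul_of_nonneg_left (by linarith) hκ)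
        (by positivity)) h1 (sqp_nonneg _) (by positivity)
    _ = _ := mul_one _

/-- The part of the obstacle above the circle. -/
theorem vObs_loss (hm : 3 ≤ m) (hz : 0 < z) (hκ : 0 ≤ κ) (hs : s ^ 2 < 1) (hQ : z ^ m ≤ Q)
    (hR : (z ^ m)⁻¹ ≤ R) (hQm : Q ≤ m) (hRm : R ≤ m) :
    z ^ m * (vObs m κ S * sqp (cs s / z - cs S)) ≤ 16 * Q * R * κ * cs s ^ (m - 1) *
      (2 * (1 + R) ^ 2 * ((m : ℝ)⁻¹ * (z ^ m - 1) ^ 2) +
        2 * ((m : ℝ) * (1 - cs S / cs s) ^ 2)) := by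
  have hcp := cs_pos hs
  have hq := pow_pos hz m
  have hR0 : 0 ≤ R := (inv_nonneg.2 hq.le).trans hR
  have hQ0 : 0 ≤ Q := hq.le.trans hQ
  obtain ⟨hz2, hzi, hzd⟩ := z_bounds (by omega) hz hQ hR hQm hRm
  set c := cs s with hc
  rcases le_total (c / z - cs S) 0 with h | h
  · rw [sqp_of_nonpos h, mul_zero, mul_zero]
    positivity
  have hcS : cs S ≤ c / z := by linarith
  have hcS0 : 0 ≤ cs S := Real.sqrt_nonneg _
  rw [sqp_of_nonneg h]
  have h1 : z ^ m * vObs m κ S ≤ 8 * Q * R * κ * m * c ^ (m - 3) := by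
    have hv := vObs_le (t := S) (by omega : 1 ≤ m) hκ
    have hp : cs S ^ (m - 3) ≤ (c / z) ^ (m - 3) := pow_le_pow_left₀ hcS0 hcS _
    calc z ^ m * vObs m κ S ≤ z ^ m * (κ * m * (c / z) ^ (m - 3)) :=
          mul_le_mul_of_nonneg_left (hv.trans (mul_le_mul_of_nonneg_left hp (by positivity))) hq.le
      _ = κ * m * (z ^ m * (c / z) ^ (m - 3)) := by ring
      _ = κ * m * (c ^ (m - 3) * z ^ 3) := by rw [hc, gain_unit hm hz]
      _ ≤ κ * m * (c ^ (m - 3) * 8) := by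
          gcongr
          exact (pow_le_pow_left₀ hz.le hz2 3).trans_eq (by norm_num)
      _ ≤ _ := by
          have hQR : 1 ≤ Q * R :=
            (mul_inv_cancel₀ hq.ne').symm.le.trans (mul_le_mul hQ hR (inv_nonneg.2 hq.le) hQ0)
          have := mul_le_mul_of_nonneg_left hQR (show 0 ≤ 8 * κ * m * c ^ (m - 3) by positivity)
          linarith
  have e : c / z - cs S = c * ((z⁻¹ - 1) + (1 - cs S / c)) := by field_simp; ring
  rw [← mul_assoc, e, mul_pow]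
  have h2 : ((z⁻¹ - 1) + (1 - cs S / c)) ^ 2 ≤
      2 * ((m : ℝ)⁻¹ * (1 + R)) ^ 2 * (z ^ m - 1) ^ 2 + 2 * (1 - cs S / c) ^ 2 := by
    have := pow_le_pow_left₀ (abs_nonneg _) hzd 2
    rw [sq_abs, mul_pow, sq_abs] at this
    linarith [sq_nonneg ((z⁻¹ - 1) - (1 - cs S / c))]
  have hpow : c ^ (m - 1) = c ^ (m - 3) * c ^ 2 := by rw [← pow_add]; congr 1; omega
  refine (mul_le_mul h1 (mul_le_mul_of_nonneg_left h2 (sq_nonneg c)) (by positivity)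
    (by positivity)).trans ?_
  rw [hpow]
  have hem : (m : ℝ) * ((m : ℝ)⁻¹) ^ 2 = (m : ℝ)⁻¹ := by
    have : (m : ℝ) ≠ 0 := by positivity
    field_simp
  have : 8 * Q * R * κ * m * c ^ (m - 3) * (c ^ 2 *
      (2 * ((m : ℝ)⁻¹ * (1 + R)) ^ 2 * (z ^ m - 1) ^ 2 + 2 * (1 - cs S / c) ^ 2)) =
      8 * Q * R * κ * (c ^ (m - 3) * c ^ 2) *
      (2 * (1 + R) ^ 2 * (((m : ℝ) * ((m : ℝ)⁻¹) ^ 2) * (z ^ m - 1) ^ 2) +
        2 * ((m : ℝ) * (1 - cs S / c) ^ 2)) := by ring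
  rw [this, hem]
  refine mul_le_mul_of_nonneg_right ?_ (by positivity)
  have : 0 ≤ Q * R * κ * (c ^ (m - 3) * c ^ 2) := by positivity
  linarith

/-- Beyond the switch the obstacle costs at most a multiple of `m`. -/
theorem vObs_loss_far (hm : 3 ≤ m) (hz : 0 < z) (hz2 : z ≤ 2) (hκ : 0 ≤ κ) (hs : s ^ 2 ≤ 1) :
    z ^ m * (vObs m κ S * sqp (cs s / z - cs S)) ≤ 2 * κ * m * cs s ^ (m - 1) := by
  obtain ⟨hc0, -⟩ := cs_mem hs
  have hq := pow_pos hz m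
  rcases le_total (cs s / z - cs S) 0 with h | h
  · rw [sqp_of_nonpos h, mul_zero, mul_zero]
    positivity
  have hcS0 : 0 ≤ cs S := Real.sqrt_nonneg _
  set g := cs s / z with hg
  have h1 : sqp (g - cs S) ≤ g ^ 2 :=
    pow_le_pow_left₀ (le_max_right _ _) (max_le (by linarith) (by linarith)) 2
  calc z ^ m * (vObs m κ S * sqp (g - cs S))
      ≤ z ^ m * (κ * m * g ^ (m - 3) * g ^ 2) :=
        mul_le_mul_of_nonneg_left (mul_le_mul ((vObs_le (by omega) hκ S).trans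
          (mul_le_mul_of_nonneg_left (pow_le_pow_left₀ hcS0 (by linarith) _) (by positivity))) h1
          (sqp_nonneg _) (mul_nonneg (by positivity) (pow_nonneg (by linarith) _))) hq.le
    _ = κ * m * (z ^ m * g ^ (m - 3)) * g ^ 2 := by ring
    _ = κ * m * (cs s ^ (m - 3) * cs s ^ 2) * z := by
        rw [hg, gain_unit hm hz]; field_simp
    _ ≤ κ * m * cs s ^ (m - 1) * 2 := by
        rw [show cs s ^ (m - 1) = cs s ^ (m - 3) * cs s ^ 2 by rw [← pow_add]; congr 1; omega]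
        exact mul_le_mul_of_nonneg_left hz2 (by positivity)
    _ = _ := by ring

/-- Where the gain is negative the quadratic obstacle is present. -/
theorem vObs_ge (hm : 3 ≤ m) (hκ : 0 ≤ κ) (hM1 : 0 ≤ M1) (hM1' : M1 ≤ 377 / 1000)
    (hM2 : 12 / 100 ≤ M2) (hlam : 99 / 100 ≤ lam) (hs : s ^ 2 < 1) (hS : S ^ 2 < 1)
    (hg : lam * cs S ≤ cs s / z) (hneg : M2 * (cs s / z) ^ 2 < M1 * S ^ 2)
    (hcS : cs S ≤ 2 * cs s) :
    κ * ((m : ℝ) - 1) * cs s ^ (m - 3) * ((cs S / cs s) ^ (m - 2) / 8000) ≤ vObs m κ S := by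
  have hcp := cs_pos hs
  have hcSp := cs_pos hS
  have hm' : (3 : ℝ) ≤ m := by exact_mod_cast hm
  have hS2 := cs_sq hS.le
  have h1 : (lam * cs S) ^ 2 ≤ (cs s / z) ^ 2 := pow_le_pow_left₀ (by positivity) hg 2
  have hlam2 : (99 / 100) ^ 2 ≤ lam ^ 2 := pow_le_pow_left₀ (by norm_num) hlam 2
  have h2 : cs S ^ 2 * (M1 + M2 * lam ^ 2) ≤ M1 := by
    nlinarith
  have h3 : cs S ≤ 8731 / 10000 := by
    have h4 : cs S ^ 2 * (12 / 100 * (99 / 100) ^ 2) ≤ M1 * (1 - cs S ^ 2) := by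
      have := mul_le_mul hM2 hlam2 (by norm_num) (by linarith)
      nlinarith [mul_le_mul_of_nonneg_left this (sq_nonneg (cs S))]
    have h5 : cs S ^ 2 * (12 / 100 * (99 / 100) ^ 2) ≤ 377 / 1000 * (1 - cs S ^ 2) :=
      h4.trans (mul_le_mul_of_nonneg_right hM1' (by nlinarith [sq_nonneg S]))
    nlinarith
  have h6 : 1 / 4000 ≤ sqp (89 / 100 - cs S) := by
    rw [sqp_of_nonneg (by linarith)]; nlinarith
  have h7 : cs s ^ (m - 3) * (cs S / cs s) ^ (m - 2) ≤ 2 * cs S ^ (m - 3) := by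
    rw [div_pow, ← mul_div_assoc, div_le_iff₀ (by positivity),
      show m - 2 = m - 3 + 1 by omega, pow_succ (cs S), pow_succ (cs s)]
    have := mul_le_mul_of_nonneg_left hcS
      (show 0 ≤ cs s ^ (m - 3) * cs S ^ (m - 3) by positivity)
    linarith
  have hk : 0 ≤ κ * ((m : ℝ) - 1) := mul_nonneg hκ (by linarith)
  unfold vObs
  have h8 := mul_le_mul_of_nonneg_left h6 (show 0 ≤ κ * ((m : ℝ) - 1) * cs S ^ (m - 3) by positivity)
  have h9 := mul_le_mul_of_nonneg_left h7 (mul_nonneg hk (by norm_num : (0 : ℝ) ≤ 1 / 8000))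
  linarith

end Vale.Agent.P237.Petty.Tail
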