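import Vale.Agent.P237.Petty.Centre.Defs
import Vale.Agent.P237.Petty.Ident.Forms

/-!
# P237: the integrand on the tail

The slope field leaves the circle abscissa for `1` when the abscissa of the profile is much closer
to the edge, or, far from the diagonal, when the profile drops below the surface where the bracket
changes sign; a small part of the obstacle is quadratic in the slope, and two null functions have
a derivative that grows with the square of the displacement.
-/

namespace Vale.Agent.P237.Petty.Tail

open Centre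

/-- The square of the positive part. -/
noncomputable def sqp (x : ℝ) : ℝ := max x 0 ^ 2

/-- The derivative of `sqp`. -/
noncomputable def sqp' (x : ℝ) : ℝ := 2 * max x 0

/-- A smooth step from `0` at `x ≤ 7/8` to `1` at `x ≥ 1`. -/
noncomputable def step (x : ℝ) : ℝ := 1 - sqp (1 - sqp (8 * x - 7))

/-- The derivative of `step`. -/
noncomputable def step' (x : ℝ) : ℝ := 8 * sqp' (1 - sqp (8 * x - 7)) * sqp' (8 * x - 7)

/-- The cutoff. -/
noncomputable def cut (η s S : ℝ) : ℝ := step ((1 - S) / ((1 - s) * η))

/-- The field near the edge: it leaves the circle abscissa for `1`. -/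
noncomputable def edgeField (η s S : ℝ) : ℝ := cut η s S * s + (1 - cut η s S)

/-- Its derivative along the transport, per unit of the circle abscissa. -/
noncomputable def edgeField' (η s S q : ℝ) : ℝ :=
  cut η s S + step' ((1 - S) / ((1 - s) * η)) / η * (q - (1 - S) / (1 - s))

/-- The profile is above the surface where the potential is free of the field iff `g > vSurf * S`. -/
noncomputable def vSurf (m : ℕ) (M1 M2 : ℝ) : ℝ := √((m : ℝ) / ((m : ℝ) - 2) * M1 / M2)

/-- The argument of the switch across that surface. -/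
noncomputable def cliffArg (m : ℕ) (M1 M2 S g : ℝ) : ℝ := 1 + (m : ℝ) * (vSurf m M1 M2 * S - g)

/-- The field on a cliff: it is `1` below the surface and leaves `s` just above it. -/
noncomputable def cliffField (m : ℕ) (M1 M2 s S g : ℝ) : ℝ :=
  s + (1 - s) * step (cliffArg m M1 M2 S g)

/-- Its derivative; `σ` is minus the slope. -/
noncomputable def cliffField' (m : ℕ) (M1 M2 s S g q σ : ℝ) : ℝ :=
  1 - step (cliffArg m M1 M2 S g) +
    (1 - s) * (step' (cliffArg m M1 M2 S g) * ((m : ℝ) * (vSurf m M1 M2 + σ) * q))

/-- The weight of the cliff field: only far from the diagonal. -/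
noncomputable def far (s S : ℝ) : ℝ := step (5 / 2 * (S - s))

/-- The slope field. -/
noncomputable def slopeField (m : ℕ) (M1 M2 η s S g : ℝ) : ℝ :=
  far s S * cliffField m M1 M2 s S g + (1 - far s S) * edgeField η s S

/-- The derivative of the slope field along the transport, per unit of the circle abscissa. -/
noncomputable def slopeField' (m : ℕ) (M1 M2 η s S g q σ : ℝ) : ℝ :=
  far s S * cliffField' m M1 M2 s S g q σ + (1 - far s S) * edgeField' η s S q +
    step' (5 / 2 * (S - s)) * (5 / 2) * (q - 1) *
      (cliffField m M1 M2 s S g - edgeField η s S)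

/-- The slope free part for a field `k` with derivative `k'` per unit of the circle abscissa. -/
noncomputable def fieldDs (m : ℕ) (M1 M2 k k' s S z : ℝ) : ℝ :=
  z ^ m * (Ident.tangentT (m - 1) M1 M2 k S (cs s / z) + Ident.potT (m - 1) M1 M2 k S (cs s / z)) +
    Ident.potK (m - 1) M1 M2 k S (cs s / z) * k'

/-- The coefficient of the quadratic part of the obstacle. -/
noncomputable def vObs (m : ℕ) (κ t : ℝ) : ℝ :=
  κ * ((m : ℝ) - 1) * cs t ^ (m - 3) * sqp (89 / 100 - cs t)

/-- The squares left by the tangent bounds and by the obstacle; `σ` is minus the slope. -/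
noncomputable def slopePart (m : ℕ) (κ M1 M2 k s S z σ : ℝ) : ℝ :=
  z ^ m * (Ident.gain (m - 1) M1 M2 k S (cs s / z) σ +
    vObs m κ S * (((1 - S ^ 2) * σ - S * (cs s / z)) ^ 2 - sqp (cs s / z - cs S)))

/-- The null function of the displacement. -/
noncomputable def null2 (m : ℕ) (a A A' s S : ℝ) : ℝ :=
  -(cs s ^ (m - 3) * (A * sqp (s - a) * (S - s) ^ 2 + A' * s ^ 3 * sqp (S - s - 1 / 2)))

/-- Its derivative in `s`. -/
noncomputable def null2s (m : ℕ) (a A A' s S : ℝ) : ℝ :=
  ((m : ℝ) - 3) * s * cs s ^ (m - 5) * (A * sqp (s - a) * (S - s) ^ 2 +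
      A' * s ^ 3 * sqp (S - s - 1 / 2)) -
    cs s ^ (m - 3) * (A * (sqp' (s - a) * (S - s) ^ 2 - 2 * sqp (s - a) * (S - s)) +
      A' * (3 * s ^ 2 * sqp (S - s - 1 / 2) - s ^ 3 * sqp' (S - s - 1 / 2)))

/-- Its derivative in `S`. -/
noncomputable def null2S (m : ℕ) (a A A' s S : ℝ) : ℝ :=
  -(cs s ^ (m - 3) * (2 * A * sqp (s - a) * (S - s) + A' * s ^ 3 * sqp' (S - s - 1 / 2)))

/-- The whole integrand, per unit of the circle abscissa. -/
noncomputable def total (m : ℕ) (b M1 M2 C a A A' κ η s S z σ : ℝ) : ℝ :=
  P m b M1 M2 C s S z +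
    (fieldDs m M1 M2 (slopeField m M1 M2 η s S (cs s / z))
        (slopeField' m M1 M2 η s S (cs s / z) (z ^ m) σ) s S z -
      fieldDs m M1 M2 s 1 s S z) +
    slopePart m κ M1 M2 (slopeField m M1 M2 η s S (cs s / z)) s S z σ +
    (null2s m a A A' s S + z ^ m * null2S m a A A' s S)

end Vale.Agent.P237.Petty.Tail
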