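import Vale.Agent.P237.Petty.Tail.Slope

/-!
# P237: the terms away from the diagonal and the gain of the null functions

Without the part that depends on the field the integrand is bounded below by a constant, the field
part is bounded, and the null function of the displacement gains `m ξ²`.
-/

namespace Vale.Agent.P237.Petty.Tail

open Centre

variable {m : ℕ} {b M1 M2 C a A A' s S z k k' Q K : ℝ}

/-- The calibrated integrand is the part of the field plus the part of the obstacle. -/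
theorem Q_eq_fieldDs (hm : 4 ≤ m) (hz : 0 < z) :
    Centre.Q m b M1 M2 s S z = cs s ^ (m - 1) * z + fieldDs m M1 M2 s 1 s S z +
      2 * W0 m b S * z ^ m * (1 - cs s / (z * cs S)) +
      cs s ^ (m - 2) * (cs s ^ 2 - (1 - s ^ 2)) *
        (M2 * s ^ 2 * (1 + (m : ℝ)⁻¹) - 2 * (m : ℝ)⁻¹ * M2 * (1 - s * S) * (z ^ m)⁻¹) := by
  obtain ⟨i, rfl⟩ : ∃ i, m = i + 4 := ⟨m - 4, by omega⟩
  simp only [Centre.Q, fieldDs, coA, Ident.tangentT, Ident.potT, Ident.potK,
    show i + 4 - 1 = i + 3 from rfl, show i + 4 - 2 = i + 2 from rfl,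
    show i + 3 - 1 = i + 2 from rfl, show i + 3 + 1 = i + 4 from rfl, div_pow]
  have hz' := hz.ne'
  have h2 : (i : ℝ) + 3 - 1 ≠ 0 := by
    have : (0 : ℝ) ≤ i := Nat.cast_nonneg i
    linarith
  have h4 : (i : ℝ) + 4 - 2 ≠ 0 := by
    have : (0 : ℝ) ≤ i := Nat.cast_nonneg i
    linarith
  push_cast
  field_simp
  ring

theorem fW_le (hc : Cnst m b M1 M2) (t : ℝ) (ht : t ^ 2 ≤ 1) :
    fW m b t ≤ m * cs t ^ (m - 2) := by
  obtain ⟨h0, h1⟩ := cs_mem ht
  have hb := hc.b_pos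
  have hb1 := hc.b_le_one
  have hb9 := hc.b_ge
  have hm := hc.m_ge
  have h2 : (cs t - b) ^ 2 * (cs t + 2 * b) ≤ 1 * 3 :=
    mul_le_mul (by nlinarith) (by linarith) (by positivity) zero_le_one
  have h3 : ((m : ℝ) - 1) / (4 * b ^ 3) * 3 ≤ m := by
    have := pow_le_pow_left₀ (by norm_num) hb9 3
    rw [div_mul_eq_mul_div, div_le_iff₀ (by positivity)]
    nlinarith [mul_nonneg (show (0 : ℝ) ≤ m - 1 by linarith) (show (0 : ℝ) ≤ b ^ 3 - 3 / 4 by linarith)]
  unfold fW wPoly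
  calc ((m : ℝ) - 1) / (4 * b ^ 3) * (cs t ^ (m - 2) * (cs t - b) ^ 2 * (cs t + 2 * b))
      ≤ ((m : ℝ) - 1) / (4 * b ^ 3) * (cs t ^ (m - 2) * 3) := by
        rw [mul_assoc (cs t ^ (m - 2))]
        refine mul_le_mul_of_nonneg_left (mul_le_mul_of_nonneg_left (h2.trans_eq (one_mul 3))
          (by positivity)) (div_nonneg (by linarith) (by positivity))
    _ = ((m : ℝ) - 1) / (4 * b ^ 3) * 3 * cs t ^ (m - 2) := by ring
    _ ≤ _ := mul_le_mul_of_nonneg_right h3 (by positivity)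

/-- The first moment of the circle power. -/
theorem s_mul_integral_fW_le (hc : Cnst m b M1 M2) (hs0 : 0 ≤ s) (hsS : s ≤ S) (hS : S < 1) :
    s * ∫ t in s..S, fW m b t ≤ cs s ^ m := by
  obtain ⟨i, rfl⟩ : ∃ i, m = i + 2 := ⟨m - 2, by have := hc.large; omega⟩
  have hd : ∀ x ∈ Set.uIcc s S,
      HasDerivAt (fun y => -(cs y ^ (i + 2))) (((i + 2 : ℕ) : ℝ) * x * cs x ^ i) x := fun x hx => by
    rw [Set.uIcc_of_le hsS] at hx
    exact (hasDerivAt_cs_pow (x := x) (by nlinarith [hx.1, hx.2]) i).neg.congr_deriv (by push_cast; ring)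
  have hcont : Continuous fun x => ((i + 2 : ℕ) : ℝ) * x * cs x ^ i :=
    (continuous_const.mul continuous_id).mul (cs_continuous.pow i)
  have hint := intervalIntegral.integral_eq_sub_of_hasDerivAt hd (hcont.intervalIntegrable _ _)
  rw [← intervalIntegral.integral_const_mul]
  refine (intervalIntegral.integral_mono_on hsS ((continuous_const.mul fW_continuous).intervalIntegrable _ _)
    (hcont.intervalIntegrable _ _) fun x hx => ?_).trans ?_
  · have h1 := fW_le hc x (by nlinarith [hx.1, hx.2])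
    rw [Nat.add_sub_cancel] at h1
    calc s * fW (i + 2) b x ≤ s * (((i + 2 : ℕ) : ℝ) * cs x ^ i) :=
          mul_le_mul_of_nonneg_left h1 hs0
      _ ≤ x * (((i + 2 : ℕ) : ℝ) * cs x ^ i) := by
          have := (cs_mem (s := x) (by nlinarith [hx.1, hx.2] : x ^ 2 ≤ 1)).1
          exact mul_le_mul_of_nonneg_right hx.1 (by positivity)
      _ = _ := by ring
  · rw [hint]
    have : 0 ≤ cs S := Real.sqrt_nonneg _
    have : 0 ≤ cs S ^ (i + 2) := by positivity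
    linarith

theorem abs_hd'_le (hc : Cnst m b M1 M2) (hM2 : 0 ≤ M2) (hs0 : 0 ≤ s) (hs1 : s < 1) :
    |hd' m M1 M2 s| ≤ 4 * cs s ^ (m - 3) := by
  have hs2 : s ^ 2 < 1 := by nlinarith
  have hcp := cs_pos hs2
  obtain ⟨-, hc1⟩ := cs_mem hs2.le
  have hm := hc.m_ge
  have hM1 := hc.M1_hi
  have hM10 : 0 ≤ M1 := by linarith [hc.M1_lo]
  have hM2' : M2 ≤ 52 / 100 := by linarith [hc.sum_le, hc.M1_lo]
  set e := ((m : ℝ) - 2)⁻¹ with he
  have he' : e ≤ 1 / 90 := by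
    rw [he, one_div]; exact inv_anti₀ (by norm_num) (by linarith)
  have he0 : 0 ≤ e := inv_nonneg.2 (by linarith)
  have hem : (0 : ℝ) < (m : ℝ)⁻¹ := inv_pos.2 (by linarith)
  set c := cs s with hcdef
  set X := -2 * s * (1 - e * (1 - 3 * s ^ 2)) + (1 - s ^ 2) * (6 * e * s) with hX
  have hX' : |X| ≤ 5 := by
    have b1 : 0 ≤ e * (3 * s ^ 2) := by positivity
    have b3 : (1 - s ^ 2) * (6 * e * s) ≤ 1 := by
      calc (1 - s ^ 2) * (6 * e * s) ≤ 1 * (6 * (1 / 90) * 1) := by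
            gcongr
            nlinarith
        _ ≤ 1 := by norm_num
    have b4 : 0 ≤ (1 - s ^ 2) * (6 * e * s) := mul_nonneg (by linarith) (by positivity)
    have b5 : 0 ≤ 1 - e * (1 - 3 * s ^ 2) ∧ 1 - e * (1 - 3 * s ^ 2) ≤ 2 := by
      constructor <;> nlinarith
    have b6 := mul_le_mul hs1.le b5.2 b5.1 zero_le_one
    have b7 := mul_nonneg hs0 b5.1
    rw [hX, abs_le]
    constructor <;> linarith
  set Y := 2 * M1 * X + 2 * M2 * (-4 * s * (1 - s ^ 2)) + s / c with hY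
  have hY' : c ^ 2 * |Y| ≤ 10 * c := by
    have a1 : |2 * M1 * X| ≤ 4 := by
      rw [abs_mul, abs_of_nonneg (by positivity : 0 ≤ 2 * M1)]
      calc 2 * M1 * |X| ≤ 2 * (377 / 1000) * 5 := by gcongr
        _ ≤ 4 := by norm_num
    have a2 : |2 * M2 * (-4 * s * (1 - s ^ 2))| ≤ 5 := by
      have b2 : 0 ≤ s * (1 - s ^ 2) ∧ s * (1 - s ^ 2) ≤ 1 := ⟨mul_nonneg hs0 (by linarith), by nlinarith⟩
      have := mul_le_mul hM2' b2.2 b2.1 (by norm_num)
      have := mul_nonneg hM2 b2.1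
      rw [abs_le]
      constructor <;> linarith
    have a3 : |s / c| * c ≤ 1 := by
      rw [abs_div, abs_of_nonneg hs0, abs_of_pos hcp, div_mul_cancel₀ _ hcp.ne']; linarith
    have a4 : |Y| * c ≤ 10 := by
      have := mul_le_mul_of_nonneg_right (abs_add_three (2 * M1 * X)
        (2 * M2 * (-4 * s * (1 - s ^ 2))) (s / c)) hcp.le
      have := mul_le_mul a1 hc1 hcp.le (by norm_num)
      have := mul_le_mul a2 hc1 hcp.le (by norm_num)
      rw [← hY] at *
      linarith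
    calc c ^ 2 * |Y| = c * (|Y| * c) := by ring
      _ ≤ c * 10 := mul_le_mul_of_nonneg_left a4 hcp.le
      _ = _ := by ring
  have hG := abs_Gd_le hc hM2 hs2.le
  rw [← hcdef] at hG
  have e1 : hd' m M1 M2 s =
      (m : ℝ)⁻¹ * c ^ (m - 4) * (-((m : ℝ) - 2) * s * Gd m M1 M2 s + c ^ 2 * Y) := by
    simp only [hd', ← hcdef, ← he, hY, hX]
    rw [hcdef, cs_sq hs2.le]
  have hin : |-((m : ℝ) - 2) * s * Gd m M1 M2 s + c ^ 2 * Y| ≤ 4 * (m : ℝ) * c := by
    refine (abs_add_le _ _).trans ?_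
    rw [abs_mul, abs_mul, abs_neg, abs_of_nonneg (by linarith : (0 : ℝ) ≤ (m : ℝ) - 2),
      abs_of_nonneg hs0, abs_mul (c ^ 2), abs_of_nonneg (sq_nonneg c)]
    have : ((m : ℝ) - 2) * s * |Gd m M1 M2 s| ≤ m * 1 * (3 * c) :=
      mul_le_mul (mul_le_mul (by linarith) hs1.le hs0 (by linarith)) hG (abs_nonneg _) (by positivity)
    have : 10 * c ≤ (m : ℝ) * c := mul_le_mul_of_nonneg_right (by linarith) hcp.le
    linarith
  rw [e1, abs_mul, abs_of_nonneg (by positivity : 0 ≤ (m : ℝ)⁻¹ * c ^ (m - 4))]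
  refine (mul_le_mul_of_nonneg_left hin (by positivity)).trans (le_of_eq ?_)
  obtain ⟨i, rfl⟩ : ∃ i, m = i + 4 := ⟨m - 4, by have := hc.large; omega⟩
  rw [show i + 4 - 3 = i + 1 from rfl, show i + 4 - 4 = i from rfl, pow_succ]
  field_simp

/-- Without the field part the integrand is bounded below. -/
theorem rest_ge (hc : Cnst m b M1 M2) (hM2 : 0 ≤ M2) (hC : 0 ≤ C) (hz : 0 < z) (hs0 : 0 ≤ s)
    (hsS : s ≤ S) (hS : S < 1) (hQ : z ^ m ≤ Q) :
    -((16 + (3 + 2 * C) * (Q + 1)) * cs s ^ (m - 1)) ≤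
      P m b M1 M2 C s S z - fieldDs m M1 M2 s 1 s S z := by
  have hs1 : s < 1 := lt_of_le_of_lt hsS hS
  have hS0 : 0 ≤ S := hs0.trans hsS
  have hs2 : s ^ 2 < 1 := by nlinarith
  have hS2 : S ^ 2 < 1 := by nlinarith
  have hm := hc.m_ge
  have hm4 : 4 ≤ m := by have := hc.large; omega
  have hcp := cs_pos hs2
  obtain ⟨-, hc1⟩ := cs_mem hs2.le
  set c := cs s with hcdef
  set N := c ^ (m - 1) with hN
  have hN0 : 0 ≤ N := pow_nonneg hcp.le _
  have hpow : c ^ (m - 2) * c = N := by rw [hN, ← pow_succ]; congr 1; omega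
  set e := (m : ℝ)⁻¹ with he
  have he0 : 0 < e := inv_pos.2 (by linarith)
  have he1 : e ≤ 1 := Nat.cast_inv_le_one m
  have hq := pow_pos hz m
  have hQ0 : 0 ≤ Q := hq.le.trans hQ
  have hcS : cs S ≤ c := Real.sqrt_le_sqrt (by nlinarith)
  have hcS0 : 0 ≤ cs S := Real.sqrt_nonneg _
  -- the value at the circle
  have h1 : Centre.Q m b M1 M2 s s 1 ≤ 6 * N := by
    obtain ⟨-, hA⟩ := coA_bounds (s := s) (S := s) hc hs0 hs1.le hs0 hs1.le
    obtain ⟨hA0, -⟩ := coA_bounds (s := s) (S := s) hc hs0 hs1.le hs0 hs1.le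
    have hM2' : M2 ≤ 52 / 100 := by linarith [hc.sum_le, hc.M1_lo]
    have hM10 : 0 ≤ M1 := by linarith [hc.M1_lo]
    have he20 : (0 : ℝ) ≤ ((m : ℝ) - 2)⁻¹ := inv_nonneg.2 (by linarith)
    have hss : 0 ≤ 1 - s * s := by nlinarith
    have : 0 ≤ M2 * (1 - s ^ 2) * s ^ 2 * (1 + e) := by
      have : 0 ≤ 1 - s ^ 2 := by linarith
      positivity
    have : 0 ≤ 2 * ((m : ℝ) - 2)⁻¹ * M1 * (1 - s * s) * s ^ 2 := by positivity
    have a1 : 2 * e * M2 * (1 - s ^ 2) * (1 - s * s) ≤ 2 * 1 * (52 / 100) * c * 1 := by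
      refine mul_le_mul (mul_le_mul (mul_le_mul (by linarith) hM2' hM2 (by norm_num)) ?_
        (by linarith) (by norm_num)) (by nlinarith) hss (by positivity)
      rw [← cs_sq hs2.le, ← hcdef]; nlinarith
    have : Centre.Q m b M1 M2 s s 1 ≤ c ^ (m - 2) * (6 * c) := by
      unfold Centre.Q
      rw [one_pow, ← he, ← hcdef, one_mul, div_self hcp.ne', sub_self, mul_zero, add_zero]
      refine mul_le_mul_of_nonneg_left ?_ (pow_nonneg hcp.le _)
      simp only [inv_one, mul_one, one_pow]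
      linarith
    linarith
  -- the weight with the null
  have h2 : hd m M1 M2 s * z ^ m - 2 * N ≤ 2 * W0 m b S * z ^ m * (1 - c / (z * cs S)) +
      z ^ m * null0S m b M1 M2 s S := by
    have hcSp := cs_pos hS2
    have hzm : z ^ m = z ^ (m - 1) * z := by rw [← pow_succ, Nat.sub_add_cancel (by omega)]
    have e1 : 2 * W0 m b S * z ^ m * (1 - c / (z * cs S)) + z ^ m * null0S m b M1 M2 s S =
        hd m M1 M2 s * z ^ m + 2 * c * fW m b S * ((1 - e) * z ^ m - z ^ (m - 1)) := by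
      simp only [null0S, W0, ← hcdef, ← he]
      rw [hzm]
      field_simp
      ring
    have h3 : -e ≤ (1 - e) * z ^ m - z ^ (m - 1) := by
      linarith [third_le (m := m) (by omega) hz]
    have hf := fW_le hc S hS2.le
    have hf0 := fW_nonneg (t := S) (m := m) (by omega) hc.b_pos
    have h4 : 2 * c * fW m b S * e ≤ 2 * N := by
      calc 2 * c * fW m b S * e ≤ 2 * c * ((m : ℝ) * c ^ (m - 2)) * e := by
            gcongr
            exact hf.trans (mul_le_mul_of_nonneg_left (pow_le_pow_left₀ hcS0 hcS _) (by positivity))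
        _ = 2 * (c ^ (m - 2) * c) * ((m : ℝ) * e) := by ring
        _ = _ := by rw [hpow, he, mul_inv_cancel₀ (by linarith), mul_one]
    have := mul_le_mul_of_nonneg_left h3 (show 0 ≤ 2 * c * fW m b S by positivity)
    rw [e1]
    linarith
  -- the rest of the first null
  have h5 : -hd m M1 M2 s - 6 * N ≤ null0s m b M1 M2 s S := by
    have a1 : -(4 * N) ≤ hd' m M1 M2 s * (S - s) := by
      refine le_trans ?_ (neg_abs_le _)
      rw [neg_le_neg_iff, abs_mul, abs_of_nonneg (sub_nonneg.2 hsS)]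
      refine (mul_le_mul (abs_hd'_le hc hM2 hs0 hs1) (show S - s ≤ c ^ 2 by
        rw [hcdef, cs_sq hs2.le]; nlinarith) (sub_nonneg.2 hsS) (by positivity)).trans (le_of_eq ?_)
      rw [hN, ← hcdef, mul_assoc, ← pow_add]
      congr 2
      omega
    have a2 : s / c * ∫ t in s..S, fW m b t ≤ N := by
      rw [div_mul_eq_mul_div, div_le_iff₀ hcp, hN, ← pow_succ, Nat.sub_add_cancel (by omega)]
      exact s_mul_integral_fW_le hc hs0 hsS hS
    have a3 : 0 ≤ 2 * e * W0 m b s := by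
      have := fW_nonneg (t := s) (m := m) (by omega) hc.b_pos
      unfold W0
      positivity
    have a5 : 0 ≤ s / c * ∫ t in s..S, fW m b t :=
      mul_nonneg (div_nonneg hs0 hcp.le) (intervalIntegral.integral_nonneg hsS fun t _ =>
        fW_nonneg (by omega) hc.b_pos)
    have a6 := mul_le_mul (show 2 * (1 - e) ≤ 2 by linarith) a2 a5 (by norm_num)
    unfold null0s
    rw [← hcdef, ← he]
    linarith
  -- the terms proportional to `q - 1`
  have hδ : |z ^ m - 1| ≤ Q + 1 := abs_le.2 ⟨by linarith, by linarith⟩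
  have h6 : -(3 * (Q + 1) * N) ≤ hd m M1 M2 s * (z ^ m - 1) := by
    refine le_trans ?_ (neg_abs_le _)
    rw [neg_le_neg_iff, abs_mul]
    have : |hd m M1 M2 s| ≤ 3 * N := by
      rw [hd, abs_mul, abs_mul, ← he, abs_of_pos he0, ← hcdef, abs_of_nonneg (pow_nonneg hcp.le _),
        ← hpow]
      calc e * c ^ (m - 2) * |Gd m M1 M2 s| ≤ 1 * c ^ (m - 2) * (3 * c) := by
            gcongr; exact abs_Gd_le hc hM2 hs2.le
        _ = _ := by ring
    have := mul_le_mul this hδ (abs_nonneg _) (by positivity)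
    linarith
  have h7 : -(2 * C * (Q + 1) * N) ≤ kap m C s * sat' m (S - s) * (z ^ m - 1) := by
    refine le_trans ?_ (neg_abs_le _)
    rw [neg_le_neg_iff]
    refine (abs_kap_term_le (S := S) (by omega : 3 ≤ m) hC hs0 hs1 (z ^ m - 1)).trans ?_
    rw [← hcdef, ← hN, ← he]
    have hx : |S - s| / c ^ 2 ≤ 1 := by
      rw [div_le_one (by positivity), abs_of_nonneg (sub_nonneg.2 hsS), hcdef, cs_sq hs2.le]
      nlinarith
    have := mul_le_mul hx hδ (abs_nonneg _) zero_le_one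
    calc 2 * C * (e * N) * (|S - s| / c ^ 2 * |z ^ m - 1|) ≤ 2 * C * (1 * N) * (1 * (Q + 1)) := by
          gcongr
      _ = _ := by ring
  have hk' : 0 ≤ kap' m C s * sat m (S - s) := by
    refine mul_nonneg ?_ (div_nonneg (sq_nonneg _) (by positivity))
    unfold kap'
    rw [← hcdef]
    have : 0 < 1 - s ^ 2 := by linarith
    positivity
  have hz1 : 0 ≤ c ^ (m - 1) * z := by positivity
  rw [P, Q_eq_fieldDs hm4 hz, ← hcdef]
  rw [show c ^ 2 - (1 - s ^ 2) = 0 by rw [hcdef, cs_sq hs2.le, sub_self]]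
  simp only [mul_zero, zero_mul, add_zero]
  linarith

/-- The field part is bounded. -/
theorem fieldDs_ge (hm : 4 ≤ m) (hz : 0 < z) (hz2 : z ≤ 2) (hM1 : 0 ≤ M1) (hM1' : M1 ≤ 1)
    (hM2 : 0 ≤ M2) (hM2' : M2 ≤ 1) (hs : s ^ 2 ≤ 1) (hk0 : 0 ≤ k) (hk1 : k ≤ 1) (hS0 : 0 ≤ S)
    (hS1 : S ≤ 1) (hkS : 1 - k * S ≤ 3 * cs s ^ 2) (hk' : |k'| * (z ^ m)⁻¹ ≤ K) :
    -((60 + 30 * K) * cs s ^ (m - 1)) ≤ fieldDs m M1 M2 k k' s S z := by
  obtain ⟨i, rfl⟩ : ∃ i, m = i + 4 := ⟨m - 4, by omega⟩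
  obtain ⟨hc0, hc1⟩ := cs_mem hs
  set c := cs s with hc
  set g := c / z with hg
  have hg0 : 0 ≤ g := div_nonneg hc0 hz.le
  have hq := pow_pos hz (i + 4)
  set r := (z ^ (i + 4))⁻¹ with hr
  have hr0 : 0 ≤ r := inv_nonneg.2 hq.le
  have hK : 0 ≤ K := (mul_nonneg (abs_nonneg _) hr0).trans hk'
  have hqg : z ^ (i + 4) * g ^ (i + 4) = c ^ (i + 4) := by
    rw [← mul_pow, hg, mul_div_cancel₀ _ hz.ne']
  have hqg2 : z ^ (i + 4) * g ^ (i + 2) = c ^ (i + 2) * z ^ 2 := by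
    rw [pow_add z, hg, div_pow, pow_add z i 2]
    field_simp
  have hg4 : g ^ (i + 4) = r * c ^ (i + 4) := by
    rw [← hqg, hr, inv_mul_cancel_left₀ hq.ne']
  have hg2 : g ^ (i + 2) = r * (c ^ (i + 2) * z ^ 2) := by
    rw [← hqg2, hr, inv_mul_cancel_left₀ hq.ne']
  have hkS0 : 0 ≤ 1 - k * S := by nlinarith
  have hkS1 : k * S ≤ 1 := by nlinarith
  have hkS2 : 0 ≤ k * S := mul_nonneg hk0 hS0
  have hN : c ^ (i + 4) ≤ c ^ (i + 3) := pow_le_pow_of_le_one hc0 hc1 (by omega)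
  have hN2 : c ^ (i + 2) * z ^ 2 * (1 - k * S) ≤ 12 * c ^ (i + 3) := by
    calc c ^ (i + 2) * z ^ 2 * (1 - k * S) ≤ c ^ (i + 2) * 4 * (3 * c ^ 2) := by
          gcongr
          exact (pow_le_pow_left₀ hz.le hz2 2).trans_eq (by norm_num)
      _ = 12 * c ^ (i + 4) := by ring
      _ ≤ _ := by linarith
  have hN3 : 0 ≤ c ^ (i + 2) * z ^ 2 * (1 - k * S) := by positivity
  have hi : (1 : ℝ) ≤ (i : ℝ) + 2 := by
    have : (0 : ℝ) ≤ i := Nat.cast_nonneg i
    linarith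
  set a2 := ((i : ℝ) + 2)⁻¹ with ha2
  have ha21 : a2 ≤ 1 := inv_le_one_of_one_le₀ hi
  have ha20 : 0 ≤ a2 := inv_nonneg.2 (by linarith)
  set a4 := ((i : ℝ) + 4)⁻¹ with ha4
  have ha41 : a4 ≤ 1 := inv_le_one_of_one_le₀ (by linarith)
  have ha40 : 0 ≤ a4 := inv_nonneg.2 (by linarith)
  have hc4 : 0 ≤ c ^ (i + 4) := pow_nonneg hc0 _
  simp only [fieldDs, Ident.tangentT, Ident.potT, Ident.potK, ← hc, ← hg,
    show i + 4 - 1 = i + 3 from rfl, show i + 3 - 1 = i + 2 from rfl, show i + 3 + 1 = i + 4 from rfl]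
  push_cast
  rw [show (i : ℝ) + 3 + 1 = i + 4 by ring, show (i : ℝ) + 3 - 1 = i + 2 by ring]
  simp only [div_eq_mul_inv, ← ha2, ← ha4]
  -- the terms free of `k'`
  have t1 : M2 * k ^ 2 * (z ^ (i + 4) * g ^ (i + 4)) * (1 + a4) ≤ 2 * c ^ (i + 3) := by
    rw [hqg]
    calc M2 * k ^ 2 * c ^ (i + 4) * (1 + a4) ≤ 1 * 1 ^ 2 * c ^ (i + 3) * (1 + 1) := by gcongr
      _ = _ := by ring
  have t2 : M1 * (1 - k ^ 2 * S ^ 2) * (z ^ (i + 4) * g ^ (i + 2)) ≤ 24 * c ^ (i + 3) := by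
    rw [hqg2]
    have : M1 * (1 + k * S) ≤ 1 * 2 := mul_le_mul hM1' (by linarith) (by positivity) zero_le_one
    calc M1 * (1 - k ^ 2 * S ^ 2) * (c ^ (i + 2) * z ^ 2) =
          (M1 * (1 + k * S)) * (c ^ (i + 2) * z ^ 2 * (1 - k * S)) := by ring
      _ ≤ (1 * 2) * (12 * c ^ (i + 3)) := mul_le_mul this hN2 hN3 (by norm_num)
      _ = _ := by ring
  have t3 : -(24 * c ^ (i + 3)) ≤
      M1 * (1 - k * S) * (1 - 3 * k * S) * (z ^ (i + 4) * g ^ (i + 2)) * a2 := by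
    rw [hqg2]
    have hy : M1 * a2 * (3 * k * S - 1) ≤ 1 * 1 * 2 := by
      calc M1 * a2 * (3 * k * S - 1) ≤ M1 * a2 * 2 :=
            mul_le_mul_of_nonneg_left (by linarith) (by positivity)
        _ ≤ 1 * 1 * 2 := by gcongr
    calc M1 * (1 - k * S) * (1 - 3 * k * S) * (c ^ (i + 2) * z ^ 2) * a2
        = -(M1 * a2 * (3 * k * S - 1) * (c ^ (i + 2) * z ^ 2 * (1 - k * S))) := by ring
      _ ≥ -(1 * 1 * 2 * (12 * c ^ (i + 3))) :=
          neg_le_neg ((mul_le_mul_of_nonneg_right hy hN3).trans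
            (mul_le_mul_of_nonneg_left hN2 (by norm_num)))
      _ = _ := by ring
  -- the term with `k'`
  have t4 : -(30 * K * c ^ (i + 3)) ≤ (2 * M2 * (1 - k * S) * g ^ (i + 4) * a4 -
      2 * M1 * S ^ 2 * (1 - k * S) * g ^ (i + 2) * a2) * k' := by
    refine le_trans ?_ (neg_abs_le _)
    rw [neg_le_neg_iff, abs_mul, hg4, hg2]
    have u1 : |2 * M2 * (1 - k * S) * (r * c ^ (i + 4)) * a4 -
        2 * M1 * S ^ 2 * (1 - k * S) * (r * (c ^ (i + 2) * z ^ 2)) * a2| ≤ 30 * c ^ (i + 3) * r := by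
      have v1 : 2 * M2 * (1 - k * S) * (r * c ^ (i + 4)) * a4 ≤
          2 * 1 * 1 * (r * c ^ (i + 3)) * 1 := by
        gcongr
        linarith
      have v2 : 2 * M1 * S ^ 2 * (1 - k * S) * (r * (c ^ (i + 2) * z ^ 2)) * a2 ≤
          2 * 1 * 1 * (r * (12 * c ^ (i + 3))) * 1 := by
        calc 2 * M1 * S ^ 2 * (1 - k * S) * (r * (c ^ (i + 2) * z ^ 2)) * a2
            = 2 * M1 * S ^ 2 * (r * (c ^ (i + 2) * z ^ 2 * (1 - k * S))) * a2 := by ring
          _ ≤ _ := by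
              gcongr
              exact pow_le_one₀ hS0 hS1
      have w1 : 0 ≤ 2 * M2 * (1 - k * S) * (r * c ^ (i + 4)) * a4 := by positivity
      have w2 : 0 ≤ 2 * M1 * S ^ 2 * (1 - k * S) * (r * (c ^ (i + 2) * z ^ 2)) * a2 := by
        positivity
      have : 0 ≤ r * c ^ (i + 3) := by positivity
      rw [abs_le]
      constructor <;> linarith
    calc _ ≤ 30 * c ^ (i + 3) * r * |k'| := mul_le_mul_of_nonneg_right u1 (abs_nonneg _)
      _ = 30 * c ^ (i + 3) * (|k'| * r) := by ring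
      _ ≤ 30 * c ^ (i + 3) * K := mul_le_mul_of_nonneg_left hk' (by positivity)
      _ = _ := by ring
  have : 0 ≤ c ^ (i + 3) := pow_nonneg hc0 _
  linarith

/-- The null function of the displacement gains `m ξ²`. -/
theorem null2_ge (hm : 6 ≤ m) (ha : 0 ≤ a) (hA : 0 ≤ A) (hA' : 0 ≤ A') (hs : 2 * a ≤ s)
    (hs0 : 0 < s) (hs1 : s < 1) (hms : 24 ≤ (m : ℝ) * s ^ 2) :
    A * a ^ 3 * m / 2 * cs s ^ (m - 1) * (|S - s| / cs s ^ 2) ^ 2 -
        2 * (A + A') * cs s ^ (m - 1) * (|S - s| / cs s ^ 2 * |z ^ m - 1|) ≤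
      null2s m a A A' s S + z ^ m * null2S m a A A' s S := by
  have hs2 : s ^ 2 < 1 := by nlinarith
  have hcp := cs_pos hs2
  obtain ⟨-, hc1⟩ := cs_mem hs2.le
  set c := cs s with hc
  have hm6 : (6 : ℝ) ≤ m := by exact_mod_cast hm
  set u := S - s with hu
  have hp3 : c ^ (m - 3) = c ^ (m - 5) * c ^ 2 := by rw [← pow_add]; congr 1; omega
  have hp1 : c ^ (m - 1) = c ^ (m - 5) * c ^ 4 := by rw [← pow_add]; congr 1; omega
  set ζ := sqp (s - a) with hζ
  set W := sqp (u - 1 / 2) with hW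
  have hζ0 : 0 ≤ ζ := sqp_nonneg _
  have hW0 : 0 ≤ W := sqp_nonneg _
  have hζe : ζ = (s - a) ^ 2 := sqp_of_nonneg (by linarith)
  have hζ1 : ζ ≤ 1 := by rw [hζe]; nlinarith
  have hζa : a ^ 2 ≤ ζ := by rw [hζe]; exact pow_le_pow_left₀ ha (by linarith) 2
  have hc2 : c ^ 2 ≤ 1 := pow_le_one₀ hcp.le hc1
  have hN : 0 ≤ c ^ (m - 5) := pow_nonneg hcp.le _
  -- the derivative of the weights is absorbed
  have hw : A * sqp' (s - a) * c ^ 2 ≤ ((m : ℝ) - 3) * s / 2 * (A * ζ) := by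
    have h1 : sqp' (s - a) * s ≤ 4 * ζ := by
      rw [hζe, sqp', max_eq_left (by linarith)]; nlinarith
    have h2 : sqp' (s - a) * c ^ 2 * s ≤ ((m : ℝ) - 3) * s / 2 * ζ * s := by
      calc sqp' (s - a) * c ^ 2 * s = sqp' (s - a) * s * c ^ 2 := by ring
        _ ≤ 4 * ζ * 1 := mul_le_mul h1 hc2 (sq_nonneg c) (by positivity)
        _ ≤ _ := by
            have h8 : 8 ≤ ((m : ℝ) - 3) * s ^ 2 := by nlinarith
            have := mul_le_mul_of_nonneg_right h8 hζ0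
            linarith
    have h3 := mul_le_mul_of_nonneg_left (le_of_mul_le_mul_right h2 hs0) hA
    linarith
  have hw' : 3 * A' * s ^ 2 * W * c ^ 2 ≤ ((m : ℝ) - 3) * s * (A' * s ^ 3 * W) := by
    have : 3 * c ^ 2 ≤ ((m : ℝ) - 3) * s ^ 2 := by nlinarith
    have := mul_le_mul_of_nonneg_left this (show 0 ≤ A' * s ^ 2 * W by positivity)
    linarith
  -- the cross term
  have hcr : |2 * A * ζ * u + A' * s ^ 3 * sqp' (u - 1 / 2)| ≤ 2 * (A + A') * |u| := by
    have a1 : |2 * A * ζ * u| ≤ 2 * A * |u| := by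
      rw [abs_mul, abs_of_nonneg (by positivity : 0 ≤ 2 * A * ζ)]
      exact mul_le_mul_of_nonneg_right (by nlinarith) (abs_nonneg _)
    have a2 : |A' * s ^ 3 * sqp' (u - 1 / 2)| ≤ 2 * A' * |u| := by
      rw [abs_of_nonneg (mul_nonneg (by positivity) (sqp'_nonneg _))]
      calc A' * s ^ 3 * sqp' (u - 1 / 2) ≤ A' * 1 * (2 * |u|) := by
            gcongr
            · exact sqp'_nonneg _
            · exact pow_le_one₀ hs0.le hs1.le
            · unfold sqp'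
              gcongr
              exact max_le (le_trans (by linarith) (le_abs_self u)) (abs_nonneg u)
        _ = _ := by ring
    linarith [abs_add_le (2 * A * ζ * u) (A' * s ^ 3 * sqp' (u - 1 / 2))]
  have e : null2s m a A A' s S + z ^ m * null2S m a A A' s S =
      c ^ (m - 5) * ((((m : ℝ) - 3) * s * (A * ζ) - A * sqp' (s - a) * c ^ 2) * u ^ 2 +
        ((((m : ℝ) - 3) * s * (A' * s ^ 3 * W) - 3 * A' * s ^ 2 * W * c ^ 2)) -
        c ^ 2 * (z ^ m - 1) * (2 * A * ζ * u + A' * s ^ 3 * sqp' (u - 1 / 2))) := by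
    simp only [null2s, null2S, ← hc, ← hu, ← hζ, ← hW, hp3]
    ring
  have key : A * a ^ 3 * m / 2 * u ^ 2 - 2 * (A + A') * c ^ 2 * (|u| * |z ^ m - 1|) ≤
      (((m : ℝ) - 3) * s * (A * ζ) - A * sqp' (s - a) * c ^ 2) * u ^ 2 +
        ((((m : ℝ) - 3) * s * (A' * s ^ 3 * W) - 3 * A' * s ^ 2 * W * c ^ 2)) -
        c ^ 2 * (z ^ m - 1) * (2 * A * ζ * u + A' * s ^ 3 * sqp' (u - 1 / 2)) := by
    have b1 : A * a ^ 3 * m / 2 ≤ ((m : ℝ) - 3) * s / 2 * (A * ζ) := by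
      calc A * a ^ 3 * m / 2 = (m : ℝ) / 2 * a * (A * a ^ 2) := by ring
        _ ≤ (((m : ℝ) - 3) * s / 2) * (A * ζ) := by
            refine mul_le_mul ?_ (mul_le_mul_of_nonneg_left hζa hA) (by positivity)
              (by nlinarith)
            calc (m : ℝ) / 2 * a ≤ ((m : ℝ) - 3) * a := by
                  exact mul_le_mul_of_nonneg_right (by linarith) ha
              _ = ((m : ℝ) - 3) * (2 * a) / 2 := by ring
              _ ≤ _ := by gcongr; linarith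
    have b2 := mul_le_mul_of_nonneg_right (show A * a ^ 3 * m / 2 ≤
      ((m : ℝ) - 3) * s * (A * ζ) - A * sqp' (s - a) * c ^ 2 by linarith) (sq_nonneg u)
    have b3 : c ^ 2 * (z ^ m - 1) * (2 * A * ζ * u + A' * s ^ 3 * sqp' (u - 1 / 2)) ≤
        2 * (A + A') * c ^ 2 * (|u| * |z ^ m - 1|) := by
      refine (le_abs_self _).trans ?_
      rw [abs_mul, abs_mul, abs_of_nonneg (sq_nonneg c)]
      refine (mul_le_mul_of_nonneg_left hcr (by positivity)).trans (le_of_eq (by ring))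
    linarith
  rw [e, hp1]
  refine le_trans (le_of_eq ?_) (mul_le_mul_of_nonneg_left key hN)
  rw [div_pow, sq_abs]
  field_simp

end Vale.Agent.P237.Petty.Tail
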