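import Vale.Agent.P237.Petty.Tail.Assembly
import Vale.Agent.P237.Petty.Tail.Away
import Vale.Agent.P237.Petty.Tail.Cliff
import Vale.Agent.P237.Petty.Tail.Band
import Vale.Agent.P237.Petty.Tail.Facts

/-!
# P237: the steps in all large dimensions

The states outside the centre split into the band, the cliff and the states away from the centre.
-/

namespace Vale.Agent.P237.Petty.Tail

open Centre Set

/-- The integrand along a profile on the band. -/
theorem total_band_profile {C : ℝ} (hC : 0 ≤ C) (κ : ℝ) : ∃ N : ℕ,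
    ∀ (p : ℕ) (g σ : ℝ → ℝ) (lam : ℝ), N ≤ p → Regular g → Transport p g σ → 0 < lam → lam ≤ 1 →
      lowPick p ≤ lam → (∀ u ∈ Icc (-1 : ℝ) 1, lam * √(1 - u ^ 2) ≤ g u) →
      ∀ t ∈ Ioo (0 : ℝ) 1, t ≤ 9 / 20 → 1 / 5000 < σ t → σ t ≤ 1 / 2000 →
        0 ≤ total (p + 1) (Ident.b0 p) (Ident.coefPi p (muPick p)) (Ident.coefJ p (nuPick p))
          C (1 / 4000) (1 / 10 ^ 17) 0 κ (1 / 2) (σ t) t (cs (σ t) / g t) (-slopeR g t) := by
  obtain ⟨N₁, h₁⟩ := total_band hC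
  obtain ⟨N₂, hN₂, hf⟩ := tail_facts
  refine ⟨N₁ + N₂, fun p g σ lam hp hg hσ hl hl1 hlow hge t ht ht9 hs hs2 => ?_⟩
  obtain ⟨hlam, -, -, -, hbig, hsq⟩ := hf (by omega) hg hσ hl hlow hl1 hge ht
  obtain ⟨hq, hts⟩ := hbig hs.le
  have hsI := hσ.mem_Ioo t ht
  have hc := cnst_pick (show 2000 ≤ p by omega)
  have hM2 : 12 / 100 ≤ Ident.coefJ p (nuPick p) := by
    have := (nuPick_bounds (show 2000 ≤ p by omega)).1
    exact le_trans (by linarith) (le_div_self (by linarith) (Ident.b0_pos p) hc.b_le_one)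
  have hgt : 0 < g t := hg.pos_of_lt ⟨ht.1.le, ht.2⟩
  have hcs : 0 < cs (σ t) := cs_pos (by nlinarith [hsI.1, hsI.2])
  have e : cs (σ t) / (cs (σ t) / g t) = g t := by field_simp
  obtain ⟨-, -, hD, -, habove⟩ := slope_facts hg hl hge ht
  exact h₁ (by omega) hc hM2 (by norm_num) (by norm_num) le_rfl (by norm_num) (by norm_num) hs.le
    hs2 hts ht9 (div_pos hcs hgt) hq (hsq hs2 ht9) (by nlinarith) hl.le (by rw [e]; exact habove)
    (by rw [e]; exact hD)

/-- The steps hold in all large dimensions. -/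
theorem stepHolds_eventually :
    ∃ N : ℕ, 2 ≤ N ∧ ∀ p, N ≤ p + 1 → StepHolds.{0} p := by
  refine stepHolds_of_tail fun C hC => ?_
  obtain ⟨κ₀, hκ₀, haw⟩ := total_away hC (show (0 : ℝ) < 1 / 10 ^ 17 by norm_num) (le_refl (0 : ℝ))
  set κ := min κ₀ (1 / 8) with hκdef
  have hκ : 0 < κ := lt_min hκ₀ (by norm_num)
  obtain ⟨N₁, h₁⟩ := haw κ hκ (min_le_left _ _)
  obtain ⟨N₂, h₂⟩ := total_cliff hC (show (0 : ℝ) ≤ 1 / 10 ^ 17 by norm_num)
  obtain ⟨N₃, h₃⟩ := total_band_profile hC κ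
  refine ⟨1 / 4000, 1 / 10 ^ 17, 0, κ, 1 / 2, by norm_num, by norm_num, by norm_num, hκ.le,
    min_le_right _ _, N₁ + N₂ + N₃, fun p g σ lam hp hg hσ hl hl1 hlow hge t ht hr => ?_⟩
  rcases le_total (1 / 2000) (σ t) with h | h
  · exact h₁ p g σ lam (by omega) hg hσ hl hl1 hlow hge t ht h
  rcases le_or_gt t (9 / 20) with h9 | h9
  · rcases hr with hr | hr
    · linarith
    · exact h₃ p g σ lam (by omega) hg hσ hl hl1 hlow hge t ht h9 hr h
  · exact h₂ (by omega) hg hσ hl hl1 hlow hge ht h9.le h (by norm_num) hκ.le (min_le_right _ _)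

end Vale.Agent.P237.Petty.Tail
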