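import Vale.Agent.P237.Petty.Tail.Far
import Vale.Agent.P237.Petty.Tail.Field
import Mathlib.Analysis.SpecialFunctions.Log.Basic

/-!
# P237: the sign of the integrand away from the centre

Past the switch the null function of the displacement beats every bounded loss. Before it, the
obstacle pays where the weight is still large against `1/m`, and the null function pays elsewhere.
-/

namespace Vale.Agent.P237.Petty.Tail

open Centre Real Filter

variable {m : ℕ} {a η Q R C A A' b M1 M2 lam s S z σ κ Λ K : ℝ}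

/-- The conditions on a state of the transport away from the centre. -/
structure TailState (m : ℕ) (a η Q R b M1 M2 lam s S z σ : ℝ) : Prop where
  cnst : Cnst m b M1 M2
  M2_lo : 12 / 100 ≤ M2
  z_pos : 0 < z
  s_ge : 2 * a ≤ s
  s_lt : s < 1
  S_ge : a ≤ S
  S_lt : S < 1
  edge : 1 - S ≤ 2 * (1 - s)
  lam_lo : 99 / 100 ≤ lam
  lam_le : lam ≤ 1
  lam_log : 1 - lam ≤ log m / m
  jac_le : z ^ m ≤ Q
  jac_ge : η / 2 * (1 - s) ≤ 1 - S → (z ^ m)⁻¹ ≤ R
  slope : SlopeOK lam S (cs s / z) σ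
  above : lam * cs S ≤ cs s / z
  g_le : cs s / z ≤ 11 / 10

theorem z_le_two (hm : 1 ≤ m) (hz : 0 < z) (hQ : z ^ m ≤ Q) (hQm : Q ≤ m) : z ≤ 2 := by
  by_contra hc
  rw [not_le] at hc
  have := one_add_mul_le_pow (a := z - 1) (by linarith) m
  rw [add_sub_cancel] at this
  have : (1 : ℝ) ≤ m := by exact_mod_cast hm
  nlinarith

/-- The lower bound for the weight of the obstacle. -/
theorem fW_ge (hc : Cnst m b M1 M2) (ha : 0 < a) (haS : a ≤ S) (hS : S < 1)
    (hma : 2 ≤ (m : ℝ) * a ^ 2) : (m : ℝ) * a ^ 4 / 64 * cs S ^ (m - 2) ≤ fW m b S := by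
  have hm := hc.m_ge
  have hS2 : S ^ 2 < 1 := by nlinarith
  obtain ⟨hcS0, hcS1⟩ := cs_mem hS2.le
  have hb := hc.b_ge
  have hb1 := hc.b_le_one
  have he : (m : ℝ)⁻¹ ≤ a ^ 2 / 2 := by
    rw [inv_le_iff_one_le_mul₀ (by linarith)]
    linarith
  have h1 : a ^ 2 / 4 ≤ b - cs S := by
    have h2 := cs_sq hS2.le
    have h3 := hc.one_sub_b_sq
    have h4 : a ^ 2 ≤ S ^ 2 := pow_le_pow_left₀ ha.le haS 2
    have h5 : a ^ 2 / 2 ≤ (b - cs S) * (b + cs S) := by linarith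
    by_contra hno
    rw [not_le] at hno
    rcases le_total (b - cs S) 0 with h | h
    · have := mul_nonpos_of_nonpos_of_nonneg h (show 0 ≤ b + cs S by linarith)
      have : 0 < a ^ 2 := by positivity
      linarith
    · have := mul_le_mul_of_nonneg_left (show b + cs S ≤ 2 by linarith) h
      linarith
  have h6 : (a ^ 2 / 4) ^ 2 * (19 / 10) ≤ (cs S - b) ^ 2 * (cs S + 2 * b) := by
    rw [show (cs S - b) ^ 2 = (b - cs S) ^ 2 by ring]
    exact mul_le_mul (pow_le_pow_left₀ (by positivity) h1 2) (by linarith) (by norm_num)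
      (sq_nonneg _)
  have h7 : ((m : ℝ) - 1) / 4 ≤ ((m : ℝ) - 1) / (4 * b ^ 3) := by
    refine div_le_div_of_nonneg_left (by linarith) (by positivity) ?_
    linarith [pow_le_one₀ (n := 3) hc.b_pos.le hb1]
  unfold fW wPoly
  refine le_trans ?_ (mul_le_mul h7 (mul_le_mul_of_nonneg_left h6 (pow_nonneg hcS0 (m - 2)))
    (by positivity) (div_nonneg (by linarith) (by have := hc.b_pos; positivity)) |>.trans
    (le_of_eq (by ring)))
  have : 0 ≤ a ^ 4 * cs S ^ (m - 2) := by positivity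
  have h8 : (m : ℝ) / 64 ≤ ((m : ℝ) - 1) / 4 * (19 / 160) := by linarith
  have := mul_le_mul_of_nonneg_right h8 this
  linarith

/-- Away from the diagonal every field between `s` and `1` gives a nonnegative integrand, as
far as its derivative is bounded below against the coefficient of the potential. -/
theorem far_nonneg {k k' k'' : ℝ} (h : TailState m a η Q R b M1 M2 lam s S z σ) (ha : 0 < a)
    (hη : 0 < η) (hη' : η ≤ 1 / 2) (hC : 0 ≤ C) (hA : 0 ≤ A) (hA' : 0 ≤ A') (hκ : 0 ≤ κ)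
    (hsS : s ≤ S) (hfar : 1 / 4 * cs s ^ 2 ≤ S - s) (hk1 : k ≤ 1) (hks : s ≤ k)
    (hkS : η * (1 - k) ≤ 2 * (1 - S)) (hk'' : |k''| * (z ^ m)⁻¹ ≤ K)
    (hpot : Ident.potK (m - 1) M1 M2 k S (cs s / z) * k'' ≤
      Ident.potK (m - 1) M1 M2 k S (cs s / z) * k')
    (hκA : κ ≤ A * a ^ 3 / 128) (hQm : Q ≤ m) (hma : 24 ≤ (m : ℝ) * a ^ 2)
    (hm : 16 + (3 + 2 * C) * (Q + 1) + 60 + 30 * K + 16 / η ^ 2 + 2 * (A + A') * (Q + 1) ≤
      A * a ^ 3 * m / 64) :
    0 ≤ P m b M1 M2 C s S z + (fieldDs m M1 M2 k k' s S z - fieldDs m M1 M2 s 1 s S z) +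
      slopePart m κ M1 M2 k s S z σ + (null2s m a A A' s S + z ^ m * null2S m a A A' s S) := by
  obtain ⟨hc, hM2, hz, hsa, hs1, hSa, hS1, hρ, hlam, -, -, hQ, -, hsl, -, -⟩ := h
  have hm4 : 4 ≤ m := by have := hc.large; omega
  have hs0 : 0 < s := by linarith
  have hk0 : 0 ≤ k := hs0.le.trans hks
  have hM10 : 0 ≤ M1 := by linarith [hc.M1_lo]
  have hs2 : s ^ 2 < 1 := by nlinarith
  have hz2 := z_le_two (by omega) hz hQ hQm
  have hcp := cs_pos hs2
  have hQ0 : 0 ≤ Q := (pow_pos hz m).le.trans hQ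
  set q := z ^ m with hqdef
  have hq : 0 < q := pow_pos hz m
  have hkS' : 1 - k * S ≤ 3 * cs s ^ 2 := by
    rw [cs_sq hs2.le]
    have : s * s ≤ k * S := mul_le_mul hks hsS hs0.le hk0
    nlinarith
  have b1 := rest_ge (Q := Q) hc (by linarith) hC hz hs0.le hsS hS1 hQ
  have b2 := fieldDs_ge (M1 := M1) (M2 := M2) (k := k) (k' := k'') (S := S) hm4 hz hz2 hM10 (by linarith [hc.M1_hi]) (by linarith)
    (by linarith [hc.sum_le, hc.M1_lo]) hs2.le hk0 hk1 (by linarith) hS1.le hkS' hk''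
  have b2' : fieldDs m M1 M2 k k'' s S z ≤ fieldDs m M1 M2 k k' s S z := by
    unfold fieldDs
    linarith
  have b3 := gain_far (M1 := M1) (M2 := M2) (lam := lam) (σ := σ) (k := k) (S := S) (by omega : 3 ≤ m) hz hz2 hM10 hc.M1_hi (by linarith) hs2.le
    (by linarith) hS1.le (by linarith) hk0 hk1 hη (by linarith) hkS hsl
  have b4 := vObs_loss_far (S := S) (by omega : 3 ≤ m) hz hz2 hκ hs2.le
  have b5 : 0 ≤ q * (vObs m κ S * ((1 - S ^ 2) * σ - S * (cs s / z)) ^ 2) :=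
    mul_nonneg hq.le (mul_nonneg (vObs_nonneg (by omega) hκ S) (sq_nonneg _))
  have b6 := null2_ge (z := z) (S := S) (le_trans (by norm_num) hc.large : 6 ≤ m) ha.le hA hA' hsa hs0 hs1 (by
    have := mul_le_mul_of_nonneg_left (pow_le_pow_left₀ ha.le (show a ≤ s by linarith) 2)
      (Nat.cast_nonneg (α := ℝ) m)
    linarith)
  set N := cs s ^ (m - 1) with hN
  set X := |S - s| / cs s ^ 2 with hX
  have hX0 : 1 / 4 ≤ X := by
    rw [hX, le_div_iff₀ (by positivity), abs_of_nonneg (sub_nonneg.2 hsS)]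
    exact hfar
  have hX1 : X ≤ 1 := by
    rw [hX, cs_sq hs2.le, div_le_one (sub_pos.2 hs2), abs_of_nonneg (sub_nonneg.2 hsS)]
    nlinarith only [hS1, hs0, hs1]
  have hN0 : 0 ≤ N := pow_nonneg hcp.le _
  have hA3 : 0 ≤ A * a ^ 3 * m := by positivity
  have c1 : A * a ^ 3 * m / 32 * N ≤ A * a ^ 3 * m / 2 * N * X ^ 2 := by
    have := mul_le_mul_of_nonneg_left (pow_le_pow_left₀ (by norm_num) hX0 2)
      (show 0 ≤ A * a ^ 3 * m / 2 * N by positivity)
    linarith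
  have c2 : 2 * (A + A') * N * (X * |q - 1|) ≤ 2 * (A + A') * (Q + 1) * N := by
    have : X * |q - 1| ≤ 1 * (Q + 1) := mul_le_mul hX1
      (abs_le.2 ⟨by linarith, by linarith⟩) (abs_nonneg _) zero_le_one
    have := mul_le_mul_of_nonneg_left this (show 0 ≤ 2 * (A + A') * N by positivity)
    linarith
  have c3 : 2 * κ * m * N ≤ A * a ^ 3 * m / 64 * N := by
    have := mul_le_mul_of_nonneg_left hκA (show 0 ≤ 2 * (m : ℝ) * N by positivity)
    linarith
  have c4 := mul_le_mul_of_nonneg_right hm hN0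
  rw [slopePart, ← hqdef]
  linarith only [b1, b2, b2', b3, b4, b5, b6, c1, c2, c3, c4]

/-- Away from the diagonal the field is `1` with vanishing derivative, or the two abscissae keep
a distance from the edge and the bounded part of the derivative is controlled. -/
theorem field_far (h : TailState m a η Q R b M1 M2 lam s S z σ) (ha : 0 < a) (hη : 0 < η)
    (hη' : η ≤ 1 / 2) (hR : 0 ≤ R) (hsS : s ≤ S) :
    η * (1 - slopeField m M1 M2 η s S (cs s / z)) ≤ 2 * (1 - S) ∧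
      |slopeFieldB' m M1 M2 η s S (cs s / z) (z ^ m)| * (z ^ m)⁻¹ ≤
        2 * R + (32 / η + 80) * (1 + R) := by
  obtain ⟨hc, hM2, hz, hsa, hs1, -, hS1, -, -, -, -, -, hRr, -, -, hg⟩ := h
  have hm := hc.m_ge
  have hs0 : 0 < s := by linarith
  set g := cs s / z with hgdef
  set q := z ^ m with hqdef
  have hq : 0 < q := pow_pos hz m
  set x := (1 - S) / ((1 - s) * η) with hxdef
  set ρ := (1 - S) / (1 - s) with hρdef
  set y := cliffArg m M1 M2 S g with hy
  have hρ0 : 0 ≤ ρ := div_nonneg (by linarith) (by linarith)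
  have hρ1 : ρ ≤ 1 := by rw [hρdef, div_le_one (by linarith)]; linarith
  obtain ⟨f0, f1⟩ := step_mem (5 / 2 * (S - s))
  obtain ⟨e0, e1⟩ := step_mem x
  obtain ⟨d0, d1⟩ := step_mem y
  obtain ⟨f0', f1'⟩ := step'_bounds (5 / 2 * (S - s))
  obtain ⟨e0', e1'⟩ := step'_bounds x
  have hk : slopeField m M1 M2 η s S g = step (5 / 2 * (S - s)) * (s + (1 - s) * step y) +
      (1 - step (5 / 2 * (S - s))) * (step x * s + (1 - step x)) := rfl
  have hB : slopeFieldB' m M1 M2 η s S g q = step (5 / 2 * (S - s)) * (1 - step y) +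
      (1 - step (5 / 2 * (S - s))) * (step x + step' x / η * (q - ρ)) +
      step' (5 / 2 * (S - s)) * (5 / 2) * (q - 1) *
        (s + (1 - s) * step y - (step x * s + (1 - step x))) := rfl
  have hks : s ≤ slopeField m M1 M2 η s S g := (slopeField_mem hs1.le).1
  by_cases h0 : step y = 1 ∧ step x = 0 ∧ step' x = 0
  · obtain ⟨a1, a2, a3⟩ := h0
    rw [hk, hB, a1, a2, a3]
    constructor
    · linarith
    · simp only [zero_mul, mul_zero, sub_self, add_zero, zero_div, zero_add, sub_zero, mul_one,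
        add_sub_cancel, abs_zero]
      positivity
  have hcases : η / 2 * (1 - s) ≤ 1 - S ∧ η * (1 - slopeField m M1 M2 η s S g) ≤ 2 * (1 - S) := by
    have hk1 : η * (1 - slopeField m M1 M2 η s S g) ≤ η * (1 - s) :=
      mul_le_mul_of_nonneg_left (by linarith) hη.le
    have hle : η * (1 - s) ≤ 1 / 2 * 1 := mul_le_mul hη' (by linarith) (by linarith) (by norm_num)
    rcases le_total x (7 / 8) with hx | hx
    · obtain ⟨a2, a3⟩ := step_of_le hx
      have hy1 : y < 1 := by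
        by_contra hn
        exact h0 ⟨(step_of_one_le (not_lt.1 hn)).1, a2, a3⟩
      have hv : 3 / 2 ≤ vSurf m M1 M2 := by
        have hM2' : M2 ≤ 16 / 100 := by linarith [hc.sum_le, hc.M1_lo]
        refine (Real.le_sqrt' (by norm_num)).2 ?_
        rw [le_div_iff₀ (by linarith)]
        have h1 : (1 : ℝ) * M1 ≤ (m : ℝ) / ((m : ℝ) - 2) * M1 := by
          refine mul_le_mul_of_nonneg_right ?_ (by linarith [hc.M1_lo])
          rw [le_div_iff₀ (by linarith)]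
          linarith
        linarith [hc.M1_lo]
      have hvS : vSurf m M1 M2 * S < g := by
        by_contra hn
        have : 0 ≤ (m : ℝ) * (vSurf m M1 M2 * S - g) :=
          mul_nonneg (by linarith) (sub_nonneg.2 (not_lt.1 hn))
        rw [hy, cliffArg] at hy1
        linarith
      have hS34 : 4 / 15 ≤ 1 - S := by
        have := mul_le_mul_of_nonneg_right hv (show 0 ≤ S by linarith)
        linarith
      constructor <;> linarith
    · rw [hxdef, le_div_iff₀ (mul_pos (by linarith) hη)] at hx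
      constructor <;> linarith
  refine ⟨hcases.2, ?_⟩
  have hr : q⁻¹ ≤ R := hRr hcases.1
  have hqρ : |q - ρ| ≤ q + 1 := abs_le.2 ⟨by linarith, by linarith⟩
  have hq1 : |q - 1| ≤ q + 1 := abs_le.2 ⟨by linarith, by linarith⟩
  have hdiff : |s + (1 - s) * step y - (step x * s + (1 - step x))| ≤ 1 := by
    have := mul_le_mul_of_nonneg_left d1 (sub_nonneg.2 hs1.le)
    have := mul_nonneg (sub_nonneg.2 hs1.le) d0
    have := mul_le_mul_of_nonneg_right e1 (sub_nonneg.2 hs1.le)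
    have := mul_nonneg e0 (sub_nonneg.2 hs1.le)
    rw [abs_le]
    constructor <;> linarith
  have key : |slopeFieldB' m M1 M2 η s S g q| ≤ 2 + (32 / η + 80) * (q + 1) := by
    rw [hB]
    refine (abs_add_three _ _ _).trans ?_
    have t1 : |step (5 / 2 * (S - s)) * (1 - step y)| ≤ 1 := by
      rw [abs_of_nonneg (mul_nonneg f0 (by linarith))]
      exact mul_le_one₀ f1 (by linarith) (by linarith)
    have t2 : |(1 - step (5 / 2 * (S - s))) * (step x + step' x / η * (q - ρ))| ≤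
        1 + 32 / η * (q + 1) := by
      rw [abs_mul, abs_of_nonneg (sub_nonneg.2 f1)]
      refine (mul_le_of_le_one_left (abs_nonneg _) (by linarith)).trans ?_
      refine (abs_add_le _ _).trans (add_le_add ?_ ?_)
      · rwa [abs_of_nonneg e0]
      · rw [abs_mul, abs_of_nonneg (div_nonneg e0' hη.le)]
        gcongr
    have t3 : |step' (5 / 2 * (S - s)) * (5 / 2) * (q - 1) *
        (s + (1 - s) * step y - (step x * s + (1 - step x)))| ≤ 32 * (5 / 2) * (q + 1) * 1 := by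
      rw [abs_mul, abs_mul, abs_of_nonneg (mul_nonneg f0' (by norm_num : (0 : ℝ) ≤ 5 / 2))]
      gcongr
    linarith
  refine (mul_le_mul_of_nonneg_right key (inv_nonneg.2 hq.le)).trans ?_
  have hqq : (q + 1) * q⁻¹ ≤ 1 + R := by
    rw [add_mul, mul_inv_cancel₀ hq.ne', one_mul]; linarith
  have := mul_le_mul_of_nonneg_left hqq (show 0 ≤ 32 / η + 80 by positivity)
  linarith

/-- Where the weight is small the displacement is large. -/
theorem log_le_displ (h : TailState m a η Q R b M1 M2 lam s S z σ) (hη : 0 < η) (ha : 0 < a)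
    (hnear : η * (1 - s) ≤ 1 - S) (hamp : (cs S / cs s) ^ (m - 2) < Λ / m)
    (hL : 2 * log Λ ≤ log m) : η * log m ≤ 4 * m * (|S - s| / cs s ^ 2) := by
  obtain ⟨hc, -, -, hsa, hs1, hSa, hS1, -⟩ := h
  have hm := hc.m_ge
  have hs0 : 0 < s := by linarith
  have hs2 : s ^ 2 < 1 := by nlinarith
  have hS2 : S ^ 2 < 1 := by nlinarith
  have hcp := cs_pos hs2
  have hcS := cs_pos hS2
  have e1 := cs_sq hs2.le
  have e2 := cs_sq hS2.le
  set c := cs s with hcdef
  set X := |S - s| / c ^ 2 with hX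
  have hA0 : 0 < (cs S / c) ^ (m - 2) := by positivity
  have hΛ : 0 < Λ := by
    have := hA0.trans hamp
    rwa [lt_div_iff₀ (by linarith), zero_mul] at this
  have h1 := log_lt_log hA0 hamp
  rw [log_pow, log_div hΛ.ne' (by linarith)] at h1
  have hlc : -log (cs S / c) ≤ 2 * X / η := by
    have e : -log (cs S / c) = log (c ^ 2 / cs S ^ 2) / 2 := by
      rw [← log_inv, inv_div, ← div_pow, log_pow]
      push_cast
      ring
    have h2 := log_le_sub_one_of_pos (show 0 < c ^ 2 / cs S ^ 2 by positivity)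
    have h3 : c ^ 2 / cs S ^ 2 - 1 ≤ 4 * X / η := by
      have hden : η * c ^ 2 ≤ 2 * cs S ^ 2 := by
        rw [e1, e2]
        nlinarith [mul_nonneg (show 0 ≤ 1 - S by linarith) (show 0 ≤ S by linarith)]
      rw [div_sub_one (by positivity), div_le_div_iff₀ (by positivity) hη]
      have h4 : c ^ 2 - cs S ^ 2 ≤ 2 * |S - s| := by
        rw [e1, e2]
        have h5 : (S - s) * (S + s) ≤ |S - s| * (S + s) :=
          mul_le_mul_of_nonneg_right (le_abs_self _) (by linarith)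
        have h6 : |S - s| * (S + s) ≤ |S - s| * 2 :=
          mul_le_mul_of_nonneg_left (by linarith) (abs_nonneg _)
        linarith
      have hu : |S - s| = c ^ 2 * X := by rw [hX]; field_simp
      have h7 := mul_le_mul_of_nonneg_left h4 hη.le
      have h8 := mul_le_mul_of_nonneg_left hden (show 0 ≤ 2 * X from
        mul_nonneg (by norm_num) (div_nonneg (abs_nonneg _) (sq_nonneg _)))
      rw [hu] at h7
      linarith
    rw [e]
    linarith [show 4 * X / η / 2 = 2 * X / η by ring]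
  have hX0 : 0 ≤ X := div_nonneg (abs_nonneg _) (sq_nonneg _)
  have h9 : ((m - 2 : ℕ) : ℝ) * -log (cs S / c) ≤ (m : ℝ) * (2 * X / η) := by
    refine (mul_le_mul_of_nonneg_left hlc (Nat.cast_nonneg _)).trans ?_
    exact mul_le_mul_of_nonneg_right (by exact_mod_cast Nat.sub_le m 2) (by positivity)
  have h10 : log m / 2 ≤ (m : ℝ) * (2 * X / η) := by linarith
  rw [← mul_div_assoc, le_div_iff₀ hη] at h10
  linarith

/-- The square of the obstacle is small where the displacement is large. -/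
theorem obs_sq_le_displ (h : TailState m a η Q R b M1 M2 lam s S z σ) (ha : 0 < a) (hη : 0 < η)
    (hR : (z ^ m)⁻¹ ≤ R) (hQm : Q ≤ m) (hRm : R ≤ m) (hlog : 1 ≤ log m)
    (hdis : η * log m ≤ 4 * m * (|S - s| / cs s ^ 2)) :
    ((1 - S ^ 2) * σ - S * (cs s / z)) ^ 2 / cs s ^ 2 ≤
      ((12 * (1 + R) * (Q + 1) + 8) / η + 2) * (|S - s| / cs s ^ 2) := by
  obtain ⟨hc, -, hz, hsa, hs1, hSa, hS1, -, hlam, hlam1, hll, hQ, -, hsl, -⟩ := h
  have hm := hc.m_ge
  have hs0 : 0 < s := by linarith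
  have hs2 : s ^ 2 < 1 := by nlinarith
  have hS2 : S ^ 2 < 1 := by nlinarith
  have hcp := cs_pos hs2
  have hq := pow_pos hz m
  have hR0 : 0 ≤ R := (inv_nonneg.2 hq.le).trans hR
  have hQ0 : 0 ≤ Q := hq.le.trans hQ
  have hm1 : 1 ≤ m := le_trans (by norm_num) hc.large
  obtain ⟨-, hzi, hzd⟩ := z_bounds hm1 hz hQ hR hQm hRm
  have hu := hsl.obs_sq_le hS2.le
  have e1 := cs_sq hs2.le
  have e2 := cs_sq hS2.le
  set c := cs s with hcdef
  set X := |S - s| / c ^ 2 with hX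
  have hu' : |S - s| = c ^ 2 * X := by rw [hX]; field_simp
  have hX0 : 0 ≤ X := div_nonneg (abs_nonneg _) (sq_nonneg _)
  set e := (m : ℝ)⁻¹ with he
  have he0 : 0 < e := inv_pos.2 (by linarith)
  have hl : η * log m * e ≤ 4 * X := by
    have := mul_le_mul_of_nonneg_right hdis he0.le
    rwa [show 4 * (m : ℝ) * X * e = 4 * X * ((m : ℝ) * e) by ring,
      mul_inv_cancel₀ (by linarith), mul_one] at this
  have he' : η * e ≤ 4 * X := by
    refine le_trans ?_ hl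
    exact mul_le_mul_of_nonneg_right (le_mul_of_one_le_right hη.le hlog) he0.le
  have p1 : z⁻¹ ^ 2 - 1 ≤ 3 * (e * (1 + R) * (Q + 1)) := by
    have hd : |z ^ m - 1| ≤ Q + 1 := abs_le.2 ⟨by linarith, by linarith⟩
    have h1 : |z⁻¹ - 1| ≤ e * (1 + R) * (Q + 1) :=
      hzd.trans (mul_le_mul_of_nonneg_left hd (by positivity))
    have h2 : (z⁻¹ - 1) * (z⁻¹ + 1) ≤ |z⁻¹ - 1| * 3 := by
      refine (mul_le_mul_of_nonneg_right (le_abs_self _) (by positivity)).trans ?_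
      exact mul_le_mul_of_nonneg_left (by linarith) (abs_nonneg _)
    linarith
  have p2 : 1 - lam ^ 2 ≤ 2 * (log m * e) := by
    rw [div_eq_mul_inv] at hll
    have h1 := mul_le_mul_of_nonneg_left hll zero_le_two
    nlinarith [sq_nonneg (1 - lam)]
  have p3 : lam ^ 2 * (c ^ 2 - cs S ^ 2) ≤ 2 * (c ^ 2 * X) := by
    have h4 : c ^ 2 - cs S ^ 2 ≤ 2 * |S - s| := by
      rw [e1, e2]
      have h5 : (S - s) * (S + s) ≤ |S - s| * (S + s) :=
        mul_le_mul_of_nonneg_right (le_abs_self _) (by linarith)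
      have h6 : |S - s| * (S + s) ≤ |S - s| * 2 :=
        mul_le_mul_of_nonneg_left (by linarith) (abs_nonneg _)
      linarith
    rcases le_total (c ^ 2 - cs S ^ 2) 0 with h0 | h0
    · have := mul_nonpos_of_nonneg_of_nonpos (sq_nonneg lam) h0
      have : 0 ≤ c ^ 2 * X := by positivity
      linarith
    · rw [← hu']
      exact (mul_le_of_le_one_left h0 (pow_le_one₀ (by linarith) hlam1)).trans h4
  have key : ((1 - S ^ 2) * σ - S * (c / z)) ^ 2 ≤
      c ^ 2 * (3 * (e * (1 + R) * (Q + 1)) + 2 * (log m * e) + 2 * X) := by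
    refine hu.trans ?_
    have h1 := mul_le_mul_of_nonneg_left (add_le_add p1 p2) (sq_nonneg c)
    rw [div_eq_mul_inv, mul_pow]
    linarith
  rw [div_le_iff₀ (by positivity)]
  refine key.trans ?_
  rw [mul_comm (c ^ 2) _]
  refine mul_le_mul_of_nonneg_right ?_ (sq_nonneg c)
  have h3 := mul_le_mul_of_nonneg_left he' (show 0 ≤ 3 * (1 + R) * (Q + 1) by positivity)
  have h4 : η * (3 * (e * (1 + R) * (Q + 1)) + 2 * (log m * e) + 2 * X) ≤
      (12 * (1 + R) * (Q + 1) + 8) * X + 2 * η * X := by linarith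
  rw [add_mul, div_mul_eq_mul_div, ← sub_le_iff_le_add, le_div_iff₀ hη]
  linarith

/-- The two circles differ by at most twice the displacement. -/
theorem ratio_sub_sq_le (hs0 : 0 ≤ s) (hs1 : s < 1) (hS0 : 0 ≤ S) (hS1 : S < 1) :
    (1 - cs S / cs s) ^ 2 ≤ 4 * (|S - s| / cs s ^ 2) ^ 2 := by
  have hs2 : s ^ 2 < 1 := by nlinarith
  have hS2 : S ^ 2 < 1 := by nlinarith
  have hcp := cs_pos hs2
  have hcS := cs_pos hS2
  have e1 : (1 - cs S / cs s) * (cs s * (cs s + cs S)) = (S - s) * (S + s) := by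
    field_simp
    linear_combination cs_sq hs2.le - cs_sq hS2.le
  have h4 : |1 - cs S / cs s| * cs s ^ 2 ≤ 2 * |S - s| := by
    calc |1 - cs S / cs s| * cs s ^ 2 ≤ |1 - cs S / cs s| * (cs s * (cs s + cs S)) :=
          mul_le_mul_of_nonneg_left (by nlinarith) (abs_nonneg _)
      _ = |(S - s) * (S + s)| := by
          rw [← e1, abs_mul, abs_of_pos (mul_pos hcp (add_pos hcp hcS))]
      _ ≤ |S - s| * 2 := by
          rw [abs_mul]
          exact mul_le_mul_of_nonneg_left (abs_le.2 ⟨by linarith, by linarith⟩) (abs_nonneg _)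
      _ = _ := by ring
  have h5 : |1 - cs S / cs s| ≤ 2 * (|S - s| / cs s ^ 2) := by
    rw [← mul_div_assoc, le_div_iff₀ (by positivity)]
    exact h4
  have := pow_le_pow_left₀ (abs_nonneg _) h5 2
  rw [sq_abs] at this
  linarith

/-- The gain before the switch, negative only where the bracket is. -/
theorem gain_near_split (hm : 4 ≤ m) (hz : 0 < z) (hz2 : z ≤ 2) (hzi : z⁻¹ ≤ 2) (hM1 : 0 ≤ M1)
    (hM1' : M1 ≤ 377 / 1000) (hM2 : 0 ≤ M2) (hs0 : 0 ≤ s) (hs1 : s < 1) (hS0 : 0 ≤ S) (hS1 : S < 1)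
    (hlam : 4 / 5 ≤ lam) (hη : 0 < η) (hρ : 1 - S ≤ 2 * (1 - s))
    (hnear : η * (1 - s) ≤ 1 - S) (h : SlopeOK lam S (cs s / z) σ) :
    -((if M2 * (cs s / z) ^ 2 < M1 * S ^ 2 then 288 / η ^ 2 else 0) * cs s ^ (m - 1) *
        (((1 - S ^ 2) * σ - S * (cs s / z)) ^ 2 / cs s ^ 2) +
      288 / η ^ 2 * (cs s ^ (m - 1) * (|S - s| / cs s ^ 2) ^ 2)) ≤
      z ^ m * Ident.gain (m - 1) M1 M2 s S (cs s / z) σ := by
  have hc0 : 0 ≤ cs s := Real.sqrt_nonneg _
  split_ifs with hneg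
  · have hρ' : η * cs s ^ 2 ≤ 2 * cs S ^ 2 := by
      rw [cs_sq (by nlinarith), cs_sq (by nlinarith)]
      nlinarith [mul_nonneg (show 0 ≤ 1 - S by linarith) hS0]
    have := gain_near (M1 := M1) (M2 := M2) (by omega : 3 ≤ m) hz hz2 hzi hM1 hM1' hM2 hs0 hs1
      hS0 hS1 hlam hη hρ hρ' h
    linarith
  · have hge : 0 ≤ z ^ m * Ident.gain (m - 1) M1 M2 s S (cs s / z) σ := by
      have := h.icept_pos
      have : 0 ≤ cs s / z := div_nonneg hc0 hz.le
      have : 0 ≤ M2 * (cs s / z) ^ 2 - M1 * S ^ 2 := by linarith [not_lt.1 hneg]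
      unfold Ident.gain
      positivity
    have : 0 ≤ 288 / η ^ 2 * (cs s ^ (m - 1) * (|S - s| / cs s ^ 2) ^ 2) := by positivity
    linarith

/-- The losses before the switch against `m ξ²` and the slack. -/
theorem loss_terms {N δ X θ e G B mR : ℝ} (hN : 0 ≤ N) (hA : 0 < A) (ha : 0 < a) (hB : 0 ≤ B)
    (hQ : 0 ≤ Q) (hR : 0 ≤ R) (hκ : 0 ≤ κ) (hκ1 : κ ≤ 1)
    (hκA : 128 * (Q * R) * κ ≤ A * a ^ 3 / 8) (hC : 0 ≤ C) (he : 0 < e) (hem : mR * e = 1)
    (he1 : e ≤ 1) (hX : 0 ≤ X) (hθ : θ ^ 2 ≤ 4 * X ^ 2)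
    (hm : G + (9 * R + 2 * C) ≤ A * a ^ 3 * mR / 16) (hG : 0 ≤ G)
    (hK : K = 24 * R + 2 * C + 8 * B ^ 2 / (A * a ^ 3) + 32 * (Q * R) * (1 + R) ^ 2) :
    N * (A * a ^ 3 / 8 * mR * X ^ 2 - K * (e * δ ^ 2)) + e * N * (15 * R * δ ^ 2 +
        (9 * R + 2 * C) * (X * |δ|)) + G * (N * X ^ 2) + 2 * B * N * (X * |δ|) +
      16 * Q * R * κ * N * (2 * (1 + R) ^ 2 * (e * δ ^ 2) + 2 * (mR * θ ^ 2)) ≤
    A * a ^ 3 * mR / 2 * N * X ^ 2 := by
  have hmR : 0 < mR := by
    rcases lt_or_ge 0 mR with h | h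
    · exact h
    · linarith [mul_nonpos_of_nonpos_of_nonneg h he.le]
  set γ := A * a ^ 3 / 8 with hγ
  have hγ0 : 0 < γ := by positivity
  have l1 : 2 * B * (X * |δ|) ≤ γ * (mR * X ^ 2) + B ^ 2 / γ * (e * δ ^ 2) := by
    have h4 : 0 ≤ γ⁻¹ * e * (γ * mR * X - B * |δ|) ^ 2 := by positivity
    have h5 : γ⁻¹ * e * (γ * mR * X - B * |δ|) ^ 2 = γ * (mR * X ^ 2) * (mR * e) -
        2 * B * (X * |δ|) * (mR * e) + B ^ 2 / γ * (e * |δ| ^ 2) := by field_simp; ring
    rw [h5, hem, sq_abs] at h4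
    linarith
  have l2 : e * (X * |δ|) ≤ X ^ 2 + e * δ ^ 2 := by
    have h6 : X * |δ| ≤ X ^ 2 + δ ^ 2 := by
      linarith [sq_nonneg (X - |δ|), sq_abs δ, mul_nonneg hX (abs_nonneg δ)]
    linarith [mul_le_mul_of_nonneg_left h6 he.le, mul_le_of_le_one_left (sq_nonneg X) he1]
  have l3 : 16 * Q * R * κ * (2 * (1 + R) ^ 2 * (e * δ ^ 2) + 2 * (mR * θ ^ 2)) ≤
      32 * (Q * R) * (1 + R) ^ 2 * (e * δ ^ 2) + γ * (mR * X ^ 2) := by
    have h1 : 16 * Q * R * κ * (2 * (1 + R) ^ 2 * (e * δ ^ 2)) ≤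
        16 * Q * R * 1 * (2 * (1 + R) ^ 2 * (e * δ ^ 2)) := by gcongr
    have h2 := mul_le_mul_of_nonneg_left hθ (show 0 ≤ 32 * Q * R * κ * mR by positivity)
    have h3 := mul_le_mul_of_nonneg_right hκA (show 0 ≤ mR * X ^ 2 by positivity)
    linarith
  have l4 : (G + (9 * R + 2 * C)) * X ^ 2 ≤ γ / 2 * (mR * X ^ 2) := by
    have := mul_le_mul_of_nonneg_right hm (sq_nonneg X)
    rw [hγ]
    linarith
  have e4 : A * a ^ 3 * mR / 2 * N * X ^ 2 = 4 * γ * (N * (mR * X ^ 2)) := by rw [hγ]; ring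
  rw [e4]
  have e8 : 8 * B ^ 2 / (A * a ^ 3) = B ^ 2 / γ := by rw [hγ]; field_simp
  rw [hK, e8]
  have m1 := mul_le_mul_of_nonneg_left l1 hN
  have m2 := mul_le_mul_of_nonneg_left l2 (show 0 ≤ N * (9 * R + 2 * C) by positivity)
  have m3 := mul_le_mul_of_nonneg_left l3 hN
  have m4 := mul_le_mul_of_nonneg_left l4 hN
  have m5 : 0 ≤ N * (γ / 2 * (mR * X ^ 2)) := by positivity
  linarith

/-- The bound before the switch, with the negative square and the terms that pay. -/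
theorem total_near_ge (h : TailState m a η Q R b M1 M2 lam s S z σ) (ha : 0 < a) (hη : 0 < η)
    (hC : 0 ≤ C) (hA : 0 < A) (hA' : 0 ≤ A') (hκ : 0 ≤ κ) (hκ1 : κ ≤ 1)
    (hκA : 128 * (Q * R) * κ ≤ A * a ^ 3 / 8) (hR : (z ^ m)⁻¹ ≤ R)
    (hnear : η * (1 - s) ≤ 1 - S) (hclose : S - s ≤ 7 / 20) (hQm : 4 * (2 + Q) ≤ m) (hRm : R ≤ m)
    (hma : 24 ≤ (m : ℝ) * a ^ 2)
    (hK : K = 24 * R + 2 * C + 8 * (A + A') ^ 2 / (A * a ^ 3) + 32 * (Q * R) * (1 + R) ^ 2)
    (hm : 288 / η ^ 2 + (9 * R + 2 * C) ≤ A * a ^ 3 * m / 16) :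
    cs s * fW m b S * ((m : ℝ)⁻¹ * (z ^ m - 1) ^ 2) / (Q + 1) +
          (z ^ m * (vObs m κ S * ((1 - S ^ 2) * σ - S * (cs s / z)) ^ 2) -
            (if M2 * (cs s / z) ^ 2 < M1 * S ^ 2 then 288 / η ^ 2 else 0) * cs s ^ (m - 1) *
              (((1 - S ^ 2) * σ - S * (cs s / z)) ^ 2 / cs s ^ 2)) +
        cs s ^ (m - 1) * (A * a ^ 3 / 8 * m * (|S - s| / cs s ^ 2) ^ 2 -
          K * ((m : ℝ)⁻¹ * (z ^ m - 1) ^ 2)) ≤
      total m b M1 M2 C a A A' κ η s S z σ := by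
  obtain ⟨hc, hM2, hz, hsa, hs1, hSa, hS1, hρ, hlam, -, -, hQ, -, hsl, -, -⟩ := h
  have hm' := hc.m_ge
  have hm4 : 4 ≤ m := by have := hc.large; omega
  have hs0 : 0 < s := by linarith
  have hS0 : 0 < S := by linarith
  have hs2 : s ^ 2 < 1 := by nlinarith
  have hS2 : S ^ 2 < 1 := by nlinarith
  have hM10 : 0 ≤ M1 := by linarith [hc.M1_lo]
  have hcp := cs_pos hs2
  have hcSp := cs_pos hS2
  have hq := pow_pos hz m
  have hQ0 : 0 ≤ Q := hq.le.trans hQ
  have hR0 : 0 ≤ R := (inv_nonneg.2 hq.le).trans hR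
  have hm1 : 1 ≤ m := by omega
  obtain ⟨hz2, hzi, -⟩ := z_bounds hm1 hz hQ hR (by linarith) hRm
  have hT : (m : ℝ)⁻¹ * (2 + Q) * exp (2 * (m : ℝ)⁻¹ * Q) ≤ 1 := by
    have h1 : exp (2 * (m : ℝ)⁻¹ * Q) ≤ 3 := by
      refine (exp_le_exp.2 ?_).trans exp_one_lt_three.le
      rw [mul_comm 2, mul_assoc, ← div_eq_inv_mul, div_le_one (by linarith)]
      linarith
    have h2 : (m : ℝ)⁻¹ * (2 + Q) ≤ 1 / 4 := by
      rw [← div_eq_inv_mul, div_le_iff₀ (by linarith)]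
      linarith
    calc _ ≤ (1 / 4 : ℝ) * 3 := mul_le_mul h2 h1 (exp_pos _).le (by norm_num)
      _ ≤ 1 := by norm_num
  have hx : 1 ≤ (1 - S) / ((1 - s) * η) := by
    rw [le_div_iff₀ (mul_pos (by linarith) hη)]
    linarith
  obtain ⟨h1, h2⟩ := step_of_one_le hx
  obtain ⟨h3, h4⟩ := slopeField_eq_edge (m := m) (M1 := M1) (M2 := M2) (η := η) (g := cs s / z)
    (q := z ^ m) (σ := σ) hclose
  have hk : slopeField m M1 M2 η s S (cs s / z) = s := by
    rw [h3]; simp [edgeField, cut, h1]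
  have hk' : slopeField' m M1 M2 η s S (cs s / z) (z ^ m) σ = 1 := by
    rw [h4]; simp [edgeField', cut, h1, h2]
  have hss : ∀ w, a ≤ w → 8 ≤ (m : ℝ) * w ^ 2 := fun w hw => by
    have := mul_le_mul_of_nonneg_left (pow_le_pow_left₀ ha.le hw 2) (Nat.cast_nonneg (α := ℝ) m)
    linarith
  have b1 := P_near hc (by linarith) hC hz hs0.le hs1 hS0.le hS1 (hss s (by linarith)) (hss S hSa)
    hρ hQ hR hT
  have hm6 : 6 ≤ m := le_trans (by norm_num) hc.large
  have b2 := null2_ge (z := z) (S := S) hm6 ha.le hA.le hA' hsa hs0 hs1 (by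
    have := mul_le_mul_of_nonneg_left (pow_le_pow_left₀ ha.le (show a ≤ s by linarith) 2)
      (Nat.cast_nonneg (α := ℝ) m)
    linarith)
  have b3 := vObs_loss (S := S) (by omega : 3 ≤ m) hz hκ hs2 hQ hR (by linarith) hRm
  set N := cs s ^ (m - 1) with hN
  set X := |S - s| / cs s ^ 2 with hX
  set w := ((1 - S ^ 2) * σ - S * (cs s / z)) ^ 2 / cs s ^ 2 with hw
  set e := (m : ℝ)⁻¹ with he
  have he0 : 0 < e := inv_pos.2 (by linarith)
  have hN0 : 0 ≤ N := pow_nonneg hcp.le _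
  have hX0 : 0 ≤ X := div_nonneg (abs_nonneg _) (sq_nonneg _)
  have hem : (m : ℝ) * e = 1 := mul_inv_cancel₀ (by linarith)
  have hθ : (1 - cs S / cs s) ^ 2 ≤ 4 * X ^ 2 := ratio_sub_sq_le hs0.le hs1 hS0.le hS1
  have g1 := gain_near_split (M1 := M1) (M2 := M2) (lam := lam) hm4 hz hz2 hzi hM10 hc.M1_hi
    (show 0 ≤ M2 by linarith only [hM2]) hs0.le hs1 hS0.le hS1 (show 4 / 5 ≤ lam by linarith only [hlam])
    hη hρ hnear hsl
  rw [← hN, ← hX, ← hw] at g1
  have l1 := loss_terms (δ := z ^ m - 1) (X := X) (θ := 1 - cs S / cs s) (e := e) hN0 hA ha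
    (by positivity : (0 : ℝ) ≤ A + A') hQ0 hR0 hκ hκ1 hκA hC he0 hem (Nat.cast_inv_le_one m)
    hX0 hθ (show 288 / η ^ 2 + (9 * R + 2 * C) ≤ A * a ^ 3 * m / 16 from hm) (by positivity) hK
  rw [total, hk, hk', slopePart]
  linarith only [b1, b2, b3, g1, l1]

/-- Where the weight is large against `1/m` the obstacle pays. -/
theorem pay_large {G : ℝ} (h : TailState m a η Q R b M1 M2 lam s S z σ) (ha : 0 < a) (hR : 0 < R)
    (hRr : (z ^ m)⁻¹ ≤ R) (hκ : 0 < κ) (hG : 0 ≤ G) (hma : 2 ≤ (m : ℝ) * a ^ 2)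
    (hbig : Λ / m ≤ (cs S / cs s) ^ (m - 2)) (hΛ1 : K * (64 * (Q + 1)) / a ^ 4 ≤ Λ)
    (hΛ2 : G * (16000 * R) / κ ≤ Λ) :
    cs s ^ (m - 1) * (K * ((m : ℝ)⁻¹ * (z ^ m - 1) ^ 2)) ≤
        cs s * fW m b S * ((m : ℝ)⁻¹ * (z ^ m - 1) ^ 2) / (Q + 1) ∧
      (if M2 * (cs s / z) ^ 2 < M1 * S ^ 2 then G else 0) * cs s ^ (m - 1) *
          (((1 - S ^ 2) * σ - S * (cs s / z)) ^ 2 / cs s ^ 2) ≤
        z ^ m * (vObs m κ S * ((1 - S ^ 2) * σ - S * (cs s / z)) ^ 2) := by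
  obtain ⟨hc, hM2, hz, hsa, hs1, hSa, hS1, hedge, hlam, -, -, hQ, -, -, habove, -⟩ := h
  have hm := hc.m_ge
  have hm100 := hc.large
  have hs0 : 0 < s := by linarith only [hsa, ha]
  have hS0 : 0 < S := by linarith only [hSa, ha]
  have hs2 : s ^ 2 < 1 := by nlinarith only [hs0, hs1]
  have hS2 : S ^ 2 < 1 := by nlinarith only [hS0, hS1]
  have hcp := cs_pos hs2
  have hcSp := cs_pos hS2
  have hq := pow_pos hz m
  have hQ0 : 0 ≤ Q := hq.le.trans hQ
  rw [div_le_iff₀ (by positivity)] at hΛ1 hΛ2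
  rw [div_le_iff₀ (by linarith only [hm])] at hbig
  set amp := (cs S / cs s) ^ (m - 2) with hamp
  have hamp0 : 0 ≤ amp := by positivity
  constructor
  · rw [le_div_iff₀ (by linarith only [hQ0])]
    have h1 := fW_ge hc ha hSa hS1 hma
    have e : cs S ^ (m - 2) * cs s = cs s ^ (m - 1) * amp := by
      rw [hamp, div_pow, show m - 1 = m - 2 + 1 by omega, pow_succ]
      field_simp
    have h2 : cs s ^ (m - 1) * (amp * (m * a ^ 4) / 64) ≤ cs s * fW m b S := by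
      refine le_of_eq_of_le ?_ (mul_le_mul_of_nonneg_left h1 hcp.le)
      linear_combination (-(m : ℝ) * a ^ 4 / 64) * e
    have h3 : K * (Q + 1) ≤ amp * (m * a ^ 4) / 64 := by
      have := mul_le_mul_of_nonneg_right hbig (show 0 ≤ a ^ 4 by positivity)
      linarith only [this, hΛ1]
    have h4 := mul_le_mul_of_nonneg_right
      ((mul_le_mul_of_nonneg_left h3 (pow_nonneg hcp.le (m - 1))).trans h2)
      (show 0 ≤ (m : ℝ)⁻¹ * (z ^ m - 1) ^ 2 by positivity)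
    linarith only [h4]
  set u := (1 - S ^ 2) * σ - S * (cs s / z) with hu
  split_ifs with hneg
  · have hcS : cs S ≤ 2 * cs s := by
      refine Real.sqrt_le_iff.2 ⟨by positivity, ?_⟩
      rw [mul_pow, cs_sq hs2.le]
      nlinarith only [hedge, hS1, hs1, hS0, hs0]
    have h1 := vObs_ge (by omega : 3 ≤ m) hκ.le (show 0 ≤ M1 by linarith only [hc.M1_lo]) hc.M1_hi
      hM2 hlam hs2 hS2 habove hneg hcS
    rw [← hamp] at h1
    have hqR : 1 ≤ z ^ m * R := by
      have := mul_le_mul_of_nonneg_left hRr hq.le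
      rwa [mul_inv_cancel₀ hq.ne'] at this
    have e : cs s ^ (m - 1) * (u ^ 2 / cs s ^ 2) = cs s ^ (m - 3) * u ^ 2 := by
      rw [show m - 1 = m - 3 + 2 by omega, pow_add]
      field_simp
    have h3 : G ≤ z ^ m * (κ * ((m : ℝ) - 1) * (amp / 8000)) := by
      refine le_of_mul_le_mul_right ?_ hR
      have h5 : G * R ≤ κ * ((m : ℝ) - 1) * (amp / 8000) := by
        have h7 : 0 ≤ κ * amp * ((m : ℝ) / 2 - 1) :=
          mul_nonneg (by positivity) (by linarith only [hm])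
        have h8 := mul_le_mul_of_nonneg_right hbig hκ.le
        linarith only [h7, h8, hΛ2]
      have h6 : 0 ≤ κ * ((m : ℝ) - 1) * (amp / 8000) :=
        mul_nonneg (mul_nonneg hκ.le (by linarith only [hm])) (by positivity)
      calc G * R ≤ 1 * (κ * ((m : ℝ) - 1) * (amp / 8000)) := by rw [one_mul]; exact h5
        _ ≤ z ^ m * R * (κ * ((m : ℝ) - 1) * (amp / 8000)) :=
            mul_le_mul_of_nonneg_right hqR h6
        _ = _ := by ring
    calc G * cs s ^ (m - 1) * (u ^ 2 / cs s ^ 2) = G * (cs s ^ (m - 3) * u ^ 2) := by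
          rw [mul_assoc, e]
      _ ≤ z ^ m * (κ * ((m : ℝ) - 1) * (amp / 8000)) * (cs s ^ (m - 3) * u ^ 2) :=
        mul_le_mul_of_nonneg_right h3 (by positivity)
      _ = z ^ m * (κ * ((m : ℝ) - 1) * cs s ^ (m - 3) * (amp / 8000) * u ^ 2) := by ring
      _ ≤ _ := mul_le_mul_of_nonneg_left (mul_le_mul_of_nonneg_right h1 (sq_nonneg _)) hq.le
  · rw [zero_mul, zero_mul]
    exact mul_nonneg hq.le (mul_nonneg (vObs_nonneg (by omega) hκ.le S) (sq_nonneg _))

/-- Where the weight is small the null function pays. -/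
theorem pay_small {G γ : ℝ} (h : TailState m a η Q R b M1 M2 lam s S z σ) (ha : 0 < a) (hη : 0 < η)
    (hRr : (z ^ m)⁻¹ ≤ R) (hG : 0 ≤ G) (hK : 0 ≤ K) (hγ : 0 < γ)
    (hnear : η * (1 - s) ≤ 1 - S) (hsmall : (cs S / cs s) ^ (m - 2) < Λ / m)
    (hQm : Q ≤ m) (hRm : R ≤ m) (hlog : 1 ≤ log m) (hΛ : 2 * log Λ ≤ log m)
    (hK5 : 4 * (G * ((12 * (1 + R) * (Q + 1) + 8) / η + 2) + K * (Q + 1) ^ 2 * (4 / η)) / (γ * η) ≤
      log m) :
    (if M2 * (cs s / z) ^ 2 < M1 * S ^ 2 then G else 0) * cs s ^ (m - 1) *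
        (((1 - S ^ 2) * σ - S * (cs s / z)) ^ 2 / cs s ^ 2) +
      cs s ^ (m - 1) * (K * ((m : ℝ)⁻¹ * (z ^ m - 1) ^ 2)) ≤
    cs s ^ (m - 1) * (γ * m * (|S - s| / cs s ^ 2) ^ 2) := by
  have hdis := log_le_displ h hη ha hnear hsmall hΛ
  have hwle := obs_sq_le_displ h ha hη hRr hQm hRm hlog hdis
  obtain ⟨hc, -, hz, -, -, -, -, -, -, -, -, hQ, -⟩ := h
  have hm := hc.m_ge
  have hc0 : 0 ≤ cs s := Real.sqrt_nonneg _
  set X := |S - s| / cs s ^ 2 with hX
  set w := ((1 - S ^ 2) * σ - S * (cs s / z)) ^ 2 / cs s ^ 2 with hw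
  set N := cs s ^ (m - 1) with hN
  have hw0 : 0 ≤ w := by positivity
  have hN0 : 0 ≤ N := pow_nonneg hc0 _
  have hX0 : 0 ≤ X := by positivity
  have hif : (if M2 * (cs s / z) ^ 2 < M1 * S ^ 2 then G else 0) * N * w ≤ G * N * w := by
    split_ifs
    · exact le_rfl
    · rw [zero_mul, zero_mul]; positivity
  have hq := pow_pos hz m
  have h1 : (z ^ m - 1) ^ 2 ≤ (Q + 1) ^ 2 :=
    sq_le_sq' (by linarith only [hQ, hq]) (by linarith only [hQ])
  have h2 : (m : ℝ)⁻¹ ≤ 4 / η * X := by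
    rw [inv_le_iff_one_le_mul₀ (by linarith only [hm]), div_mul_eq_mul_div, div_mul_eq_mul_div,
      le_div_iff₀ hη, one_mul]
    have := le_mul_of_one_le_right hη.le hlog
    linarith only [this, hdis]
  have hD : (m : ℝ)⁻¹ * (z ^ m - 1) ^ 2 ≤ 4 / η * X * (Q + 1) ^ 2 :=
    mul_le_mul h2 h1 (sq_nonneg _) (by positivity)
  rw [div_le_iff₀ (by positivity)] at hK5
  set K5 := G * ((12 * (1 + R) * (Q + 1) + 8) / η + 2) + K * (Q + 1) ^ 2 * (4 / η) with hK5'
  have hpay : K5 ≤ γ * m * X := by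
    have := mul_le_mul_of_nonneg_left hdis hγ.le
    linarith only [this, hK5]
  have m1 := mul_le_mul_of_nonneg_left hwle (mul_nonneg hG hN0)
  have m2 := mul_le_mul_of_nonneg_left hD (mul_nonneg hK hN0)
  have m3 := mul_le_mul_of_nonneg_left (mul_le_mul_of_nonneg_right hpay hX0) hN0
  rw [hK5'] at m3
  linarith only [hif, m1, m2, m3]

/-- Away from the centre the integrand is nonnegative. -/
theorem total_nonneg_tail (ha : 0 < a) (hη : 0 < η) (hη' : η ≤ 1 / 2) (hQ : 0 < Q) (hR : 0 < R)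
    (hC : 0 ≤ C) (hA : 0 < A) (hA' : 0 ≤ A') :
    ∃ κ₀ : ℝ, 0 < κ₀ ∧ ∀ κ : ℝ, 0 < κ → κ ≤ κ₀ → ∃ N : ℕ,
      ∀ {m : ℕ} {b M1 M2 lam s S z σ : ℝ}, N ≤ m → TailState m a η Q R b M1 M2 lam s S z σ →
        0 ≤ total m b M1 M2 C a A A' κ η s S z σ := by
  refine ⟨min (min 1 (A * a ^ 3 / 128)) (A * a ^ 3 / 8 / (128 * (Q * R))), by positivity,
    fun κ hκ hκ₀ => ?_⟩
  rw [le_min_iff, le_min_iff, le_div_iff₀ (by positivity : 0 < 128 * (Q * R))] at hκ₀
  obtain ⟨⟨hκ1, hκA⟩, hκQ⟩ := hκ₀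
  set γ := A * a ^ 3 / 8 with hγ
  have hγ0 : 0 < γ := by positivity
  obtain ⟨K, hK⟩ : ∃ K : ℝ, K = 24 * R + 2 * C + 8 * (A + A') ^ 2 / (A * a ^ 3) +
      32 * (Q * R) * (1 + R) ^ 2 := ⟨_, rfl⟩
  have hK0 : 0 ≤ K := by rw [hK]; positivity
  obtain ⟨G, hG⟩ : ∃ G : ℝ, G = 288 / η ^ 2 := ⟨_, rfl⟩
  have hG0 : 0 ≤ G := by rw [hG]; positivity
  set Λ := max (K * (64 * (Q + 1)) / a ^ 4) (G * (16000 * R) / κ) + 1 with hΛ
  have hΛ0 : 0 < Λ := by positivity
  set K5 := G * ((12 * (1 + R) * (Q + 1) + 8) / η + 2) + K * (Q + 1) ^ 2 * (4 / η) with hK5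
  set F := 16 + (3 + 2 * C) * (Q + 1) + 60 + 30 * (2 * R + (32 / η + 80) * (1 + R)) + 16 / η ^ 2 +
    2 * (A + A') * (Q + 1) + (288 / η ^ 2 + (9 * R + 2 * C)) with hF
  have hT := tendsto_natCast_atTop_atTop (R := ℝ)
  have hev : ∀ᶠ m : ℕ in atTop, 64 * F / (A * a ^ 3) ≤ (m : ℝ) ∧ 24 / a ^ 2 ≤ (m : ℝ) ∧
      4 * (2 + Q) + R ≤ (m : ℝ) ∧
      max (max 1 (2 * log Λ)) (4 * K5 / (γ * η)) ≤ log (m : ℝ) :=
    (hT.eventually_ge_atTop _).and ((hT.eventually_ge_atTop _).and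
      ((hT.eventually_ge_atTop _).and ((tendsto_log_atTop.comp hT).eventually_ge_atTop _)))
  obtain ⟨N, hN⟩ := eventually_atTop.1 hev
  refine ⟨N, fun {m b M1 M2 lam s S z σ} hm h => ?_⟩
  obtain ⟨hmF, hma, hmQ, hlog⟩ := hN m hm
  rw [div_le_iff₀ (by positivity)] at hmF
  rw [div_le_iff₀ (by positivity)] at hma
  rw [max_le_iff, max_le_iff] at hlog
  obtain ⟨⟨hlog1, hlogΛ⟩, hlogK⟩ := hlog
  by_cases hfar : 1 - S < η * (1 - s) ∨ 7 / 20 < S - s
  · have hsS : s ≤ S := by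
      rcases hfar with hf | hf
      · nlinarith only [hf, hη', h.s_lt]
      · linarith only [hf]
    have hs0 : 0 < s := lt_of_lt_of_le (mul_pos two_pos ha) h.s_ge
    have hs1 := h.s_lt
    have hX : 1 / 4 * cs s ^ 2 ≤ S - s := by
      rw [cs_sq (by nlinarith only [hs0, hs1])]
      rcases hfar with hf | hf
      · nlinarith only [hf, hη', hs0, hs1]
      · nlinarith only [hf, hs0]
    obtain ⟨f1, f2⟩ := field_far h ha hη hη' hR.le hsS
    obtain ⟨k0, k1⟩ := slopeField_mem (m := m) (M1 := M1) (M2 := M2) (η := η) (S := S)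
      (g := cs s / z) hs1.le
    have hpot := potK_mul_slopeField'_ge (m := m) (η := η) (g := cs s / z) (q := z ^ m) (σ := σ)
      (le_trans (by norm_num) h.cnst.large) (show 0 ≤ M1 by linarith [h.cnst.M1_lo])
      (show 0 < M2 by linarith [h.M2_lo]) hs0.le hs1.le (by linarith) h.S_lt.le
      (div_nonneg (Real.sqrt_nonneg _) h.z_pos.le) (pow_nonneg h.z_pos.le m) h.slope.nonneg
    have hF : 0 ≤ 288 / η ^ 2 + (9 * R + 2 * C) := by positivity
    exact far_nonneg h ha hη hη' hC hA.le hA' hκ.le hsS hX k1 k0 f1 f2 hpot hκA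
      (by linarith only [hmQ, hQ, hR]) hma (by linarith only [hmF, hF])
  rw [not_or, not_lt, not_lt] at hfar
  obtain ⟨hnear, hclose⟩ := hfar
  have hRr : (z ^ m)⁻¹ ≤ R := h.jac_ge (le_trans
    (mul_le_mul_of_nonneg_right (by linarith only [hη]) (sub_nonneg.2 h.s_lt.le)) hnear)
  refine le_trans ?_ (total_near_ge h ha hη hC hA hA' hκ.le hκ1
    (by rw [← hγ]; linarith only [hκQ]) hRr hnear
    hclose (by linarith only [hmQ, hR]) (by linarith only [hmQ, hQ]) hma hK (by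
      have : 0 ≤ 16 + (3 + 2 * C) * (Q + 1) + 60 + 30 * (2 * R + (32 / η + 80) * (1 + R)) + 16 / η ^ 2 +
        2 * (A + A') * (Q + 1) := by positivity
      have hA3 : 0 ≤ A * a ^ 3 * m := by positivity
      linarith only [this, hA3, hmF]))
  rw [← hG, ← hγ]
  have hcp : 0 ≤ cs s ^ (m - 1) := pow_nonneg (Real.sqrt_nonneg _) _
  rcases le_or_gt (Λ / m) ((cs S / cs s) ^ (m - 2)) with hbig | hsmall
  · obtain ⟨p1, p2⟩ := pay_large (K := K) (G := G) h ha hR hRr hκ hG0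
      (by linarith only [hma]) hbig
      (le_trans (le_max_left _ _) (le_add_of_nonneg_right zero_le_one))
      (le_trans (le_max_right _ _) (le_add_of_nonneg_right zero_le_one))
    have p3 : 0 ≤ cs s ^ (m - 1) * (γ * m * (|S - s| / cs s ^ 2) ^ 2) := by positivity
    linarith only [p1, p2, p3]
  · have p1 := pay_small (K := K) (G := G) h ha hη hRr hG0 hK0 hγ0 hnear hsmall
      (by linarith only [hmQ, hQ, hR]) (by linarith only [hmQ, hQ]) hlog1 hlogΛ hlogK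
    have hs1 := h.s_lt
    have hz := h.z_pos
    have hvu : 0 ≤ z ^ m * (vObs m κ S * ((1 - S ^ 2) * σ - S * (cs s / z)) ^ 2) :=
      mul_nonneg (pow_nonneg hz.le _)
        (mul_nonneg (vObs_nonneg (le_trans (by norm_num) h.cnst.large) hκ.le S) (sq_nonneg _))
    have hsl : 0 ≤ cs s * fW m b S * ((m : ℝ)⁻¹ * (z ^ m - 1) ^ 2) / (Q + 1) := by
      have := fW_nonneg (t := S) (m := m) (le_trans (by norm_num) h.cnst.large) h.cnst.b_pos
      have : 0 ≤ cs s := Real.sqrt_nonneg _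
      positivity
    linarith only [p1, hvu, hsl]

end Vale.Agent.P237.Petty.Tail
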