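import Vale.Agent.P237.Petty.Centre.Profile
import Vale.Agent.P237.Petty.Centre.Setting
import Vale.Agent.P237.Petty.Ident.Obstacle

/-!
# P237: facts along the transport on the tail

Concavity, the inscribed ellipse and the equality of the tails of the two powers bound the
Jacobian `q`, compare the two abscissae and control the slope.
-/

namespace Vale.Agent.P237.Petty.Tail

open MeasureTheory Set Real Centre

variable {p m : ℕ} {g σ : ℝ → ℝ} {lam s t : ℝ}

/-- The elementary facts about the slope at a point of the half line. -/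
theorem slope_facts (hg : Regular g) (hl : 0 < lam)
    (hge : ∀ u ∈ Icc (-1 : ℝ) 1, lam * √(1 - u ^ 2) ≤ g u) (ht : t ∈ Ioo (0 : ℝ) 1) :
    0 ≤ -slopeR g t ∧ -slopeR g t * (1 - t) ≤ g t ∧ 0 < g t + t * -slopeR g t ∧
      (-slopeR g t) ^ 2 + lam ^ 2 ≤ (g t + t * -slopeR g t) ^ 2 ∧ lam * cs t ≤ g t := by
  have htI : t ∈ Ioo (-1 : ℝ) 1 := ⟨by linarith [ht.1], ht.2⟩
  refine ⟨?_, ?_, ?_, ?_, hge t (Ioo_subset_Icc_self htI)⟩
  · have h := le_tangent hg.concave htI (show -t ∈ Icc (-1 : ℝ) 1 from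
      ⟨by linarith [ht.2], by linarith [ht.1]⟩)
    rw [hg.even] at h
    have h2 : slopeR g t * (2 * t) ≤ 0 := by linarith
    linarith [nonpos_of_mul_nonpos_left h2 (by linarith [ht.1])]
  · have h := le_tangent hg.concave htI (right_mem_Icc.2 (by norm_num : (-1 : ℝ) ≤ 1))
    linarith [hg.nonneg 1 (by norm_num)]
  · have := hg.icept_pos htI
    rw [icept] at this
    linarith
  · have h := Ident.sq_le_tangent hg hl hge htI
    rw [icept] at h
    rw [neg_sq, mul_neg, ← sub_eq_add_neg]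
    exact h

/-- The tail of the circle is at most its value over the hazard at the point. -/
theorem circle_tail_le (hs0 : 0 < s) (hs1 : s ≤ 1) :
    ∫ u in s..1, √(1 - u ^ 2) ^ m ≤ cs s ^ (m + 2) / (((m : ℝ) + 2) * s) := by
  have hd : ∀ u ∈ Ioo s 1, HasDerivAt (fun v => -(cs v ^ (m + 2) / (((m : ℝ) + 2) * s)))
      (u / s * cs u ^ m) u := fun u hu => by
    refine (((hasDerivAt_cs_pow (show u ^ 2 < 1 by nlinarith [hu.1, hu.2]) m).div_const
      (((m : ℝ) + 2) * s)).neg).congr_deriv ?_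
    push_cast
    field_simp
  have hc := cs_continuous
  have h1 := intervalIntegral.integral_eq_sub_of_hasDerivAt_of_le hs1
    (Continuous.continuousOn (by fun_prop)) hd (Continuous.intervalIntegrable (by fun_prop) _ _)
  have h2 : cs 1 = 0 := by simp [cs]
  rw [h2, zero_pow (by omega), zero_div, neg_zero, zero_sub, neg_neg] at h1
  rw [← h1]
  refine intervalIntegral.integral_mono_on hs1 (Continuous.intervalIntegrable (by fun_prop) _ _)
    (Continuous.intervalIntegrable (by fun_prop) _ _) fun u hu => ?_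
  exact le_mul_of_one_le_left (pow_nonneg (sqrt_nonneg _) _) ((one_le_div hs0).2 hu.1)

/-- The tail of a power of a concave function is at least that of the cone to the edge. -/
theorem tail_ge_cone (hg : Regular g) (ht : t ∈ Ioo (0 : ℝ) 1) :
    g t ^ m * ((1 - t) / ((m : ℝ) + 1)) ≤ ∫ u in t..1, g u ^ m := by
  have hsub : Icc t 1 ⊆ Icc (-1 : ℝ) 1 := Icc_subset_Icc (by linarith [ht.1]) le_rfl
  have ht1 : 0 < 1 - t := by linarith [ht.2]
  have e : ∫ u in t..1, ((1 - u) / (1 - t) * g t) ^ m = g t ^ m * ((1 - t) / ((m : ℝ) + 1)) := by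
    have h : ∫ u in t..1, (1 - u) ^ m = (1 - t) ^ (m + 1) / ((m : ℝ) + 1) := by
      rw [intervalIntegral.integral_comp_sub_left (fun u => u ^ m) 1, sub_self, integral_pow,
        zero_pow (by omega), sub_zero]
    simp only [mul_pow, div_pow]
    rw [intervalIntegral.integral_mul_const, intervalIntegral.integral_div, h, pow_succ]
    field_simp
  rw [← e]
  refine intervalIntegral.integral_mono_on (by linarith) (Continuous.intervalIntegrable (by fun_prop) _ _)
    (ContinuousOn.intervalIntegrable (by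
      rw [uIcc_of_le (by linarith : t ≤ 1)]; exact (hg.cont.mono hsub).pow m)) fun u hu => ?_
  have h := hg.concave.2 (show t ∈ Icc (-1 : ℝ) 1 from hsub ⟨le_rfl, by linarith⟩)
    (show (1 : ℝ) ∈ Icc (-1 : ℝ) 1 by norm_num)
    (show 0 ≤ (1 - u) / (1 - t) from div_nonneg (by linarith [hu.2]) ht1.le)
    (show 0 ≤ (u - t) / (1 - t) from div_nonneg (by linarith [hu.1]) ht1.le)
    (by field_simp; ring)
  have e2 : ((1 - u) / (1 - t)) • t + ((u - t) / (1 - t)) • (1 : ℝ) = u := by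
    simp only [smul_eq_mul]; field_simp; ring
  rw [e2, smul_eq_mul, smul_eq_mul] at h
  have hgt : 0 ≤ g t := hg.nonneg t (hsub ⟨le_rfl, by linarith⟩)
  refine pow_le_pow_left₀ (mul_nonneg (div_nonneg (by linarith [hu.2]) ht1.le) hgt) ?_ m
  have : 0 ≤ (u - t) / (1 - t) * g 1 :=
    mul_nonneg (div_nonneg (by linarith [hu.1]) ht1.le) (hg.nonneg 1 (by norm_num))
  linarith

/-- Below a decreasing tangent the tail is short. -/
theorem tail_le_slope (hg : Regular g) (ht : t ∈ Ioo (0 : ℝ) 1) {σ' : ℝ} (hσ : σ' = -slopeR g t)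
    (hσ0 : 0 < σ') (hσ1 : σ' * (1 - t) ≤ g t) :
    ∫ u in t..1, g u ^ m ≤ g t ^ (m + 1) / (σ' * ((m : ℝ) + 1)) := by
  have hsub : Icc t 1 ⊆ Icc (-1 : ℝ) 1 := Icc_subset_Icc (by linarith [ht.1]) le_rfl
  have htI : t ∈ Ioo (-1 : ℝ) 1 := ⟨by linarith [ht.1], ht.2⟩
  have hd : ∀ u ∈ Ioo t 1, HasDerivAt
      (fun v => -((g t - σ' * (v - t)) ^ (m + 1) / (σ' * ((m : ℝ) + 1))))
      ((g t - σ' * (u - t)) ^ m) u := fun u _ => by
    refine (((((hasDerivAt_id u).sub_const t).const_mul σ').const_sub (g t)).pow (m + 1)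
      |>.div_const (σ' * ((m : ℝ) + 1))).neg.congr_deriv ?_
    simp only [id_eq, Nat.add_sub_cancel]
    push_cast
    field_simp
  have h1 := intervalIntegral.integral_eq_sub_of_hasDerivAt_of_le ht.2.le
    (Continuous.continuousOn (by fun_prop)) hd (Continuous.intervalIntegrable (by fun_prop) _ _)
  have h2 : 0 ≤ (g t - σ' * (1 - t)) ^ (m + 1) / (σ' * ((m : ℝ) + 1)) :=
    div_nonneg (pow_nonneg (sub_nonneg.2 hσ1) _) (by positivity)
  refine le_trans (intervalIntegral.integral_mono_on (g := fun u => (g t - σ' * (u - t)) ^ m)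
    ht.2.le (ContinuousOn.intervalIntegrable (by
      rw [uIcc_of_le ht.2.le]; exact (hg.cont.mono hsub).pow m))
    (Continuous.intervalIntegrable (by fun_prop) _ _) fun u hu => ?_) ?_
  · refine pow_le_pow_left₀ (hg.nonneg u (hsub hu)) ?_ m
    have := le_tangent hg.concave htI (hsub hu)
    rw [hσ]
    linarith
  · rw [h1]
    simp only [sub_self, mul_zero, sub_zero]
    linarith

/-- The tails agree along the transport. -/
theorem tails_eq (hg : Regular g) (hσ : Transport p g σ) (ht : t ∈ Icc (0 : ℝ) 1) :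
    ∫ y in t..1, g y ^ (p + 1) = ∫ u in σ t..1, √(1 - u ^ 2) ^ (p + 1) := by
  have hsub : Icc (0 : ℝ) 1 ⊆ Icc (-1) 1 := Icc_subset_Icc (by norm_num) le_rfl
  have hgi : ∀ x ∈ Icc (0 : ℝ) 1,
      IntervalIntegrable (fun u => g u ^ (p + 1)) volume 0 x := fun x hx =>
    (((hg.cont.mono hsub).pow (p + 1)).mono
      (uIcc_subset_Icc (show (0 : ℝ) ∈ Icc (0 : ℝ) 1 by norm_num) hx)).intervalIntegrable
  have hca : Continuous fun u => arc u ^ (p + 1) := continuous_arc.pow _
  have h1 := hσ.mass 1 (by norm_num)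
  have h2 := hσ.mass t ht
  rw [hσ.one] at h1
  rw [← intervalIntegral.integral_interval_sub_left (hgi 1 (by norm_num)) (hgi t ht), ← h1, ← h2]
  exact intervalIntegral.integral_interval_sub_left (hca.intervalIntegrable _ _)
    (hca.intervalIntegrable _ _)

/-- The distance to the edge is small against `q c²`. -/
theorem edge_le (hg : Regular g) (hσ : Transport p g σ) (ht : t ∈ Ioo (0 : ℝ) 1) :
    (1 - t) * σ t ≤ (cs (σ t) / g t) ^ (p + 1) * cs (σ t) ^ 2 := by
  have hs := hσ.mem_Ioo t ht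
  have hgt : 0 < g t := hg.pos_of_lt ⟨ht.1.le, ht.2⟩
  have hG := pow_pos hgt (p + 1)
  have h := (tail_ge_cone (m := p + 1) hg ht).trans
    ((tails_eq hg hσ (Ioo_subset_Icc_self ht)).le.trans (circle_tail_le hs.1 hs.2.le))
  rw [← mul_div_assoc, div_le_div_iff₀ (by positivity)
    (mul_pos (by positivity) hs.1), pow_add (cs (σ t)) (p + 1) 2] at h
  rw [div_pow, div_mul_eq_mul_div, le_div_iff₀ hG]
  refine le_of_mul_le_mul_right ?_ (show (0 : ℝ) < ((p + 1 : ℕ) : ℝ) + 2 by positivity)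
  calc (1 - t) * σ t * g t ^ (p + 1) * (((p + 1 : ℕ) : ℝ) + 2)
      = g t ^ (p + 1) * (1 - t) * ((((p + 1 : ℕ) : ℝ) + 2) * σ t) := by ring
    _ ≤ cs (σ t) ^ (p + 1) * cs (σ t) ^ 2 * (((p + 1 : ℕ) : ℝ) + 1) := h
    _ ≤ cs (σ t) ^ (p + 1) * cs (σ t) ^ 2 * (((p + 1 : ℕ) : ℝ) + 2) :=
        mul_le_mul_of_nonneg_left (by linarith) (by
          have : 0 ≤ cs (σ t) := sqrt_nonneg _
          positivity)

/-- Where the profile is below the circle the slope is steep, so `q` is bounded. -/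
theorem q_le_slope (hg : Regular g) (hσ : Transport p g σ) (hl : 0 < lam)
    (hge : ∀ u ∈ Icc (-1 : ℝ) 1, lam * √(1 - u ^ 2) ≤ g u) (ht : t ∈ Ioo (0 : ℝ) 1)
    (hl2 : 1 - lam ^ 2 ≤ σ t ^ 2 / 2) :
    (cs (σ t) / g t) ^ (p + 1) ≤ 50 / σ t ^ 2 := by
  have hs := hσ.mem_Ioo t ht
  set s := σ t
  have hs2 : s ^ 2 < 1 := by nlinarith [hs.1, hs.2]
  have hc := cs_pos hs2
  have hgt : 0 < g t := hg.pos_of_lt ⟨ht.1.le, ht.2⟩
  set m := p + 1 with hm
  have hm1 : (1 : ℝ) ≤ m := by exact_mod_cast Nat.succ_le_succ (Nat.zero_le p)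
  rcases le_total (cs s) (g t) with hcg | hgc
  · refine le_trans (pow_le_one₀ (div_nonneg hc.le hgt.le) ((div_le_one hgt).2 hcg)) ?_
    rw [le_div_iff₀ (by nlinarith [hs.1])]
    linarith
  obtain ⟨hσ0, hσ1, hD, hq, -⟩ := slope_facts hg hl hge ht
  set σ' := -slopeR g t with hσ'
  have hg2 : g t ^ 2 ≤ cs s ^ 2 := pow_le_pow_left₀ hgt.le hgc 2
  have hc2 : cs s ^ 2 = 1 - s ^ 2 := cs_sq hs2.le
  have hX : s ^ 2 / 2 ≤ lam ^ 2 - g t ^ 2 := by linarith
  have hsteep : s ^ 2 / 2 ≤ 2 * g t * σ' := by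
    have ht2 : t ^ 2 ≤ 1 := by nlinarith [ht.1, ht.2]
    have h1 : 2 * g t * t * σ' ≤ 2 * g t * 1 * σ' :=
      mul_le_mul_of_nonneg_right (mul_le_mul_of_nonneg_left ht.2.le (by linarith)) hσ0
    have h2 : t ^ 2 * σ' ^ 2 ≤ 1 * σ' ^ 2 := mul_le_mul_of_nonneg_right ht2 (sq_nonneg _)
    linarith
  have hσp : 0 < σ' := pos_of_mul_pos_right (lt_of_lt_of_le (by nlinarith [hs.1]) hsteep)
    (by linarith)
  have hT := (LargeN.circle_tail_ge m (Nat.succ_le_succ (Nat.zero_le p)) hs.1.le hs.2).trans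
    ((tails_eq hg hσ (Ioo_subset_Icc_self ht)).symm.le.trans
      (tail_le_slope (m := m) hg ht hσ' hσp hσ1))
  rw [show √(1 - s ^ 2) = cs s from rfl, ← hc2, pow_succ (g t) m, div_mul_eq_mul_div,
    div_le_div_iff₀ (by have := hs.1; positivity) (by positivity)] at hT
  have hsm : √(m : ℝ) ≤ m := by
    rw [sqrt_le_iff]; exact ⟨by linarith, by nlinarith⟩
  have hms : (m : ℝ) * s + √(m : ℝ) ≤ 2 * m := by
    linarith [mul_le_mul_of_nonneg_left hs.2.le (show (0 : ℝ) ≤ m by linarith)]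
  rw [div_pow, div_le_div_iff₀ (pow_pos hgt m) (by nlinarith [hs.1])]
  have hX2 : (0 : ℝ) < cs s ^ 2 * ((m : ℝ) + 1) := by positivity
  refine le_of_mul_le_mul_right ?_ hX2
  calc cs s ^ m * s ^ 2 * (cs s ^ 2 * ((m : ℝ) + 1))
      ≤ cs s ^ m * (4 * g t * σ') * (cs s ^ 2 * ((m : ℝ) + 1)) := by
        refine mul_le_mul_of_nonneg_right (mul_le_mul_of_nonneg_left ?_ (by positivity)) hX2.le
        linarith
    _ = 4 * g t * (cs s ^ 2 * cs s ^ m * (σ' * ((m : ℝ) + 1))) := by ring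
    _ ≤ 4 * g t * (g t ^ m * g t * (6 * ((m : ℝ) * s + √(m : ℝ)))) :=
        mul_le_mul_of_nonneg_left hT (by linarith)
    _ = g t ^ m * (24 * g t ^ 2) * ((m : ℝ) * s + √(m : ℝ)) := by ring
    _ ≤ g t ^ m * (24 * cs s ^ 2) * (2 * m) := by
        have := hs.1
        exact mul_le_mul (mul_le_mul_of_nonneg_left (by linarith) (by positivity)) hms
          (by positivity) (by positivity)
    _ ≤ 50 * g t ^ m * (cs s ^ 2 * ((m : ℝ) + 1)) := by
        have : 0 ≤ g t ^ m * cs s ^ 2 := by positivity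
        nlinarith

end Vale.Agent.P237.Petty.Tail
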